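import Vale.Agent.P073Y.Bd.Defs
import Vale.Agent.P073Z.MESH.Gen

/-!
# Charts under affine maps, lengths of wires, numbers of faces
-/

open Set Metric Topology Filter MeasureTheory
open scoped ENNReal NNReal

namespace P073

namespace M2

open Me
open Bd (Chart)

/-- a chart of the affine image gives a chart -/
theorem chart_pull (μ : E3 ≃ᴬ[ℝ] E3) {n : ℕ} {C B : Set E3} {M₁ M₂ K L : ℝ≥0}
    (h : Chart n (μ '' C) (μ '' B) M₁ M₂) (hK : LipschitzWith K μ) (hL : LipschitzWith L μ.symm) :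
    Chart n C B (M₁ * K) (L * M₂) := by
  obtain ⟨h1, φ, h2, h3, h4⟩ := h
  let τ : ConHomeo (μ '' C) C :=
    { toFun := μ.symm
      invFun := μ
      mapsTo := by
        rintro _ ⟨x, hx, rfl⟩
        rwa [μ.symm_apply_apply]
      mapsTo_inv := mapsTo_image _ _
      left_inv := fun x _ => μ.apply_symm_apply x
      right_inv := fun x _ => μ.symm_apply_apply x
      cont := μ.symm.continuous.continuousOn
      cont_inv := μ.continuous.continuousOn
      conical := conicalOn_of_affine μ.symm.toAffineEquiv.toAffineMap φ.conicalSet_left }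
  refine ⟨(image_subset_image_iff μ.injective).1 h1, τ.symm.trans φ, ?_,
    h3.comp hK.lipschitzOnWith (mapsTo_image _ _), hL.comp_lipschitzOnWith h4⟩
  rw [← h2, image_image]
  rfl

/-- a chart gives a chart of the affine image -/
theorem chart_push (μ : E3 ≃ᴬ[ℝ] E3) {n : ℕ} {C B : Set E3} {M₁ M₂ K L : ℝ≥0}
    (h : Chart n C B M₁ M₂) (hK : LipschitzWith K μ) (hL : LipschitzWith L μ.symm) :
    Chart n (μ '' C) (μ '' B) (M₁ * L) (K * M₂) := by
  refine chart_pull μ.symm ?_ hL hK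
  have e : ∀ X : Set E3, μ.symm '' (μ '' X) = X := fun X => by
    rw [image_image]
    simp
  rwa [e, e]

theorem chart_mono {n : ℕ} {C B : Set E3} {M₁ M₂ N₁ N₂ : ℝ≥0} (h : Chart n C B M₁ M₂)
    (h1 : M₁ ≤ N₁) (h2 : M₂ ≤ N₂) : Chart n C B N₁ N₂ := by
  obtain ⟨a, φ, b, c, d⟩ := h
  exact ⟨a, φ, b, c.weaken h1, d.weaken h2⟩

/-- a set with a chart of positive dimension has two points which are far apart -/
theorem chart_far {n : ℕ} {C B : Set E3} {M₁ M₂ : ℝ≥0} (h : Chart n C B M₁ M₂) (hn : 1 ≤ n) :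
    ∃ u ∈ C, ∃ v ∈ C, 2 ≤ M₁ * dist u v := by
  obtain ⟨-, φ, -, h3, -⟩ := h
  have : Nonempty (Fin n) := ⟨⟨0, hn⟩⟩
  have a1 : (fun _ => 1 : Fin n → ℝ) ∈ closedBall (0 : Fin n → ℝ) 1 := by simp
  have a2 : (fun _ => -1 : Fin n → ℝ) ∈ closedBall (0 : Fin n → ℝ) 1 := by simp
  refine ⟨_, φ.mapsTo_inv a1, _, φ.mapsTo_inv a2, le_trans ?_
    (h3.dist_le_mul _ (φ.mapsTo_inv a1) _ (φ.mapsTo_inv a2))⟩
  rw [φ.right_inv a1, φ.right_inv a2, dist_pi_const, Real.dist_eq]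
  norm_num

theorem dist_le_seg {x y u v : E3} (hu : u ∈ segment ℝ x y) (hv : v ∈ segment ℝ x y) :
    dist u v ≤ dist x y := by
  have h1 : ∀ w ∈ segment ℝ x y, segment ℝ x y ⊆ closedBall w (dist x y) := fun w hw => by
    have h := dist_add_dist_of_mem_segment hw
    refine (convex_closedBall _ _).segment_subset ?_ ?_
    · rw [mem_closedBall]
      linarith [dist_nonneg (x := w) (y := y)]
    · rw [mem_closedBall, dist_comm]
      linarith [dist_nonneg (x := x) (y := w)]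
  exact h1 v hv hu

/-- lower bound for the length of a wire -/
theorem chart_len {x y : E3} {B : Set E3} {M₁ M₂ : ℝ≥0} (h : Chart 1 (segment ℝ x y) B M₁ M₂) :
    2 ≤ M₁ * dist x y := by
  obtain ⟨u, hu, v, hv, h⟩ := chart_far h le_rfl
  exact h.trans (mul_le_mul_of_nonneg_left (dist_le_seg hu hv) M₁.2)

theorem sign_eq {s t : ℝ} (h1 : ⌊s⌋ = ⌊t⌋) (h2 : ⌈s⌉ = ⌈t⌉) (k : ℤ) :
    SignType.sign (s - k) = SignType.sign (t - k) := by
  rcases lt_trichotomy s k with h | h | h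
  · have := Int.floor_lt.2 h
    rw [h1, Int.floor_lt] at this
    rw [sign_neg (sub_neg.2 h), sign_neg (sub_neg.2 this)]
  · rw [h, Int.floor_intCast] at h1
    rw [h, Int.ceil_intCast] at h2
    have h3 := Int.floor_le t
    have h4 := Int.le_ceil t
    rw [← h1] at h3
    rw [← h2] at h4
    rw [h, le_antisymm h4 h3]
  · have := Int.lt_ceil.2 h
    rw [h2, Int.lt_ceil] at this
    rw [sign_pos (sub_pos.2 h), sign_pos (sub_pos.2 this)]

/-- a uniform bound for the number of cells in a bounded set -/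
theorem count {κ : Type} [Finite κ] (Λ : κ → E3 →ₗ[ℝ] ℝ) (R : ℝ) : ∃ M : ℕ,
    ∀ {K : RCx E3} {Ψ : E3 → Set (E3 →ᵃ[ℝ] ℝ)}, SC K Ψ → ∀ (θ : E3 → E3) (X : Set E3),
    (∀ x ∈ X, Ad Λ θ (Ψ x)) → (∀ x ∈ X, ∀ y ∈ X, dist (θ x) (θ y) ≤ R) →
    {l | K.cell l ⊆ X}.encard ≤ M := by
  classical
  have := Fintype.ofFinite κ
  have hB : ∀ a, ∃ B : ℕ, ∀ u v : E3, dist u v ≤ R → |Λ a u - Λ a v| ≤ B := fun a => by
    refine ⟨⌈‖LinearMap.toContinuousLinearMap (Λ a)‖ * R⌉₊, fun u v h => ?_⟩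
    have h1 := (LinearMap.toContinuousLinearMap (Λ a)).le_opNorm (u - v)
    rw [LinearMap.coe_toContinuousLinearMap', map_sub, ← dist_eq_norm u v] at h1
    exact (h1.trans (mul_le_mul_of_nonneg_left h (norm_nonneg _))).trans (Nat.le_ceil _)
  choose B hB using hB
  refine ⟨(Fintype.piFinset fun a => Finset.Icc (-(B a : ℤ) - 1) (B a + 1) ×ˢ
    Finset.Icc (-(B a : ℤ) - 1) (B a + 1)).card, fun {K Ψ} h θ X hA hd => ?_⟩
  rcases X.eq_empty_or_nonempty with rfl | ⟨x₀, hx₀⟩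
  · have : {l | K.cell l ⊆ ∅} = ∅ :=
      eq_empty_of_forall_notMem fun l hl => (K.cell_nonempty l).ne_empty (subset_empty_iff.1 hl)
    rw [this, encard_empty]
    exact zero_le
  choose p hp using K.ocell_nonempty
  rw [← encard_coe_eq_coe_finsetCard]
  refine encard_le_encard_of_injOn (f := fun l a => (⌊Λ a (θ (p l))⌋ - ⌊Λ a (θ x₀)⌋,
    ⌈Λ a (θ (p l))⌉ - ⌊Λ a (θ x₀)⌋)) (fun l hl => ?_) fun l hl l' hl' e => ?_
  · rw [Finset.mem_coe, Fintype.mem_piFinset]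
    intro a
    have h1 := abs_le.1 (hB a _ _ (hd _ (hl (hp l).1) _ hx₀))
    have h2 := Int.floor_le (Λ a (θ (p l)))
    have h3 := Int.lt_floor_add_one (Λ a (θ (p l)))
    have h4 := Int.le_ceil (Λ a (θ (p l)))
    have h5 := Int.ceil_lt_add_one (Λ a (θ (p l)))
    have h6 := Int.floor_le (Λ a (θ x₀))
    have h7 := Int.lt_floor_add_one (Λ a (θ x₀))
    simp only [Finset.mem_product, Finset.mem_Icc]
    refine ⟨⟨?_, ?_⟩, ?_, ?_⟩
    · have : ((-(B a : ℤ) - 1 : ℤ) : ℝ) ≤ (⌊Λ a (θ (p l))⌋ - ⌊Λ a (θ x₀)⌋ : ℤ) := by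
        push_cast
        linarith [h1.1]
      exact_mod_cast this
    · have : ((⌊Λ a (θ (p l))⌋ - ⌊Λ a (θ x₀)⌋ : ℤ) : ℝ) ≤ ((B a : ℤ) + 1 : ℤ) := by
        push_cast
        linarith [h1.2]
      exact_mod_cast this
    · have : ((-(B a : ℤ) - 1 : ℤ) : ℝ) ≤ (⌈Λ a (θ (p l))⌉ - ⌊Λ a (θ x₀)⌋ : ℤ) := by
        push_cast
        linarith [h1.1]
      exact_mod_cast this
    · have : ((⌈Λ a (θ (p l))⌉ - ⌊Λ a (θ x₀)⌋ : ℤ) : ℝ) < ((B a : ℤ) + 1 + 1 : ℤ) := by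
        push_cast
        linarith [h1.2]
      exact Int.lt_add_one_iff.1 (by exact_mod_cast this)
  · refine K.ocell_unique ?_ (hp l')
    rw [h.oc l _ (hp l)]
    intro ℓ hℓ
    obtain ⟨a, k, c, -, e'⟩ := hA _ (hl (hp l).1) ℓ hℓ
    have h1 := Prod.ext_iff.1 (congrFun e a)
    rw [e', e', sign_mul, sign_mul, sign_eq (sub_left_injective h1.1) (sub_left_injective h1.2)]

end M2

end P073
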