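import Vale.Agent.P073Y.Ms.Cell
import Vale.Agent.P073Y.Ms.Tool
import Vale.Agent.P073Z.MESH.Lines
import Vale.Agent.P073Z.A4.Shape

/-!
# The source mesh with cores
-/

open Set Metric Topology Filter MeasureTheory
open scoped ENNReal NNReal

namespace P073

namespace M2

open Me G2
open Me.Ctx (Far fine_eq)
open Bd (Chart)

/-- the constant `M` is good for the family `Λ` -/
structure Cst {κ : Type} (Λ : κ → E3 →ₗ[ℝ] ℝ) (R : ℝ) (M : ℝ≥0) : Prop where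
  chart : ∀ (C : Set E3) (θ n : E3 ≃ᴬ[ℝ] E3) (v : E3), IsCompact C → C.Nonempty →
    IntCut Λ (θ '' C) → (∀ x ∈ C, ∀ y ∈ C, dist (θ x) (θ y) ≤ R) → (∀ x, n x = θ x + v) →
    BiChart (Module.finrank ℝ (vectorSpan ℝ C)) (n '' C) (n '' intrinsicFrontier ℝ C) M
  dens : ∀ y, μH[1] (Lines Λ ∩ closedBall y 1) ≤ M
  count : ∀ {K : RCx E3} {Ψ : E3 → Set (E3 →ᵃ[ℝ] ℝ)}, SC K Ψ → ∀ (θ : E3 → E3) (X : Set E3),
    (∀ x ∈ X, Ad Λ θ (Ψ x)) → (∀ x ∈ X, ∀ y ∈ X, dist (θ x) (θ y) ≤ R) →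
    ({l | K.cell l ⊆ X}.encard : ℝ≥0∞) ≤ M

theorem exists_cst {κ : Type} [Finite κ] (Λ : κ → E3 →ₗ[ℝ] ℝ) (R : ℝ)
    (h : ∀ a i, ∃ k : ℤ, Λ a (Pi.single i 1) = k) : ∃ M : ℝ≥0, ∀ M', M ≤ M' → Cst Λ R M' := by
  obtain ⟨M₁, h₁⟩ := chart_of shape Λ R h
  obtain ⟨M₂, h₂⟩ := (lines.1 Λ).2
  obtain ⟨M₃, h₃⟩ := count Λ R
  refine ⟨max M₁ (max M₂ M₃), fun M' hM => ⟨h₁ M' ((le_max_left _ _).trans hM), fun y =>
    (h₂ y).trans (ENNReal.coe_le_coe.2 (((le_max_left _ _).trans (le_max_right _ _)).trans hM)),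
    fun hK θ X a b => ?_⟩⟩
  have h4 : (M₃ : ℝ≥0) ≤ M' := ((le_max_right _ _).trans (le_max_right _ _)).trans hM
  refine (ENat.toENNReal_le.2 (h₃ hK θ X a b)).trans ?_
  rw [ENat.toENNReal_coe]
  exact_mod_cast h4

theorem exists_sc (k : ℕ) : ∃ μ : E3 ≃ᴬ[ℝ] E3, (∀ x, μ x = (2:ℝ) ^ k • x) ∧
    LipschitzWith (2 ^ k) μ ∧ LipschitzWith (2⁻¹ ^ k) μ.symm := by
  obtain ⟨μ, e⟩ := exists_smul (c := (2:ℝ) ^ k) (by positivity) (.refl ℝ E3)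
  have h : ∀ x y, dist (μ x) (μ y) = 2 ^ k * dist x y := fun x y => by
    rw [e, e, dist_smul₀, Real.norm_of_nonneg (by positivity)]
    rfl
  refine ⟨μ, e, LipschitzWith.of_dist_le_mul fun x y => (h x y).le.trans (by simp),
    LipschitzWith.of_dist_le_mul fun x y => ?_⟩
  have h1 := h (μ.symm x) (μ.symm y)
  rw [μ.apply_symm_apply, μ.apply_symm_apply] at h1
  rw [h1, ← mul_assoc]
  simp

/-- charts of all faces and the number of faces -/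
def Fcs (K : RCx E3) (i : K.ι) (μ : E3 ≃ᴬ[ℝ] E3) (M : ℝ≥0) : Prop :=
  (∀ l, K.cell l ⊆ K.cell i → BiChart (K.dim l) (μ '' K.cell l) (μ '' K.bd l) M) ∧
    ({l | K.cell l ⊆ K.cell i}.encard : ℝ≥0∞) ≤ M

variable {Ω : Set E3} {P : Par} {c : Ctx Ω P} {K K' : RCx E3}

namespace Ctx.Cx

theorem nrm {κ : Type} {Λ : κ → E3 →ₗ[ℝ] ℝ} {R : ℝ} {M : ℝ≥0} (h : c.Cx 0 K) (hM : Cst Λ R M)
    (θ μ : E3 ≃ᴬ[ℝ] E3) (v : E3) {i : K.ι} (hA : ∀ x ∈ K.cell i, Ad Λ θ (c.Ψ 0 x))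
    (hd : ∀ x ∈ K.cell i, ∀ y ∈ K.cell i, dist (θ x) (θ y) ≤ R) (hn : ∀ x, μ x = θ x + v) :
    Fcs K i μ M :=
  ⟨fun _ hl => h.chart hM.chart θ μ v hl hA hd hn, hM.count h.sc θ _ hA hd⟩

theorem nrm_dy {κ : Type} {Λ : κ → E3 →ₗ[ℝ] ℝ} {R : ℝ} {M : ℝ≥0} (h : c.Cx 0 K)
    (hM : Cst Λ R M) {k : ℕ} {μ : E3 ≃ᴬ[ℝ] E3} (e : ∀ x, μ x = (2:ℝ) ^ k • x) {i : K.ι}
    (hA : ∀ x ∈ K.cell i, Ad Λ (dy P k) (c.Ψ 0 x))
    (hd : ∀ x ∈ K.cell i, ∀ y ∈ K.cell i, dist x y ≤ R * (2:ℝ)⁻¹ ^ k) : Fcs K i μ M := by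
  refine h.nrm hM (c.θ (Sum.inl k)) μ ((2:ℝ) ^ k • P.w) (fun x hx => (hA x hx).congr (c.hδ k))
    (fun x hx y hy => ?_) fun x => ?_
  · have h6 := hd x hx y hy
    rw [dist_dy (P := P) k, mul_comm] at h6
    rw [c.hδ, c.hδ]
    exact le_of_mul_le_mul_right h6 (by positivity)
  · rw [e, c.hδ, dy, ← smul_add, sub_add_cancel]

theorem refine {n : ℕ} (h : c.Cx 0 K) (h' : c.Cx n K') (i' : K'.ι) :
    ∃ i, K'.ocell i' ⊆ K.ocell i ∧ K'.cell i' ⊆ K.cell i := by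
  obtain ⟨x, hx⟩ := K'.ocell_nonempty i'
  obtain ⟨i, hi⟩ := h.exists_ocell (h'.mem hx.1)
  refine ⟨i, ?_, ?_⟩
  · rw [h.sc.oc i x hi, h'.sc.oc i' x hx]
    exact fun y hy ℓ hl => hy ℓ (c.Ψ_mono n x hl)
  · rw [h.sc.cc i x hi, h'.sc.cc i' x hx]
    exact fun y hy ℓ hl => hy ℓ (c.Ψ_mono n x hl)

theorem same {n n' : ℕ} (h : c.Cx n K) (h' : c.Cx n' K') (i : K.ι)
    (hi : ∀ j, ¬ K.cell i ⊆ Fine1 P j) : ∃ i', K'.cell i' = K.cell i := by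
  obtain ⟨x, hx⟩ := K.ocell_nonempty i
  obtain ⟨i', hi'⟩ := h'.exists_ocell (h.mem hx.1)
  have h1 : ∀ j, x ∉ Fine1 P j := fun j hj => hi j (h.fine_sub hx hj).1
  exact ⟨i', by rw [h.sc.cc i x hx, h'.sc.cc i' x hi', c.Ψ_eq n h1, c.Ψ_eq n' h1]⟩

theorem wm (h : c.Cx P.n K) (j : Fin P.N) : Wm Ω P j K where
  cvx := h.sc.cvx
  carrier := h.car
  sub_box := fun _ hz => h.sub_box hz
  fine := fun i hi =>
    let ⟨_, hx⟩ := K.ocell_nonempty i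
    ⟨_, h.fine c.ok.n_pos hx (hi hx.1)⟩
  coarse := fun e _ hb hf =>
    let ⟨_, hx⟩ := K.ocell_nonempty e
    ⟨_, isBox_hull _, h.buf hx (hb hx.1) fun h1 => hf (h.fine_sub hx h1.2).1⟩

theorem box_cell (h : c.Cx 0 K) {j : Fin P.N} {z : Fin 3 → ℤ} (hz : z ∈ P.Buf j) {X : Set E3}
    (hX : IsBox X) (hs : X ⊆ ucube z) : ∃ i, K.cell i = P.nu j ⁻¹' X := by
  obtain ⟨ξ, h1, h2⟩ := exists_mid hX
  have e : P.nu j ((c.θ (Sum.inr j)).symm ξ) = ξ := by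
    rw [← c.hν, ContinuousAffineEquiv.apply_symm_apply]
  have hb : (c.θ (Sum.inr j)).symm ξ ∈ P.BufSet j := ⟨z, hz, e.symm ▸ hs h1⟩
  obtain ⟨i, hi⟩ := h.exists_ocell (((buf_nr c.ok hb).mono (by norm_num)).big c.ok).1
  exact ⟨i, by rw [h.buf hi hb fun h => absurd h.1 (by norm_num), e, h2]⟩

/-- the scales -/
theorem exists_kf (h : c.Cx 0 K) : ∃ kf : K.ι → ℕ,
    (∀ i, (∀ x ∈ K.cell i, Far P x) → ∃ z, c.cube (kf i) z ∧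
      ∀ y ∈ K.cell i, dy P (kf i) y ∈ ucube z) ∧ (∀ i, ∀ x ∈ K.cell i, Zsz c.σ (kf i) x) ∧
    ∀ i, (∀ x ∈ K.cell i, Far P x) → ∀ x ∈ K.ocell i, ∀ l, c.Cb l x → kf i ≤ l := by
  classical
  have H : ∀ i, ∃ k, ((∀ x ∈ K.cell i, Far P x) → ∃ z, c.cube k z ∧
      ∀ y ∈ K.cell i, dy P k y ∈ ucube z) ∧ (∀ x ∈ K.cell i, Zsz c.σ k x) ∧
      ((∀ x ∈ K.cell i, Far P x) → ∀ x ∈ K.ocell i, ∀ l, c.Cb l x → k ≤ l) := fun i => by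
    by_cases hi : ∀ x ∈ K.cell i, Far P x
    · obtain ⟨x, hx⟩ := K.ocell_nonempty i
      have hk := (c.cover (h.mem hx.1)).resolve_right fun ⟨_, hj⟩ => (hi _ hx.1).not_co hj
      exact ⟨Nat.find hk, fun _ => h.cb hx (Nat.find_spec hk),
        fun y hy => (h.cb' hx (Nat.find_spec hk) hy).facts.2,
        fun _ y hy l hl => Nat.find_min' hk (h.cb' hy hl hx.1)⟩
    · push Not at hi
      obtain ⟨x, h1, h2⟩ := hi
      obtain ⟨j, hj⟩ := h.near h1 h2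
      exact ⟨P.k₀, fun h3 => absurd (h3 x h1) h2,
        fun y hy => (c.pin_nr ((mem_U.1 (hj hy)).mono (by norm_num))).zn,
        fun h3 => absurd (h3 x h1) h2⟩
  choose kf a b d using H
  exact ⟨kf, a, b, d⟩

theorem near_diam {n : ℕ} (h : c.Cx n K) {i : K.ι} {j : Fin P.N}
    (hi : (K.cell i ∩ P.U j).Nonempty) {x y : E3} (hx : x ∈ K.cell i) (hy : y ∈ K.cell i) :
    dist x y ≤ (P.T j).b * P.η := by
  obtain ⟨p, h1, h2⟩ := hi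
  exact (h.adj hy hx).dist_le ((h.adj h1 hy).nr (mem_U.1 h2) (by norm_num) (by norm_num))

end Ctx.Cx

theorem U_eq (ok : P.Ok Ω) {j j' : Fin P.N} {x : E3} (h : x ∈ P.U j) (h' : x ∈ P.U j') : j = j' :=
  Nr.eq ok ((mem_U.1 h).mono (by norm_num)) ((mem_U.1 h').mono (by norm_num))

theorem buf_U (ok : P.Ok Ω) {j : Fin P.N} : P.BufSet j ⊆ P.U j := fun _ hx =>
  mem_U.2 ((buf_nr ok hx).mono (by norm_num))

theorem nr_ten {j : Fin P.N} {x : E3} (h : x ∈ thickening (10 * (P.T j).b * P.η) (P.K j)) :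
    Nr P j 10 x := by
  rw [mem_thickening_iff, mul_assoc] at h
  exact h

theorem cth_ball {k : ℕ} {z : Fin 3 → ℤ} {x y : E3} (hx : dy P k x ∈ cthickening 1 (ucube z))
    (hy : y ∈ closedBall x ((2:ℝ)⁻¹ ^ k)) : dy P k y ∈ cthickening 2 (ucube z) := by
  have h1 : dist (dy P k y) (dy P k x) ≤ 1 := by
    rw [mem_closedBall, dist_dy (P := P) k] at hy
    exact (mul_le_iff_le_one_right (by positivity)).1 hy
  have h2 := cthickening_cthickening_subset zero_le_one zero_le_one (ucube z)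
    (mem_cthickening_of_dist_le _ _ 1 _ hx h1)
  rwa [one_add_one_eq_two] at h2

/-- all points of the cell are far -/
def Fc (P : Par) (K : RCx E3) (i : K.ι) : Prop := ∀ x ∈ K.cell i, Far P x

/-- the coarse complex with its scales -/
structure Sc (c : Ctx Ω P) (K : RCx E3) (kf : K.ι → ℕ) : Prop where
  cx : c.Cx 0 K
  cube : ∀ i, Fc P K i → ∃ z, c.cube (kf i) z ∧ ∀ y ∈ K.cell i, dy P (kf i) y ∈ ucube z
  zn : ∀ i, ∀ x ∈ K.cell i, Zsz c.σ (kf i) x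

namespace Sc

variable {kf : K.ι → ℕ} (h : Sc c K kf) {i : K.ι} {j : Fin P.N} {x y : E3}
include h

theorem cb (hi : Fc P K i) (hx : x ∈ K.cell i) : c.Cb (kf i) x :=
  let ⟨z, h1, h2⟩ := h.cube i hi
  ⟨z, h1, h2 x hx⟩

theorem diam (hi : Fc P K i) (hx : x ∈ K.cell i) (hy : y ∈ K.cell i) :
    dist x y ≤ (2:ℝ)⁻¹ ^ kf i :=
  let ⟨_, _, h2⟩ := h.cube i hi
  dist_cube (h2 x hx) (h2 y hy)

theorem near (hi : ¬ Fc P K i) : ∃ j, K.cell i ⊆ P.U j := by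
  have h4 : ∃ x ∈ K.cell i, ¬ Far P x := by
    by_contra h4
    exact hi fun x hx => by_contra fun h5 => h4 ⟨x, hx, h5⟩
  obtain ⟨x₀, h4, h5⟩ := h4
  exact h.cx.near h4 h5

theorem far (hx : x ∈ K.cell i) (hU : ∀ j, x ∉ P.U j) : Fc P K i :=
  by_contra fun hi => let ⟨j, hj⟩ := h.near hi; hU j (hj hx)

theorem kf_near (hi : (K.cell i ∩ P.U j).Nonempty) : kf i = P.k₀ :=
  let ⟨x, h1, h2⟩ := hi
  (h.zn i x h1).eq (c.pin_nr ((mem_U.1 h2).mono (by norm_num)))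

theorem exists_iso {M₀ : ℝ≥0} {Mt : Ty → ℕ → ℝ≥0} (hg : Cst gΛ 1 M₀)
    (hn : ∀ T m, M₀ ≤ Mt T m ∧ Cst (nΛ T m) T.b (Mt T m)) {μ : E3 ≃ᴬ[ℝ] E3}
    (e : ∀ x, μ x = (2:ℝ) ^ kf i • x) : ∃ MI : ℝ≥0, Fcs K i μ MI ∧ M₀ ≤ MI ∧
      (Fc P K i → MI = M₀) ∧ ∀ j, ¬ Fc P K i → K.cell i ⊆ P.U j → MI = Mt (P.T j) (P.m j) := by
  by_cases hi : Fc P K i
  · exact ⟨M₀, h.cx.nrm_dy hg e (fun x hx => Ctx.ad_far (hi x hx) (h.cb hi hx))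
      (fun x hx y hy => (h.diam hi hx hy).trans_eq (one_mul _).symm), le_rfl,
      fun _ => rfl, fun _ h1 => absurd hi h1⟩
  · obtain ⟨j, hj⟩ := h.near hi
    obtain ⟨p, hp⟩ := K.cell_nonempty i
    have h1 : (K.cell i ∩ P.U j).Nonempty := ⟨_, hp, hj hp⟩
    rw [h.kf_near h1] at e
    exact ⟨_, h.cx.nrm_dy (hn _ _).2 e (fun x hx => Ctx.ad_near (mem_U.1 (hj hx)))
      fun x hx y hy => h.cx.near_diam h1 hx hy, (hn _ _).1, fun h2 => absurd h2 hi,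
      fun j' _ h2 => by rw [U_eq c.ok (hj hp) (h2 hp)]⟩

theorem exists_nm {M₀ MI : ℝ≥0} (hp : Cst pΛ 1 M₀) {μ₀ : E3 ≃ᴬ[ℝ] E3}
    (e : ∀ x, μ₀ x = (2:ℝ) ^ kf i • x) (i1 : Fcs K i μ₀ MI) (i2 : M₀ ≤ MI) :
    ∃ (μ : E3 ≃ᴬ[ℝ] E3) (M : ℝ≥0), Fcs K i μ M ∧ (M₀ ≤ M ∧ M ≤ MI) ∧
      (∀ j, K.cell i ⊆ P.BufSet j → μ = c.θ (Sum.inr j) ∧ M = M₀) ∧
      ((∀ j, ¬ K.cell i ⊆ P.BufSet j) → (∀ x, μ x = (2:ℝ) ^ kf i • x) ∧ M = MI) := by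
  by_cases hb : ∃ j, K.cell i ⊆ P.BufSet j
  · obtain ⟨j, hj⟩ := hb
    obtain ⟨p, hpt⟩ := K.ocell_nonempty i
    have h1 := h.cx.buf hpt (hj hpt.1) fun h => absurd h.1 (by norm_num)
    refine ⟨c.θ (Sum.inr j), M₀, h.cx.nrm hp _ _ 0 (fun x hx => (Ctx.ad_box (hj hx)
      fun h => absurd h.1 (by norm_num)).congr (c.hν j)) (fun x hx y hy => ?_)
      fun x => (add_zero _).symm, ⟨le_rfl, i2⟩, fun j' hj' => ?_, fun h2 => absurd hj (h2 j)⟩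
    · rw [c.hν, c.hν]
      exact dist_ucube (hull_cube (floor_mem _) (h1.subset hx))
        (hull_cube (floor_mem _) (h1.subset hy))
    · rw [U_eq c.ok (buf_U c.ok (hj hpt.1)) (buf_U c.ok (hj' hpt.1))]
      exact ⟨rfl, rfl⟩
  · exact ⟨μ₀, MI, i1, ⟨i2, le_rfl⟩, fun j hj => absurd ⟨j, hj⟩ hb, fun _ => ⟨e, rfl⟩⟩

theorem wire_far {e : K.ι} (hi : Fc P K i) (he : K.cell e ⊆ K.cell i) (h1 : K.dim e = 1)
    (hx : x ∈ K.cell e) : (2:ℝ) ^ kf i • (x - P.w) ∈ Lines gΛ :=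
  let ⟨_, hp⟩ := K.ocell_nonempty e
  h.cx.wire hp (Ctx.ad_far (hi _ (he hp.1)) (h.cb hi (he hp.1))) h1 hx

theorem wire_grid {e : K.ι} (hi : Fc P K i) (he : K.cell e ⊆ K.cell i) (h1 : K.dim e = 1)
    (h2 : ¬ K.cell e ⊆ Core P c.𝓒) (hx : x ∈ K.cell e) :
    (2:ℝ) ^ (kf i + 2) • (x - P.w) ∈ gridLines :=
  let ⟨_, hp⟩ := K.ocell_nonempty e
  lines.2 (h.cx.wire hp (Ctx.ad_grid (hi _ (he hp.1)) (h.cb hi (he hp.1))
    fun h3 => h2 (h.cx.core_sub hp h3)) h1 hx)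

theorem wire_near {e : K.ι} (h1 : K.dim e = 1) (h2 : K.cell e ⊆ P.U j) (hx : x ∈ K.cell e) :
    P.η⁻¹ • (x - P.w) ∈ Lines (nΛ (P.T j) (P.m j)) := by
  obtain ⟨_, hp⟩ := K.ocell_nonempty e
  rw [η_inv]
  exact h.cx.wire hp (Ctx.ad_near (mem_U.1 (h2 hp.1))) h1 hx

theorem core_nbr {q : ℕ × (Fin 3 → ℤ)} (hq : q ∈ c.𝓒) (hx : x ∈ K.ocell i)
    (h1 : dy P q.1 x ∈ cthickening 1 (ucube q.2)) :
    Fc P K i ∧ kf i = q.1 ∧ (x ∈ Core P c.𝓒 → K.cell i = dy P q.1 ⁻¹' kcell (dy P q.1 x)) ∧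
    (x ∉ Core P c.𝓒 → K.cell i = dy P q.1 ⁻¹' hull (dy P q.1 x)) := by
  have h2 : ∀ y ∈ closedBall x ((2:ℝ)⁻¹ ^ q.1), Pin c.σ q.1 y ∧ ∀ j, y ∉ P.U j :=
    fun y hy => (c.ok2.cpin q hq y (cth_ball h1 hy)).2
  have h3 := h2 x (mem_closedBall_self (by positivity))
  exact ⟨h.far hx.1 h3.2, (h.zn i x hx.1).eq h3.1, h.cx.unif hx h2⟩

theorem core_meet {q : ℕ × (Fin 3 → ℤ)} (hq : q ∈ c.𝓒)
    (hi : (K.cell i ∩ dy P q.1 ⁻¹' ucube q.2).Nonempty) :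
    K.cell i ⊆ dy P q.1 ⁻¹' cthickening 1 (ucube q.2) := by
  obtain ⟨y, h1, h2⟩ := hi
  obtain ⟨-, h3, h4⟩ := Ctx.core_pin (k := q.1) (z := q.2) hq h2
  obtain ⟨z, -, h5⟩ := h.cube i (h.far h1 h4)
  rw [(h.zn i y h1).eq h3] at h5
  exact fun x hx => mem_cthickening_of_dist_le _ _ 1 _ h2 (dist_ucube (h5 x hx) (h5 y h1))

end Sc

theorem len_of {k : ℕ} {M : ℝ≥0} {x y : E3} {B : Set E3}
    (h : Chart 1 (segment ℝ x y) B (M / 2⁻¹ ^ k) (M * 2⁻¹ ^ k)) :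
    (2:ℝ)⁻¹ ^ k ≤ M * dist x y := by
  have h5 := chart_len h
  have h6 : (0:ℝ) < 2⁻¹ ^ k := by positivity
  push_cast at h5
  rw [div_mul_eq_mul_div, le_div_iff₀ h6] at h5
  linarith

/-- the mesh is the one given by the construction -/
structure Canon (c : Ctx Ω P) {M₀ : ℝ≥0} {Mt : Ty → ℕ → ℝ≥0} {S₀ : Set E3}
    {S : Ty → ℕ → Set E3} (𝓜 : Mesh2 Ω P c.σ c.𝓒 M₀ Mt S₀ S) : Prop where
  cx : c.Cx 0 𝓜.Q
  cx' : c.Cx P.n 𝓜.Q'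
  far : ∀ i, 𝓜.far i ↔ Fc P 𝓜.Q i
  least : ∀ i, 𝓜.far i → ∀ x ∈ 𝓜.Q.ocell i, IsLeast {k | c.Cb k x} (𝓜.kf i)

theorem mesh_of {M₀ : ℝ≥0} {Mt : Ty → ℕ → ℝ≥0} (hp : Cst pΛ 1 M₀) (hg : Cst gΛ 1 M₀)
    (hn : ∀ T m, M₀ ≤ Mt T m ∧ Cst (nΛ T m) T.b (Mt T m))
    (hmul : ∀ {s : ℕ∞}, s ≤ (3 ^ 15 : ℕ) → (s : ℝ≥0∞) ≤ M₀) (c : Ctx Ω P) :
    ∃ 𝓜 : Mesh2 Ω P c.σ c.𝓒 M₀ Mt (Lines gΛ) fun T m => Lines (nΛ T m), Canon c 𝓜 := by
  obtain ⟨K, h⟩ := c.exists_cx 0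
  obtain ⟨K', h'⟩ := c.exists_cx P.n
  obtain ⟨kf, k1, k2, k3⟩ := h.exists_kf
  have H : Sc c K kf := ⟨h, k1, k2⟩
  choose sc s1 s2 s3 using exists_sc
  choose MI i1 i2 i3 i4 using fun i => H.exists_iso hg hn (s1 (kf i))
  choose nm M n1 n2 n3 n4 using fun i => H.exists_nm hp (s1 (kf i)) (i1 i) (i2 i)
  have hch : ∀ i l, K.cell l ⊆ K.cell i →
      Chart (K.dim l) (K.cell l) (K.bd l) (MI i / 2⁻¹ ^ kf i) (MI i * 2⁻¹ ^ kf i) := fun i l hl => by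
    have := chart_pull (sc (kf i)) ((i1 i).1 l hl) (s2 _) (s3 _)
    rwa [mul_comm (2⁻¹ ^ kf i), ← div_inv_eq_mul, ← inv_pow] at this
  exact ⟨{
    Q := K
    Q' := K'
    cvx := h.sc.cvx
    carrier := h.car
    cvx' := h'.sc.cvx
    carrier' := h'.car
    wm := h'.wm
    keep := h.same h'
    back := h'.same h
    refine := h.refine h'
    sub' := fun i x hx => by
      obtain ⟨i', h1⟩ := h'.exists_ocell (h.mem hx)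
      obtain ⟨l, h2, h3⟩ := h.refine h' i'
      exact ⟨i', h1.1, h3.trans (K.cell_subset_of_mem (h2 h1) hx)⟩
    fine_sub := fun i j ⟨x, h1, h2⟩ => h.fine_sub h1 h2
    fine_sub' := fun i j ⟨x, h1, h2⟩ => h'.fine_sub h1 h2
    rat := fun i hi x hx => h.rat hi hx
    rat' := fun i hi x hx => h'.rat hi hx
    mult := fun x => hmul (h.mult x)
    mult' := fun x => hmul (h'.mult x)
    ν := fun j => c.θ (Sum.inr j)
    ν_eq := c.hν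
    near_hull := fun i j x hx h1 y hy => h.box hx (nr_ten h1) hy
    buf := fun i j x hx hb => h.buf hx hb fun h => absurd h.1 (by norm_num)
    box_cell := fun j z hz X => h.box_cell hz
    far := Fc P K
    kf := kf
    zone := k2
    kf_face := fun i l ⟨x, h1, h2⟩ => le_succ_of_pow (k2 i x h2).1 (k2 l x h1).2
    kf_pin := fun i k x hx => (k2 i x hx).eq
    kf_near := fun i j => H.kf_near
    far_face := fun i l hi hl x hx => hi x (hl hx)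
    far_K := fun i j hi => Set.disjoint_left.2 fun x hx h1 => (hi x hx).not_co (nr_ten h1).co
    far_cube := fun i hi => let ⟨z, _, h2⟩ := k1 i hi; ⟨z, h2⟩
    near := fun i => H.near
    far_diam := fun i hi x hx y => H.diam hi hx
    near_diam := fun i j hi x hx y hy => h.near_diam hi hx hy
    MI := MI
    MI_far := i3
    MI_near := i4
    chartI := hch
    wire_len := fun i e x y h1 h2 h3 => len_of (h2 ▸ h3 ▸ hch i e h1)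
    nm := nm
    M := M
    chart := fun i => (n1 i).1
    nm_buf := n3
    nm_iso := n4
    faces := fun i => (n1 i).2
    M_le := n2
    wire_far := fun i e hi he h1 x => H.wire_far hi he h1
    wire_grid := fun i e hi he h1 h2 x => H.wire_grid hi he h1 h2
    wire_near := fun e j h1 h2 x => H.wire_near h1 h2
    unif := fun i k x hx => h.unif hx
    core_nbr := fun i q hq x => H.core_nbr hq
    core_meet := fun i q => H.core_meet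
    in_hull := fun i k x hx => h.in_hull hx
    ball_sub := fun k q s => h.ball_sub },
    h, h', fun _ => Iff.rfl, fun i hi x hx => ⟨H.cb hi hx.1, k3 i hi x hx⟩⟩

theorem mesh_all : ∃ (M₀ : ℝ≥0) (Mt : Ty → ℕ → ℝ≥0) (S₀ : Set E3) (S : Ty → ℕ → Set E3),
    1 ≤ M₀ ∧ (MeasurableSet S₀ ∧ ∀ y, μH[1] (S₀ ∩ closedBall y 1) ≤ M₀) ∧
    (∀ T m, M₀ ≤ Mt T m ∧ MeasurableSet (S T m) ∧ ∀ y, μH[1] (S T m ∩ closedBall y 1) ≤ Mt T m) ∧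
    ∀ {Ω : Set E3} {P : Par} (c : Ctx Ω P),
      ∃ 𝓜 : Mesh2 Ω P c.σ c.𝓒 M₀ Mt S₀ S, Canon c 𝓜 := by
  obtain ⟨Mp, hp⟩ := exists_cst pΛ 1 pΛ_int
  obtain ⟨Mg, hg⟩ := exists_cst gΛ 1 gΛ_int
  choose Mn hn using fun (T : Ty) (m : ℕ) => exists_cst (nΛ T m) T.b (nΛ_int T m)
  obtain ⟨M₀, b1, b2, b3⟩ : ∃ M₀ : ℝ≥0, Mp ≤ M₀ ∧ Mg ≤ M₀ ∧ ((3 ^ 15 : ℕ) : ℝ≥0) ≤ M₀ :=
    ⟨max Mp (max Mg _), le_max_left _ _, (le_max_left _ _).trans (le_max_right _ _),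
      (le_max_right _ _).trans (le_max_right _ _)⟩
  replace hp := hp M₀ b1
  replace hg := hg M₀ b2
  replace hn := fun T m => hn T m (max M₀ (Mn T m)) (le_max_right _ _)
  refine ⟨M₀, fun T m => max M₀ (Mn T m), Lines gΛ, fun T m => Lines (nΛ T m),
    le_trans (by norm_num) b3, ⟨(lines.1 _).1, hg.dens⟩,
    fun T m => ⟨le_max_left _ _, (lines.1 _).1, (hn T m).dens⟩, ?_⟩
  intro Ω P c
  refine mesh_of hp hg (fun T m => ⟨le_max_left _ _, hn T m⟩) (fun hs => ?_) c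
  refine (ENat.toENNReal_le.2 hs).trans ?_
  rw [ENat.toENNReal_coe]
  exact_mod_cast b3

theorem mesh2 : MESH2 := by
  obtain ⟨M₀, Mt, S₀, S, h1, h2, h3, h4⟩ := mesh_all
  refine ⟨M₀, Mt, S₀, S, h1, h2, h3, fun P σ 𝓒 ok2 => ?_⟩
  obtain ⟨c, rfl, rfl⟩ := exists_ctx ok2
  exact (h4 c).nonempty

end M2

end P073
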