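import Vale.Agent.P073Y.Gd.Sk
import Vale.Agent.P073Y.Bd.Defs
import Vale.Agent.P073Z.MESH.Geo

/-!
# The source mesh with cores: statements

`P : Par` carries the types, `σ` is the local mesh size, `𝓒` is the set of the dyadic core cubes
`(k, z)`, the cube is `dy P k ⁻¹' ucube z` with `dy P k x = 2 ^ k • (x - P.w)`.
`Q` is the coarse complex, `Q'` is `Q` with the wires in `Fine1` subdivided.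
-/

open Set Metric Topology Filter MeasureTheory
open scoped ENNReal NNReal

namespace P073

namespace M2

open Me (dy)
open G2 (Fine1 Wm)
open Bd (Chart)

/-- the mesh size at `x` forces the dyadic scale `k` -/
def Pin (σ : E3 → ℝ) (k : ℕ) (x : E3) : Prop :=
  11 / 10 * (2:ℝ)⁻¹ ^ k ≤ σ x ∧ σ x ≤ 17 / 10 * (2:ℝ)⁻¹ ^ k

/-- the smallest lattice box containing `ξ` -/
def hull (ξ : E3) : Set E3 := Icc (fun l => (⌊ξ l⌋ : ℝ)) (fun l => (⌈ξ l⌉ : ℝ))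

/-- the union of the core cubes -/
def Core (P : Par) (𝓒 : Set (ℕ × (Fin 3 → ℤ))) : Set E3 :=
  {x | ∃ c ∈ 𝓒, dy P c.1 x ∈ ucube c.2}

/-- admissible mesh sizes and cores -/
structure Ok2 (Ω : Set E3) (P : Par) (σ : E3 → ℝ) (𝓒 : Set (ℕ × (Fin 3 → ℤ))) : Prop where
  ok : P.Ok Ω
  lip : LipschitzWith (1 / 10) σ
  pos : ∀ x ∈ Ω, 0 < σ x ∧ σ x ≤ 2 ∧ closedBall x (σ x) ⊆ Ω
  pin : ∀ j, ∀ x ∈ cthickening (100 * (P.T j).b * P.η) (P.K j), Pin σ P.k₀ x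
  cpin : ∀ c ∈ 𝓒, ∀ x, dy P c.1 x ∈ cthickening 2 (ucube c.2) →
    x ∈ Ω ∧ Pin σ c.1 x ∧ ∀ j, x ∉ P.U j

/-- the source complexes -/
structure Mesh2 (Ω : Set E3) (P : Par) (σ : E3 → ℝ) (𝓒 : Set (ℕ × (Fin 3 → ℤ))) (M₀ : ℝ≥0)
    (Mt : Ty → ℕ → ℝ≥0) (S₀ : Set E3) (S : Ty → ℕ → Set E3) where
  /-- the coarse complex -/
  Q : RCx E3
  /-- the refined complex -/
  Q' : RCx E3
  cvx : Q.Cvx
  carrier : Q.carrier = Ω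
  cvx' : Q'.Cvx
  carrier' : Q'.carrier = Ω
  wm : ∀ j, Wm Ω P j Q'
  keep : ∀ i, (∀ j, ¬ Q.cell i ⊆ Fine1 P j) → ∃ i', Q'.cell i' = Q.cell i
  back : ∀ i', (∀ j, ¬ Q'.cell i' ⊆ Fine1 P j) → ∃ i, Q.cell i = Q'.cell i'
  refine : ∀ i', ∃ i, Q'.ocell i' ⊆ Q.ocell i ∧ Q'.cell i' ⊆ Q.cell i
  sub' : ∀ i, Q'.Sub (Q.cell i)
  fine_sub : ∀ i j, (Q.ocell i ∩ Fine1 P j).Nonempty → Q.cell i ⊆ Fine1 P j ∧ Q.dim i ≤ 1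
  fine_sub' : ∀ i j, (Q'.ocell i ∩ Fine1 P j).Nonempty → Q'.cell i ⊆ Fine1 P j ∧ Q'.dim i ≤ 1
  rat : ∀ i, Q.dim i = 0 → ∀ x ∈ Q.cell i, ∀ k, ∃ q : ℚ, x k = P.w k + q
  rat' : ∀ i, Q'.dim i = 0 → ∀ x ∈ Q'.cell i, ∀ k, ∃ q : ℚ, x k = P.w k + q
  mult : ∀ x, ({i | x ∈ Q.cell i}.encard : ℝ≥0∞) ≤ M₀
  mult' : ∀ x, ({i | x ∈ Q'.cell i}.encard : ℝ≥0∞) ≤ M₀
  /-- normalised coordinates as affine equivalences -/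
  ν : Fin P.N → E3 ≃ᴬ[ℝ] E3
  ν_eq : ∀ j x, ν j x = P.nu j x
  near_hull : ∀ i j, ∀ x ∈ Q.ocell i, x ∈ thickening (10 * (P.T j).b * P.η) (P.K j) →
    Q.cell i ⊆ P.nu j ⁻¹' hull (P.nu j x)
  buf : ∀ i j, ∀ x ∈ Q.ocell i, x ∈ P.BufSet j → Q.cell i = P.nu j ⁻¹' hull (P.nu j x)
  box_cell : ∀ j, ∀ z ∈ P.Buf j, ∀ X, IsBox X → X ⊆ ucube z → ∃ i, Q.cell i = P.nu j ⁻¹' X
  /-- far cells -/
  far : Q.ι → Prop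
  /-- the dyadic scales of all cells -/
  kf : Q.ι → ℕ
  zone : ∀ i, ∀ x ∈ Q.cell i, 9 / 10 * (2:ℝ)⁻¹ ^ kf i ≤ σ x ∧ σ x ≤ 21 / 10 * (2:ℝ)⁻¹ ^ kf i
  kf_face : ∀ i l, (Q.cell l ∩ Q.cell i).Nonempty → kf l ≤ kf i + 1
  kf_pin : ∀ i k, ∀ x ∈ Q.cell i, Pin σ k x → kf i = k
  kf_near : ∀ i j, (Q.cell i ∩ P.U j).Nonempty → kf i = P.k₀
  far_face : ∀ i l, far i → Q.cell l ⊆ Q.cell i → far l
  far_K : ∀ i j, far i → Disjoint (Q.cell i) (thickening (10 * (P.T j).b * P.η) (P.K j))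
  far_cube : ∀ i, far i → ∃ z, Q.cell i ⊆ dy P (kf i) ⁻¹' ucube z
  near : ∀ i, ¬ far i → ∃ j, Q.cell i ⊆ P.U j
  far_diam : ∀ i, far i → ∀ x ∈ Q.cell i, ∀ y ∈ Q.cell i, dist x y ≤ (2:ℝ)⁻¹ ^ kf i
  near_diam : ∀ i j, (Q.cell i ∩ P.U j).Nonempty → ∀ x ∈ Q.cell i, ∀ y ∈ Q.cell i,
    dist x y ≤ (P.T j).b * P.η
  /-- constants of the isotropic charts -/
  MI : Q.ι → ℝ≥0
  MI_far : ∀ i, far i → MI i = M₀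
  MI_near : ∀ i j, ¬ far i → Q.cell i ⊆ P.U j → MI i = Mt (P.T j) (P.m j)
  chartI : ∀ i l, Q.cell l ⊆ Q.cell i →
    Chart (Q.dim l) (Q.cell l) (Q.bd l) (MI i / 2⁻¹ ^ kf i) (MI i * 2⁻¹ ^ kf i)
  wire_len : ∀ i e x y, Q.cell e ⊆ Q.cell i → Q.dim e = 1 → Q.cell e = segment ℝ x y →
    (2:ℝ)⁻¹ ^ kf i ≤ MI i * dist x y
  /-- normalising maps -/
  nm : Q.ι → E3 ≃ᴬ[ℝ] E3
  /-- constants of the normalised charts -/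
  M : Q.ι → ℝ≥0
  chart : ∀ i l, Q.cell l ⊆ Q.cell i →
    BiChart (Q.dim l) (nm i '' Q.cell l) (nm i '' Q.bd l) (M i)
  nm_buf : ∀ i j, Q.cell i ⊆ P.BufSet j → nm i = ν j ∧ M i = M₀
  nm_iso : ∀ i, (∀ j, ¬ Q.cell i ⊆ P.BufSet j) →
    (∀ x, nm i x = (2:ℝ) ^ kf i • x) ∧ M i = MI i
  faces : ∀ i, ({l | Q.cell l ⊆ Q.cell i}.encard : ℝ≥0∞) ≤ M i
  M_le : ∀ i, M₀ ≤ M i ∧ M i ≤ MI i
  wire_far : ∀ i e, far i → Q.cell e ⊆ Q.cell i → Q.dim e = 1 → ∀ x ∈ Q.cell e,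
    (2:ℝ) ^ kf i • (x - P.w) ∈ S₀
  wire_grid : ∀ i e, far i → Q.cell e ⊆ Q.cell i → Q.dim e = 1 → ¬ Q.cell e ⊆ Core P 𝓒 →
    ∀ x ∈ Q.cell e, (2:ℝ) ^ (kf i + 2) • (x - P.w) ∈ gridLines
  wire_near : ∀ e j, Q.dim e = 1 → Q.cell e ⊆ P.U j → ∀ x ∈ Q.cell e,
    P.η⁻¹ • (x - P.w) ∈ S (P.T j) (P.m j)
  /-- where the size is pinned the cells are lattice boxes or Kuhn simplices -/
  unif : ∀ i k, ∀ x ∈ Q.ocell i,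
    (∀ y ∈ closedBall x ((2:ℝ)⁻¹ ^ k), Pin σ k y ∧ ∀ j, y ∉ P.U j) →
    (x ∈ Core P 𝓒 → Q.cell i = dy P k ⁻¹' kcell (dy P k x)) ∧
    (x ∉ Core P 𝓒 → Q.cell i = dy P k ⁻¹' hull (dy P k x))
  core_nbr : ∀ i, ∀ c ∈ 𝓒, ∀ x ∈ Q.ocell i, dy P c.1 x ∈ cthickening 1 (ucube c.2) →
    far i ∧ kf i = c.1 ∧ (x ∈ Core P 𝓒 → Q.cell i = dy P c.1 ⁻¹' kcell (dy P c.1 x)) ∧
    (x ∉ Core P 𝓒 → Q.cell i = dy P c.1 ⁻¹' hull (dy P c.1 x))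
  core_meet : ∀ i, ∀ c ∈ 𝓒, (Q.cell i ∩ dy P c.1 ⁻¹' ucube c.2).Nonempty →
    Q.cell i ⊆ dy P c.1 ⁻¹' cthickening 1 (ucube c.2)
  /-- small cells lie in the boxes of the coarser lattices -/
  in_hull : ∀ i k, ∀ x ∈ Q.ocell i, (∀ j, x ∉ P.U j) → σ x < 2 * (2:ℝ)⁻¹ ^ k →
    Q.cell i ⊆ dy P k ⁻¹' hull (dy P k x)
  /-- cubes with faces on the planes of a coarser lattice are subcomplexes -/
  ball_sub : ∀ (k : ℕ) (c : E3) (s : ℝ), closedBall c s ⊆ Ω →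
    (∀ l, (∃ a : ℤ, (2:ℝ) ^ k * (c l - s - P.w l) = a) ∧
      ∃ a : ℤ, (2:ℝ) ^ k * (c l + s - P.w l) = a) →
    (∀ x ∈ sphere c s, σ x < 2 * (2:ℝ)⁻¹ ^ k ∧ ∀ j, x ∉ P.U j) →
    Q.Sub (closedBall c s) ∧ Q.Sub (sphere c s)

/-- existence of the mesh -/
def MESH2 : Prop := ∃ (M₀ : ℝ≥0) (Mt : Ty → ℕ → ℝ≥0) (S₀ : Set E3) (S : Ty → ℕ → Set E3),
  1 ≤ M₀ ∧ (MeasurableSet S₀ ∧ ∀ y, μH[1] (S₀ ∩ closedBall y 1) ≤ M₀) ∧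
  (∀ T m, M₀ ≤ Mt T m ∧ MeasurableSet (S T m) ∧ ∀ y, μH[1] (S T m ∩ closedBall y 1) ≤ Mt T m) ∧
  ∀ {Ω : Set E3} (P : Par) (σ : E3 → ℝ) (𝓒 : Set (ℕ × (Fin 3 → ℤ))), Ok2 Ω P σ 𝓒 →
    Nonempty (Mesh2 Ω P σ 𝓒 M₀ Mt S₀ S)

/-- the halo of the core cubes of scale `k` -/
def halo (P : Par) (k : ℕ) (𝓩 : Set (Fin 3 → ℤ)) : Set E3 :=
  {x | ∃ z ∈ 𝓩, dy P k x ∈ cthickening 2 (ucube z)}

open Classical in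
/-- a mesh size: `ς` is an upper bound, the base value is `3 / 2 * η`, with bumps at the cores -/
noncomputable def size (P : Par) (ς : E3 → ℝ) (k : ℕ) (𝓩 : Set (Fin 3 → ℤ)) (x : E3) : ℝ :=
  min (ς x) (max (3 / 2 * P.η)
    (if 𝓩.Nonempty then 3 / 2 * (2:ℝ)⁻¹ ^ k - infDist x (halo P k 𝓩) / 10 else 0))

/-- this mesh size has the required pins -/
def SIZE : Prop := ∀ {Ω : Set E3} (P : Par) (ς : E3 → ℝ) (k : ℕ) (𝓩 : Set (Fin 3 → ℤ)),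
  P.Ok Ω → LipschitzWith (1 / 10) ς → (∀ x ∈ Ω, 0 < ς x ∧ closedBall x (ς x) ⊆ Ω) →
  (∀ j, ∀ x ∈ cthickening (100 * (P.T j).b * P.η) (P.K j), 2 * P.η ≤ ς x) →
  (∀ x ∈ halo P k 𝓩, x ∈ Ω ∧ 2 * (2:ℝ)⁻¹ ^ k ≤ ς x) →
  (∀ z ∈ 𝓩, ∀ j, ∀ x ∈ cthickening (100 * (P.T j).b * P.η) (P.K j),
    dy P k x ∉ cthickening 20 (ucube z)) → k ≤ P.k₀ →
  Ok2 Ω P (size P ς k 𝓩) ((fun z => (k, z)) '' 𝓩) ∧
    ∀ x, (∀ z ∈ 𝓩, dy P k x ∉ cthickening 20 (ucube z)) →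
      size P ς k 𝓩 x = min (ς x) (3 / 2 * P.η)

end M2

end P073
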