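import Vale.Agent.P073Y.Ms.Src
import Vale.Agent.P073Y.Nr.Sums
import Vale.Agent.P073Z.ACC.Tools
import Vale.Agent.P073Z.ACC.Tool

/-!
# The wire weights of the far faces
-/

open Set Metric Topology Filter MeasureTheory
open scoped ENNReal NNReal

namespace P073

namespace M2

open Me G2 _root_.P073.Top _root_.P073.Zn _root_.P073.Nr _root_.P073.Nr.Sm
open Vale.Agent.P073.HB (GoodSeg)

variable {Ω : Set E3} {P : Par} {σ : E3 → ℝ} {𝓒 : Set (ℕ × (Fin 3 → ℤ))} {M₀ : ℝ≥0}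
  {Mt : Ty → ℕ → ℝ≥0} {S₀ : Set E3} {S : Ty → ℕ → Set E3}

/-- the speed on a good segment -/
theorem speed_le {f : E3 → E3} {F : E3 → (E3 →L[ℝ] E3)} {x y : E3} {p : ℝ} {L K η a : ℝ≥0∞}
    (hp : 1 ≤ p) (hxy : x ≠ y) (hF : Measurable F) (hg : GoodSeg f F x (y - x)) (hη : η ≤ 1)
    (h : L * edist x y ≤ K * segVar f x y + η) (ha : (edist x y)⁻¹ ≤ a) :
    L ^ p ≤ 2 ^ p * (K ^ p * (a * ∫⁻ z in segment ℝ x y, ‖F z‖ₑ ^ p ∂(μH[1])) + a ^ p * η) := by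
  have hp0 : 0 ≤ p := by linarith
  have h0 : edist x y ≠ 0 := by simpa using hxy
  obtain ⟨h1, -, -, -, h2⟩ := segv (0 : E3 →L[ℝ] E3) hp hxy hF hg
  simp only [sub_zero] at h2
  have h3 : L ≤ K * (segVar f x y * (edist x y)⁻¹) + (edist x y)⁻¹ * η := by
    rw [← mul_assoc, mul_comm _ η, ← add_mul]
    exact (ENNReal.le_div_iff_mul_le (Or.inl h0) (Or.inl (edist_ne_top x y))).2 h
  refine (ENNReal.rpow_le_rpow h3 hp0).trans ((add_rpow_le hp _ _).trans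
    (mul_le_mul_right (add_le_add ?_ ?_) _))
  · rw [ENNReal.mul_rpow_of_nonneg _ _ hp0, ENNReal.mul_rpow_of_nonneg _ _ hp0]
    refine mul_le_mul_right ((mul_le_mul_left ((ENNReal.rpow_le_rpow h1 hp0).trans h2) _).trans ?_) _
    rw [mul_right_comm, ENNReal.inv_rpow, ← ENNReal.rpow_neg,
      ← ENNReal.rpow_add _ _ h0 (edist_ne_top x y), show p - 1 + -p = -1 by ring,
      ENNReal.rpow_neg_one]
    exact mul_le_mul_left ha _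
  · rw [ENNReal.mul_rpow_of_nonneg _ _ hp0]
    exact mul_le_mul' (ENNReal.rpow_le_rpow ha hp0) (ENNReal.rpow_le_self_of_le_one hη hp)

theorem A_pow (T : Src Ω) (g : E3 → E3) (c : T.Q.ι) {p : ℝ} {M : ℝ≥0∞} (hp : 0 < p)
    (hw : ((wires T c).encard : ℝ≥0∞) ≤ M) :
    T.A g c ^ p ≤ M ^ p * tot (wires T c) fun e => lipc g (T.Q.cell e) ^ p := by
  have h1 : T.A g c ≤ M * (tot (wires T c) fun e => lipc g (T.Q.cell e) ^ p) ^ p⁻¹ := by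
    rw [A_eq]
    exact (tot_le_const fun e he => (ENNReal.le_rpow_inv_iff hp).2
      (le_tot he fun e => lipc g (T.Q.cell e) ^ p)).trans (mul_le_mul_left hw _)
  have h2 := ENNReal.rpow_le_rpow h1 hp.le
  rwa [ENNReal.mul_rpow_of_nonneg _ _ hp.le, ENNReal.rpow_inv_rpow hp.ne'] at h2

/-- the wires of a cell -/
def wrs (Q : RCx E3) (φ : Q.ι) : Set Q.ι := {e | Q.dim e = 1 ∧ Q.cell e ⊆ Q.cell φ}

/-- the line integral over the wires of a cell -/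
noncomputable def wint (Q : RCx E3) (G : E3 → ℝ≥0∞) (φ : Q.ι) : ℝ≥0∞ :=
  tot (wrs Q φ) fun e => ∫⁻ x in Q.cell e, G x ∂(μH[1])

theorem wint_le (Q : RCx E3) {G G₁ G₂ : E3 → ℝ≥0∞} {φ : Q.ι} (h₁ : Measurable G₁)
    (h : ∀ x ∈ Q.cell φ, G x ≤ G₁ x + G₂ x) : wint Q G φ ≤ wint Q G₁ φ + wint Q G₂ φ := by
  unfold wint
  rw [← tot_add]
  refine tot_mono_fun fun e he => ?_
  rw [← lintegral_add_left h₁]
  exact setLIntegral_mono' (Q.isClosed_cell e).measurableSet fun x hx => h x (he.2 hx)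

theorem tot_fiber {ι : Type} (A : Set ι) (κ : ι → ℕ) (a : ι → ℝ≥0∞) :
    tot A a ≤ ∑' k, tot {i ∈ A | κ i = k} a := by
  unfold tot
  rw [ENNReal.tsum_comm]
  exact ENNReal.tsum_le_tsum fun i => indicator_apply_le' (fun hi =>
    (indicator_of_mem (show i ∈ {l ∈ A | κ l = κ i} from ⟨hi, rfl⟩) a).ge.trans
      (ENNReal.le_tsum (f := fun k => {l ∈ A | κ l = k}.indicator a i) (κ i))) fun _ => zero_le

theorem tot_swap {ι κ : Type} (ρ : ι → κ → Prop) (A : Set ι) (a : ι → ℝ≥0∞) (b : κ → ℝ≥0∞) :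
    tot A (fun i => a i * tot {k | ρ i k} b) = ∑' k, tot {i ∈ A | ρ i k} a * b k := by
  simp only [tot, ← ENNReal.tsum_mul_right]
  rw [ENNReal.tsum_comm]
  refine tsum_congr fun i => ?_
  by_cases hi : i ∈ A
  · rw [indicator_of_mem hi, ← ENNReal.tsum_mul_left]
    exact tsum_congr fun k => by by_cases h : ρ i k <;> simp [hi, h]
  · simp [hi]

theorem tot_ne_top {ι : Type} {A : Set ι} {a : ι → ℝ≥0∞} (hA : A.Finite) (h : ∀ i ∈ A, a i ≠ ⊤) :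
    tot A a ≠ ⊤ := by
  rw [← hA.coe_toFinset, tot_finset]
  exact ENNReal.sum_ne_top.2 fun i hi => h i (hA.mem_toFinset.1 hi)

namespace Mesh2

variable (𝓜 : Mesh2 Ω P σ 𝓒 M₀ Mt S₀ S) (h1 : 1 ≤ M₀) {φ : 𝓜.Q.ι}

/-- the scale of a cell -/
noncomputable def rr (φ : 𝓜.Q.ι) : ℝ≥0∞ := ENNReal.ofReal ((2:ℝ)⁻¹ ^ 𝓜.kf φ)

theorem r_eq (φ : 𝓜.Q.ι) : ((𝓜.src h1).r φ : ℝ≥0∞) = 𝓜.rr φ := by
  rw [← ENNReal.ofReal_coe_nnreal, src_r]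
  push_cast
  rfl

theorem rr_ne_zero (φ : 𝓜.Q.ι) : 𝓜.rr φ ≠ 0 := (ENNReal.ofReal_pos.2 (by positivity)).ne'

theorem rr_le (φ : 𝓜.Q.ι) : 𝓜.rr φ ≤ 1 :=
  ENNReal.ofReal_le_one.2 (pow_le_one₀ (by norm_num) (by norm_num))

/-- the weight of a far face -/
theorem far_W {f g : E3 → E3} {F : E3 → (E3 →L[ℝ] E3)} {p : ℝ} {K : ℝ≥0∞}
    {η : 𝓜.Q.ι → ℝ≥0∞} (hp : 1 ≤ p) (hF : Measurable F) (hφ : 𝓜.far φ) (hη : ∀ e, η e ≤ 1)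
    (H : ∀ e ∈ wrs 𝓜.Q φ, ∀ x y, 𝓜.Q.cell e = segment ℝ x y → GoodSeg f F x (y - x) ∧
      lipc g (𝓜.Q.cell e) * edist x y ≤ K * segVar f x y + η e) :
    (𝓜.src h1).W p g φ ≤ (2 * M₀ * K) ^ p * M₀ *
      (𝓜.rr φ * wint 𝓜.Q (fun x => ‖F x‖ₑ ^ p) φ) +
      (2 * M₀ * (M₀ * (𝓜.rr φ)⁻¹)) ^ p * tot (wrs 𝓜.Q φ) η := by
  have hp0 : 0 < p := by linarith
  unfold Src.W
  rw [𝓜.r_eq]
  have r0 := 𝓜.rr_ne_zero φ
  have r1 := 𝓜.rr_le φ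
  have r2 : 𝓜.rr φ ≠ ⊤ := ENNReal.ofReal_ne_top
  set r : ℝ≥0∞ := 𝓜.rr φ with hr
  have h2 := A_pow (𝓜.src h1) g φ (M := M₀) hp0
    ((ENat.toENNReal_le.2 (encard_le_encard fun e he => he.2)).trans ((𝓜.faces φ).trans
      (ENNReal.coe_le_coe.2 ((𝓜.M_le φ).2.trans_eq (𝓜.MI_far φ hφ)))))
  have h3 : tot (wrs 𝓜.Q φ) (fun e => lipc g (𝓜.Q.cell e) ^ p) ≤
      2 ^ p * (K ^ p * (M₀ * r⁻¹ * wint 𝓜.Q (fun x => ‖F x‖ₑ ^ p) φ) +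
        (M₀ * r⁻¹) ^ p * tot (wrs 𝓜.Q φ) η) := by
    unfold wint
    rw [← tot_mul_left, ← tot_mul_left, ← tot_mul_left, ← tot_add, ← tot_mul_left]
    refine tot_mono_fun fun e he => ?_
    obtain ⟨x, y, -, -, hxy, hc, -⟩ := 𝓜.cvx.exists_segment he.1
    obtain ⟨a1, a2⟩ := H e he x y hc
    have a3 := 𝓜.wire_len φ e x y he.2 he.1 hc
    rw [𝓜.MI_far φ hφ] at a3
    have a4 : r ≤ M₀ * edist x y := by
      rw [hr, rr, edist_dist, ← ENNReal.ofReal_coe_nnreal, ← ENNReal.ofReal_mul M₀.coe_nonneg]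
      exact ENNReal.ofReal_le_ofReal a3
    refine (speed_le (a := M₀ * r⁻¹) hp hxy hF a1 (hη e) a2 ?_).trans_eq (by rw [← hc])
    refine (ENNReal.le_div_iff_mul_le (Or.inl r0) (Or.inl r2)).2 ?_
    rw [mul_comm]
    exact ENNReal.div_le_of_le_mul a4
  refine (mul_le_mul_right (h2.trans (mul_le_mul_right h3 _)) _).trans ?_
  simp only [mul_add, ENNReal.mul_rpow_of_nonneg _ _ hp0.le]
  refine add_le_add (le_of_eq ?_) ((mul_le_of_le_one_left' (pow_le_one' r1 2)).trans_eq (by ring))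
  have h4 : r * r⁻¹ = 1 := ENNReal.mul_inv_cancel r0 r2
  calc _ = r * r⁻¹ * (2 ^ p * M₀ ^ p * K ^ p * M₀ *
      (r * wint 𝓜.Q (fun x => ‖F x‖ₑ ^ p) φ)) := by ring
    _ = _ := by rw [h4, one_mul]

theorem far_keep (ok : P.Ok Ω) (hφ : 𝓜.far φ) : (∀ j, ¬ 𝓜.Q.cell φ ⊆ Fine1 P j) ∧
    ∃ e, 𝓜.Q'.cell e = 𝓜.Q.cell φ ∧ 𝓜.Q'.dim e = 𝓜.Q.dim φ := by
  have h : ∀ j, ¬ 𝓜.Q.cell φ ⊆ Fine1 P j := fun j hj =>
    let ⟨_, hx⟩ := 𝓜.Q.cell_nonempty φ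
    𝓜.not_far hx ok (Cube.fine_buf j (hj hx).1) hφ
  obtain ⟨e, he⟩ := 𝓜.keep φ h
  exact ⟨h, e, he, by rw [(𝓜.cvx' e).2.2, he, (𝓜.cvx φ).2.2]⟩

/-- **tolerances for the far faces** -/
theorem far_tol (ok : P.Ok Ω) {p : ℝ} (hp : 1 ≤ p) {w : 𝓜.Q.ι → ℝ≥0∞}
    (hw : ∀ φ, 𝓜.Q.dim φ = 2 → 𝓜.far φ → w φ ≠ ⊤) {δ : ℝ≥0∞} (hδ : δ ≠ 0) :
    ∃ (η : 𝓜.Q'.ι → ℝ≥0∞) (τ : 𝓜.Q.ι → ℝ≥0∞), (∀ e, 0 < η e) ∧ ∑' e, η e ≤ δ ∧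
      tot {φ | 𝓜.Q.dim φ = 2 ∧ 𝓜.far φ} (fun φ => w φ * τ φ) ≤ δ ∧
      ∀ {f g₀ g : E3 → E3} {F : E3 → (E3 →L[ℝ] E3)} {K : ℝ≥0∞}, Measurable F →
        (∀ e x y, 𝓜.Q'.dim e = 1 → 𝓜.Q'.cell e = segment ℝ x y →
          GoodSeg f F x (y - x) ∧ segVar g₀ x y ≤ K * segVar f x y + η e) →
        (∀ e x y, 𝓜.far e → 𝓜.Q.dim e = 1 → 𝓜.Q.cell e = segment ℝ x y →
          lipc g (𝓜.Q.cell e) * edist x y ≤ segVar g₀ x y) →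
        ∀ φ, 𝓜.far φ → (𝓜.src h1).W p g φ ≤ (2 * M₀ * K) ^ p * M₀ *
          (𝓜.rr φ * wint 𝓜.Q (fun x => ‖F x‖ₑ ^ p) φ) + τ φ := by
  classical
  have := 𝓜.Q.countable
  have := 𝓜.Q'.countable
  let c : 𝓜.Q.ι → ℝ≥0∞ := fun φ => (2 * M₀ * (M₀ * (𝓜.rr φ)⁻¹)) ^ p
  obtain ⟨η₀, a1, a2⟩ := ACC.exists_tol (fun e => tot {φ ∈ {φ | 𝓜.Q.dim φ = 2 ∧ 𝓜.far φ} |
    e ∈ wrs 𝓜.Q φ} fun φ => w φ * c φ) (fun e => tot_ne_top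
      ((𝓜.Q.finite_cofaces e).subset fun φ hφ => hφ.2.2) fun φ hφ =>
      ENNReal.mul_ne_top (hw φ hφ.1.1 hφ.1.2) (ENNReal.rpow_ne_top_of_nonneg (by linarith)
        (ENNReal.mul_ne_top (by finiteness) (ENNReal.mul_ne_top ENNReal.coe_ne_top
          (ENNReal.inv_ne_top.2 (𝓜.rr_ne_zero φ)))))) hδ
  obtain ⟨η₁, b1, b2⟩ := ACC.exists_tol (fun _ : 𝓜.Q'.ι => 1) (fun _ => ENNReal.one_ne_top) hδ
  refine ⟨fun e => min (η₁ e) (if h : ∃ i, 𝓜.Q.cell i = 𝓜.Q'.cell e then η₀ h.choose else 1),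
    fun φ => c φ * tot (wrs 𝓜.Q φ) η₀, fun e => lt_min (b1 e).1 ?_,
    le_trans (ENNReal.tsum_le_tsum fun e => (min_le_left _ _).trans (one_mul _).ge) b2,
    le_trans (le_of_eq ?_) a2, fun {f _ _ _ _} hF H H' φ hφ => 𝓜.far_W h1 (f := f) hp hF hφ
      (fun e => (a1 e).2) fun e he x y hc => ?_⟩
  · split_ifs
    exacts [(a1 _).1, one_pos]
  · simp only [← mul_assoc]
    exact tot_swap (fun φ e => e ∈ wrs 𝓜.Q φ) _ _ _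
  · have hf := 𝓜.far_face φ e hφ he.2
    obtain ⟨-, e', d1, d2⟩ := 𝓜.far_keep ok hf
    obtain ⟨d3, d4⟩ := H e' x y (d2.trans he.1) (d1.trans hc)
    have d5 : ∃ i, 𝓜.Q.cell i = 𝓜.Q'.cell e' := ⟨e, d1.symm⟩
    refine ⟨d3, (H' e x y hf he.1 hc).trans (d4.trans (add_le_add le_rfl
      ((min_le_right _ _).trans_eq ?_)))⟩
    rw [dif_pos d5, 𝓜.Q.cell_injective (d5.choose_spec.trans d1)]

/-- **sums over far faces are line integrals** -/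
theorem wires_sum {A : Set 𝓜.Q.ι} {X : ℕ → Set E3} {c : ℕ → ℝ≥0∞} {u : 𝓜.Q.ι → ℝ≥0∞}
    (G : E3 → ℝ≥0∞)
    (hA : ∀ φ ∈ A, 𝓜.far φ ∧ u φ ≤ c (𝓜.kf φ) ∧ 𝓜.Q.cell φ ⊆ X (𝓜.kf φ)) :
    tot A (fun φ => u φ * wint 𝓜.Q G φ) ≤ M₀ * ∑' k, c k *
      ∫⁻ x in {x ∈ X k | ((2:ℝ)⁻¹ ^ k)⁻¹ • (x - P.w) ∈ S₀}, G x ∂(μH[1]) := by
  rw [← ENNReal.tsum_mul_left]
  refine (tot_fiber A 𝓜.kf _).trans (ENNReal.tsum_le_tsum fun k => ?_)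
  refine (tot_mono_fun (b := fun φ => c k * wint 𝓜.Q G φ) fun φ hφ =>
    mul_le_mul_left (hφ.2 ▸ (hA φ hφ.1).2.1) _).trans ?_
  rw [tot_mul_left, mul_left_comm]
  refine mul_le_mul_right ((dbl (fun φ e => e ∈ wrs 𝓜.Q φ) _ {e | 𝓜.Q.dim e = 1 ∧
    𝓜.Q.cell e ⊆ {x ∈ X k | ((2:ℝ)⁻¹ ^ k)⁻¹ • (x - P.w) ∈ S₀}} _ M₀
    (fun φ hφ e he => ⟨he.1, fun x hx => ?_⟩) fun e _ => ?_).trans
      (mul_le_mul_right (AT.ena3 𝓜.Q _ G fun e he => he) _)) _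
  · obtain ⟨a1, -, a2⟩ := hA φ hφ.1
    rw [← hφ.2, inv_pow, inv_inv]
    exact ⟨a2 (he.2 hx), 𝓜.wire_far φ e a1 he.2 he.1 x hx⟩
  · obtain ⟨x, hx⟩ := 𝓜.Q.cell_nonempty e
    exact (ENat.toENNReal_le.2 (encard_le_encard fun φ hφ => hφ.2.2 hx)).trans (𝓜.mult x)

end Mesh2

end M2

end P073
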