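import Vale.Agent.P073Y.Ms.Start
import Vale.Agent.P073Y.Ms.Far
import Vale.Agent.P073Z.ACC.Mark

/-!
# Gauges, tolerances and shifts for a modified map
-/

open Set Metric Topology Filter MeasureTheory
open scoped ENNReal NNReal

namespace P073

namespace M2

open Me G2 _root_.P073.Top _root_.P073.Zn _root_.P073.Nr _root_.P073.Nr.Sm
open Vale.Agent.P073.HB (GoodSeg WeakDeriv)

variable {Ω Λ X : Set E3} {f f' f₁ f₁' : E3 → E3} {δ ς o : E3 → ℝ}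

theorem segVar_lip {L : ℝ≥0∞} (h : ∀ x ∈ Ω, ∀ y ∈ Ω, edist (f₁ x) (f₁ y) ≤ L * edist (f x) (f y))
    {x y : E3} (hs : segment ℝ x y ⊆ Ω) : segVar f₁ x y ≤ L * segVar f x y := by
  rw [segment_eq_image_lineMap] at hs
  refine iSup_le fun q => le_trans ?_ (mul_le_mul_right (le_iSup _ q) L)
  rw [Finset.mul_sum]
  exact Finset.sum_le_sum fun i _ => h _ (hs ⟨_, q.2.2.2 _, rfl⟩) _ (hs ⟨_, q.2.2.2 _, rfl⟩)

theorem segVar_lt_top {L : ℝ≥0}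
    (h : ∀ x ∈ Ω, ∀ y ∈ Ω, edist (f₁ x) (f₁ y) ≤ L * edist (f x) (f y)) {x y : E3}
    (hs : segment ℝ x y ⊆ Ω) (hf : segVar f x y < ⊤) : segVar f₁ x y < ⊤ :=
  (segVar_lip h hs).trans_lt (ENNReal.mul_lt_top ENNReal.coe_lt_top hf)

theorem Std.mod (D : Std Ω Λ f f') (h₁ : HomeoOn f₁ f₁' Ω Λ)
    (h : ∃ L : ℝ≥0, ∀ x ∈ Ω, ∀ y ∈ Ω, edist (f₁ x) (f₁ y) ≤ L * edist (f x) (f y)) :
    Std Ω Λ f₁ f₁' :=
  ⟨D.oΩ, D.oΛ, D.cΩ, D.cΛ, D.bΛ, h₁, fun x => (D.gen x).mono fun _ hy a ha b hb h1 h2 =>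
    h.elim fun _ h => segVar_lt_top h h2 (hy a ha b hb h1 h2)⟩

/-- a modification near the image of a compact set has compact support -/
theorem exists_supp (hΛ : IsOpen Λ) (hf : HomeoOn f f' Ω Λ) {K : Set E3} (hK : IsCompact K)
    (hKΩ : K ⊆ Ω) : ∃ (d : ℝ) (X : Set E3), 0 < d ∧ IsCompact X ∧ X ⊆ Ω ∧
      ∀ x ∈ Ω, ∀ u ∈ K, dist (f x) (f u) ≤ d → x ∈ X := by
  have h1 : IsCompact (f '' K) := hK.image_of_continuousOn (hf.cont.mono hKΩ)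
  obtain ⟨d, hd, h2⟩ := h1.exists_cthickening_subset_open hΛ
    (image_subset_iff.2 fun x hx => hf.mapsTo (hKΩ hx))
  exact ⟨d, f' '' cthickening d (f '' K), hd,
    h1.cthickening.image_of_continuousOn (hf.cont_inv.mono h2),
    image_subset_iff.2 fun z hz => hf.mapsTo_inv (h2 hz), fun x hx u hu h =>
      ⟨f x, mem_cthickening_of_dist_le _ _ _ _ ⟨u, hu, rfl⟩ h, hf.left_inv hx⟩⟩

/-- **the gauge of a modified map**: it suffices to cut off the gauges of `f` -/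
theorem gauge_mod (hΩ : IsOpen Ω) (hb : Bornology.IsBounded Λ)
    (hf : HomeoOn f f' Ω Λ) (h₁ : HomeoOn f₁ f₁' Ω Λ) (hX : IsCompact X) (hXΩ : X ⊆ Ω)
    (he : ∀ x ∈ Ω, x ∉ X → f₁ x = f x) (T : Tg Λ δ) (ho : Gauge o Ω)
    (h6 : ∀ y ∈ Ω, 6 * δ (f y) ≤ o y)
    (hs : ∀ x ∈ Ω, ∀ y ∈ Ω, dist y x ≤ 2 * ς x → dist (f y) (f x) < δ (f x)) {c₁ : ℝ}
    (hc : 0 < c₁) : ∃ (δ₁ : E3 → ℝ) (a : ℝ), 0 < a ∧ Tg Λ δ₁ ∧ (∀ z, δ₁ z ≤ δ z) ∧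
      (∀ y ∈ Ω, 6 * δ₁ (f₁ y) ≤ min (o y) c₁) ∧
      ∀ x ∈ Ω, ∀ y ∈ Ω, dist y x ≤ 2 * min (ς x) a → dist (f₁ y) (f₁ x) < δ₁ (f₁ x) := by
  obtain ⟨c₂, h2, h3⟩ := ho.exists_lower hX hXΩ
  obtain ⟨c, c0, c1, c2⟩ : ∃ c > (0:ℝ), 6 * c ≤ c₁ ∧ 6 * c ≤ c₂ :=
    ⟨min c₁ c₂ / 6, by positivity, by linarith [min_le_left c₁ c₂], by linarith [min_le_right c₁ c₂]⟩
  have T₁ : Tg Λ fun z => min (δ z) c := ⟨fun y hy => lt_min (T.pos y hy) c0, fun y y' => by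
    rw [← min_add_add_right]
    exact min_le_min (T.lip y y') (le_add_of_nonneg_right (by positivity)), fun y hy =>
      (closedBall_subset_closedBall (by linarith [min_le_left (δ y) c])).trans (T.sub y hy)⟩
  obtain ⟨r, r0, r1⟩ := hX.exists_cthickening_subset_open hΩ hXΩ
  have z1 : {z | ball z c ⊆ Λ} ⊆ Λ := fun z hz => hz (mem_ball_self c0)
  have z2 : IsCompact {z | ball z c ⊆ Λ} := isCompact_of_isClosed_isBounded
    (isClosed_of_closure_subset fun z hz y hy => by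
      obtain ⟨u, h4, h5⟩ := Metric.mem_closure_iff.1 hz _ (sub_pos.2 (mem_ball.1 hy))
      exact h4 (mem_ball.2 (by linarith [dist_triangle y z u]))) (hb.subset z1)
  have y1 : IsCompact (cthickening r X ∪ f' '' {z | ball z c ⊆ Λ}) :=
    hX.cthickening.union (z2.image_of_continuousOn (hf.cont_inv.mono z1))
  have y2 : cthickening r X ∪ f' '' {z | ball z c ⊆ Λ} ⊆ Ω :=
    union_subset r1 (image_subset_iff.2 fun z hz => hf.mapsTo_inv (z1 hz))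
  obtain ⟨e, e0, e1⟩ := Gauge.exists_lower (r := fun x => min (δ (f₁ x)) c) (X := Ω)
    (Gauge.comp (r := fun z => min (δ z) c) ⟨(LipschitzWith.of_le_add_mul (1 / 10) fun y y' => by
      push_cast; linarith [T₁.lip y y']).continuous.continuousOn, T₁.pos⟩ h₁.cont h₁.mapsTo) y1 y2
  obtain ⟨a, a0, a1⟩ := ACC.exists_modulus (f := f₁') (f' := f₁) hΩ ⟨h₁.mapsTo_inv, h₁.mapsTo,
    h₁.right_inv, h₁.left_inv, h₁.cont_inv, h₁.cont⟩ (y1.image_of_continuousOn (h₁.cont.mono y2))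
    (image_subset_iff.2 fun x hx => h₁.mapsTo (y2 hx)) (half_pos e0)
  refine ⟨_, min a r / 2, by positivity, T₁, fun _ => min_le_left _ _, fun y hy => le_min ?_
    (by linarith [min_le_right (δ (f₁ y)) c]), fun x hx y hy h => ?_⟩
  · by_cases h : y ∈ X
    · linarith [min_le_right (δ (f₁ y)) c, h3 y h]
    · rw [he y hy h]
      linarith [min_le_left (δ (f y)) c, h6 y hy]
  have h4 : dist y x ≤ min a r := by linarith [min_le_right (ς x) (min a r / 2)]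
  by_cases h5 : x ∈ cthickening r X ∪ f' '' {z | ball z c ⊆ Λ}
  · have h7 := a1 _ ⟨x, h5, rfl⟩ _ (h₁.mapsTo hy) (by
      rw [h₁.left_inv hx, h₁.left_inv hy, dist_comm]; exact h4.trans (min_le_left _ _))
    linarith [e1 x h5, dist_comm (f₁ x) (f₁ y)]
  · rw [he x hx fun h7 => h5 (Or.inl (self_subset_cthickening _ h7)), he y hy fun h7 => h5 (Or.inl
      (mem_cthickening_of_dist_le _ _ _ _ h7 (dist_comm x y ▸ h4.trans (min_le_right _ _)))),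
      min_eq_left (le_of_not_ge fun h7 => h5 (Or.inr ⟨f x, (ball_subset_closedBall.trans
        (closedBall_subset_closedBall (by linarith))).trans (T.sub _ (hf.mapsTo hx)),
          hf.left_inv hx⟩))]
    exact hs x hx y hy (by linarith [min_le_left (ς x) (min a r / 2)])

theorem Tg.lower (T : Tg Λ δ) (hf : HomeoOn f f' Ω Λ) (hX : IsCompact X) (hXΩ : X ⊆ Ω) :
    ∃ c > 0, ∀ x ∈ X, c ≤ δ (f x) :=
  Gauge.exists_lower (r := fun x => δ (f x)) (X := Ω)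
    (Gauge.comp (r := δ) ⟨(LipschitzWith.of_le_add_mul (1 / 10) fun y y' => by
      push_cast; linarith [T.lip y y']).continuous.continuousOn, T.pos⟩ hf.cont hf.mapsTo) hX hXΩ

theorem mean_liminf {η : ℝ} {Φ : ℕ → E3 → ℝ≥0∞} {a : ℝ≥0∞} (h : ∀ m, Mean η (Φ m) a) :
    Mean η (fun w => liminf (fun m => Φ m w) atTop) a :=
  ⟨Measurable.liminf fun m => (h m).1, (lintegral_liminf_le fun m => (h m).1).trans
    (liminf_le_of_frequently_le' (Frequently.of_forall fun m => (h m).2))⟩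

/-- **one shift for infinitely many members of a sequence of functionals** -/
theorem mark_seq {F : E3 → (E3 →L[ℝ] E3)} {η : ℝ} {Ψ : E3 → ℝ≥0∞} {Φ : ℕ → E3 → ℝ≥0∞}
    {a b e : ℝ≥0∞} (hΩ : IsOpen Ω) (hf : ContinuousOn f Ω) (hF : LocallyIntegrableOn F Ω volume)
    (hw : WeakDeriv volume Ω f F) (hη : 0 < η) (hΨ : Mean η Ψ b) (hΦ : ∀ m, Mean η (Φ m) a)
    (he : 0 < e) : ∃ w : E3, Ψ w ≤ b + a ∧ (∀ m₀, ∃ m, m₀ ≤ m ∧ Ψ w + Φ m w ≤ b + a + e) ∧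
      ∀ x y : E3, segment ℝ x y ⊆ Ω → (∀ k, ∃ q : ℚ, x k = w k + q) →
        (∀ k, ∃ q : ℚ, y k = w k + q) → GoodSeg f F x (y - x) := by
  obtain ⟨w, h1, h2⟩ := mark.2.2.2 hΩ hf hF hw hη (hΨ.add (mean_liminf hΦ))
  refine ⟨w, le_self_add.trans h1, fun m₀ => ?_, h2⟩
  rcases eq_or_ne (b + a) ⊤ with h | h
  · exact ⟨m₀, le_rfl, by rw [h, top_add]; exact le_top⟩
  obtain ⟨m, h3, h4⟩ := frequently_atTop.1 (frequently_lt_of_liminf_lt (by isBoundedDefault)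
    (ENNReal.lt_add_right (ne_top_of_le_ne_top h (le_add_self.trans h1)) he.ne')) m₀
  exact ⟨m, h3, (add_le_add le_rfl h4.le).trans ((add_assoc _ _ _).symm.trans_le
    (add_le_add h1 le_rfl))⟩

namespace Mesh2

variable {P : Par} {σ : E3 → ℝ} {𝓒 : Set (ℕ × (Fin 3 → ℤ))} {M₀ : ℝ≥0}
  {Mt : Ty → ℕ → ℝ≥0} {S₀ : Set E3} {S : Ty → ℕ → Set E3}
  (𝓜 : Mesh2 Ω P σ 𝓒 M₀ Mt S₀ S) (h1 : 1 ≤ M₀)

/-- **tolerances for the far faces inside a set `Z`** -/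
theorem far_tol' (ok : P.Ok Ω) {p : ℝ} (hp : 1 ≤ p) {w : 𝓜.Q.ι → ℝ≥0∞}
    (hw : ∀ φ, 𝓜.Q.dim φ = 2 → 𝓜.far φ → w φ ≠ ⊤) {δ : ℝ≥0∞} (hδ : δ ≠ 0) :
    ∃ (η : 𝓜.Q'.ι → ℝ≥0∞) (τ : 𝓜.Q.ι → ℝ≥0∞), (∀ e, 0 < η e) ∧ ∑' e, η e ≤ δ ∧
      tot {φ | 𝓜.Q.dim φ = 2 ∧ 𝓜.far φ} (fun φ => w φ * τ φ) ≤ δ ∧
      ∀ {f g₀ g : E3 → E3} {F : E3 → (E3 →L[ℝ] E3)} {K : ℝ≥0∞} (Z : Set E3), Measurable F →
        (∀ e x y, 𝓜.Q'.dim e = 1 → 𝓜.Q'.cell e = segment ℝ x y → segment ℝ x y ⊆ Z →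
          GoodSeg f F x (y - x) ∧ segVar g₀ x y ≤ K * segVar f x y + η e) →
        (∀ e x y, 𝓜.far e → 𝓜.Q.dim e = 1 → 𝓜.Q.cell e = segment ℝ x y → segment ℝ x y ⊆ Z →
          lipc g (𝓜.Q.cell e) * edist x y ≤ segVar g₀ x y) →
        ∀ φ, 𝓜.far φ → 𝓜.Q.cell φ ⊆ Z → (𝓜.src h1).W p g φ ≤ (2 * M₀ * K) ^ p * M₀ *
          (𝓜.rr φ * wint 𝓜.Q (fun x => ‖F x‖ₑ ^ p) φ) + τ φ := by
  classical
  have := 𝓜.Q.countable
  have := 𝓜.Q'.countable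
  let c : 𝓜.Q.ι → ℝ≥0∞ := fun φ => (2 * M₀ * (M₀ * (𝓜.rr φ)⁻¹)) ^ p
  obtain ⟨η₀, a1, a2⟩ := ACC.exists_tol (fun e => tot {φ ∈ {φ | 𝓜.Q.dim φ = 2 ∧ 𝓜.far φ} |
    e ∈ wrs 𝓜.Q φ} fun φ => w φ * c φ) (fun e => tot_ne_top
      ((𝓜.Q.finite_cofaces e).subset fun φ hφ => hφ.2.2) fun φ hφ =>
      ENNReal.mul_ne_top (hw φ hφ.1.1 hφ.1.2) (ENNReal.rpow_ne_top_of_nonneg (by linarith)
        (ENNReal.mul_ne_top (by finiteness) (ENNReal.mul_ne_top ENNReal.coe_ne_top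
          (ENNReal.inv_ne_top.2 (𝓜.rr_ne_zero φ)))))) hδ
  obtain ⟨η₁, b1, b2⟩ := ACC.exists_tol (fun _ : 𝓜.Q'.ι => 1) (fun _ => ENNReal.one_ne_top) hδ
  refine ⟨fun e => min (η₁ e) (if h : ∃ i, 𝓜.Q.cell i = 𝓜.Q'.cell e then η₀ h.choose else 1),
    fun φ => c φ * tot (wrs 𝓜.Q φ) η₀, fun e => lt_min (b1 e).1 ?_,
    le_trans (ENNReal.tsum_le_tsum fun e => (min_le_left _ _).trans (one_mul _).ge) b2,
    le_trans (le_of_eq ?_) a2, fun {f _ _ _ _} Z hF H H' φ hφ hZ => 𝓜.far_W h1 (f := f) hp hF hφ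
      (fun e => (a1 e).2) fun e he x y hc => ?_⟩
  · split_ifs
    exacts [(a1 _).1, one_pos]
  · simp only [← mul_assoc]
    exact tot_swap (fun φ e => e ∈ wrs 𝓜.Q φ) _ _ _
  · have hf := 𝓜.far_face φ e hφ he.2
    have d0 : segment ℝ x y ⊆ Z := hc.ge.trans (he.2.trans hZ)
    obtain ⟨-, e', d1, d2⟩ := 𝓜.far_keep ok hf
    obtain ⟨d3, d4⟩ := H e' x y (d2.trans he.1) (d1.trans hc) d0
    have d5 : ∃ i, 𝓜.Q.cell i = 𝓜.Q'.cell e' := ⟨e, d1.symm⟩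
    refine ⟨d3, (H' e x y hf he.1 hc d0).trans (d4.trans (add_le_add le_rfl
      ((min_le_right _ _).trans_eq ?_)))⟩
    rw [dif_pos d5, 𝓜.Q.cell_injective (d5.choose_spec.trans d1)]

end Mesh2

end M2

end P073
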