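import Vale.Agent.P073Y.Ms.Sk
import Vale.Agent.P073Z.MESH.Cell

/-!
# The geometry of the family of cubes with a prescribed size
-/

open Set Metric Topology Filter MeasureTheory
open scoped ENNReal NNReal

namespace P073

namespace M2

open Me G2

theorem le_of_pow {k l : ℕ} {s : ℝ} (h1 : 9 / 10 * (2:ℝ)⁻¹ ^ k ≤ s)
    (h2 : s < 18 / 10 * (2:ℝ)⁻¹ ^ l) : l ≤ k := by
  by_contra hlt
  have h5 : (2:ℝ)⁻¹ ^ l ≤ (2:ℝ)⁻¹ ^ (k + 1) :=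
    pow_le_pow_of_le_one (by norm_num) (by norm_num) (by omega)
  rw [pow_succ] at h5
  linarith

theorem le_of_pow' {k l : ℕ} {s : ℝ} (h1 : 11 / 10 * (2:ℝ)⁻¹ ^ k ≤ s)
    (h2 : s ≤ 21 / 10 * (2:ℝ)⁻¹ ^ l) : l ≤ k := by
  by_contra hlt
  have h5 : (2:ℝ)⁻¹ ^ l ≤ (2:ℝ)⁻¹ ^ (k + 1) :=
    pow_le_pow_of_le_one (by norm_num) (by norm_num) (by omega)
  have h6 : (0:ℝ) < 2⁻¹ ^ k := by positivity
  rw [pow_succ] at h5
  linarith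

theorem le_succ_of_pow {k l : ℕ} {s : ℝ} (h1 : 9 / 10 * (2:ℝ)⁻¹ ^ k ≤ s)
    (h2 : s ≤ 21 / 10 * (2:ℝ)⁻¹ ^ l) : l ≤ k + 1 := by
  by_contra hlt
  have h5 : (2:ℝ)⁻¹ ^ l ≤ (2:ℝ)⁻¹ ^ (k + 2) :=
    pow_le_pow_of_le_one (by norm_num) (by norm_num) (by omega)
  have h6 : (0:ℝ) < 2⁻¹ ^ k := by positivity
  rw [pow_add] at h5
  linarith

/-- the size is comparable with the scale `k` -/
def Zsz (σ : E3 → ℝ) (k : ℕ) (x : E3) : Prop :=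
  9 / 10 * (2:ℝ)⁻¹ ^ k ≤ σ x ∧ σ x ≤ 21 / 10 * (2:ℝ)⁻¹ ^ k

theorem Pin.zn {σ : E3 → ℝ} {k : ℕ} {x : E3} (h : Pin σ k x) : Zsz σ k x := by
  have h6 : (0:ℝ) < 2⁻¹ ^ k := by positivity
  exact ⟨by linarith [h.1], by linarith [h.2]⟩

theorem Zsz.eq {σ : E3 → ℝ} {k l : ℕ} {x : E3} (h : Zsz σ k x) (h' : Pin σ l x) : k = l := by
  have h6 : (0:ℝ) < 2⁻¹ ^ l := by positivity
  exact le_antisymm (le_of_pow' h'.1 h.2) (le_of_pow h.1 (by linarith [h'.2]))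

theorem mem_hull {ξ ζ : E3} : ζ ∈ hull ξ ↔ ∀ (l : Fin 3) (k : ℤ),
    ((k : ℝ) ≤ ξ l → (k : ℝ) ≤ ζ l) ∧ (ξ l ≤ k → ζ l ≤ k) :=
  ⟨fun hy l _ => ⟨fun h1 => le_trans (Int.cast_le.2 (Int.le_floor.2 h1)) (hy.1 l),
      fun h1 => le_trans (hy.2 l) (Int.cast_le.2 (Int.ceil_le.2 h1))⟩,
    fun h => ⟨fun l => (h l _).1 (Int.floor_le _), fun l => (h l _).2 (Int.le_ceil _)⟩⟩

theorem isBox_hull (ξ : E3) : IsBox (hull ξ) := by
  refine ⟨fun l => ⌊ξ l⌋, fun l => ⌈ξ l⌉, fun l => ?_, rfl⟩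
  have h1 := Int.floor_le_ceil (ξ l)
  have h2 := Int.ceil_le_floor_add_one (ξ l)
  show ⌈ξ l⌉ = ⌊ξ l⌋ ∨ ⌈ξ l⌉ = ⌊ξ l⌋ + 1
  omega

theorem hull_of_cubes {ξ ζ : E3} (h1 : ζ ∈ ucube fun i => ⌊ξ i⌋)
    (h2 : ζ ∈ ucube fun i => ⌈ξ i⌉ - 1) : ζ ∈ hull ξ := by
  refine ⟨h1.1, fun l => ?_⟩
  have := (mem_ucube.1 h2 l).2
  push_cast at this
  linarith

theorem hull_subset {ξ : E3} {lo hi : Fin 3 → ℤ}
    (h : ξ ∈ Icc (fun i => (lo i : ℝ)) (fun i => (hi i : ℝ))) :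
    hull ξ ⊆ Icc (fun i => (lo i : ℝ)) (fun i => (hi i : ℝ)) := fun _ hy =>
  ⟨fun l => (mem_hull.1 hy l _).1 (h.1 l), fun l => (mem_hull.1 hy l _).2 (h.2 l)⟩

theorem exists_mid {X : Set E3} (h : IsBox X) : ∃ ξ ∈ X, hull ξ = X := by
  obtain ⟨lo, hi, h1, rfl⟩ := h
  have h2 : ∀ i, ⌊((lo i : ℝ) + hi i) / 2⌋ = lo i ∧ ⌈((lo i : ℝ) + hi i) / 2⌉ = hi i := fun i => by
    rcases h1 i with h | h
    · rw [h, add_self_div_two]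
      exact ⟨Int.floor_intCast _, Int.ceil_intCast _⟩
    · rw [h, Int.floor_eq_iff, Int.ceil_eq_iff]
      push_cast
      exact ⟨⟨by linarith, by linarith⟩, by linarith, by linarith⟩
  refine ⟨fun i => ((lo i : ℝ) + hi i) / 2, ⟨fun i => ?_, fun i => ?_⟩, ?_⟩
  · rcases h1 i with h | h <;> simp only [h] <;> push_cast <;> linarith
  · rcases h1 i with h | h <;> simp only [h] <;> push_cast <;> linarith
  · unfold hull
    simp only [(h2 _).1, (h2 _).2]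

/-- the data of the construction -/
structure Ctx (Ω : Set E3) (P : Par) where
  /-- the size -/
  σ : E3 → ℝ
  /-- the cores -/
  𝓒 : Set (ℕ × (Fin 3 → ℤ))
  ok2 : Ok2 Ω P σ 𝓒
  /-- the charts -/
  θ : ℕ ⊕ Fin P.N → E3 ≃ᴬ[ℝ] E3
  hδ : ∀ k x, θ (Sum.inl k) x = dy P k x
  hν : ∀ j x, θ (Sum.inr j) x = P.nu j x

namespace Ctx

variable {Ω : Set E3} {P : Par} (c : Ctx Ω P)

theorem ok (c : Ctx Ω P) : P.Ok Ω := c.ok2.ok

/-- the zones -/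
def zone (k : ℕ) (y : E3) : Prop := y ∈ Ω ∧ (2:ℝ)⁻¹ ^ k ≤ c.σ y ∧ c.σ y ≤ 2 * (2:ℝ)⁻¹ ^ k

/-- admissible dyadic cubes -/
def cube (k : ℕ) (z : Fin 3 → ℤ) : Prop := (∃ y, c.zone k y ∧ dy P k y ∈ ucube z) ∧
  ∃ y, dy P k y ∈ ucube z ∧ ∀ j, ¬ Co P j y

/-- the union of the cubes of scale `k` -/
def Cb (k : ℕ) (x : E3) : Prop := ∃ z, c.cube k z ∧ dy P k x ∈ ucube z

variable {c} {j j' : Fin P.N} {k k' : ℕ} {x y : E3} {z : Fin 3 → ℤ} {r s : ℝ}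

theorem lip (c : Ctx Ω P) (x y : E3) : |c.σ x - c.σ y| ≤ dist x y / 10 := by
  have := c.ok2.lip.dist_le_mul x y
  rw [Real.dist_eq] at this
  refine this.trans (le_of_eq ?_)
  push_cast
  ring

theorem pin_nr (c : Ctx Ω P) (hx : Nr P j 100 x) : Pin c.σ P.k₀ x :=
  c.ok2.pin j x (thickening_subset_cthickening _ _ (mem_thickening_iff.2 (by
    rw [mul_assoc]; exact hx)))

theorem Cb.facts (hx : c.Cb k x) : x ∈ Ω ∧ Zsz c.σ k x := by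
  obtain ⟨z, ⟨⟨y, ⟨h2, h3, h4⟩, h5⟩, -⟩, h6⟩ := hx
  have h7 := dist_cube h6 h5
  have h8 := abs_le.1 (c.lip x y)
  exact ⟨(c.ok2.pos y h2).2.2 (h7.trans h3), by linarith [h8.1], by linarith [h8.2]⟩

theorem Cb.eq_of_pin (hx : c.Cb k x) (hp : Pin c.σ k' x) : k = k' := hx.facts.2.eq hp

theorem Cb.eq_of_nr (hx : c.Cb k x) (hn : Nr P j 100 x) : k = P.k₀ :=
  hx.eq_of_pin (c.pin_nr hn)

theorem Cb.not_nr (hx : c.Cb k x) : ¬ Nr P j 9 x := by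
  intro hn
  obtain rfl := hx.eq_of_nr (hn.mono (by norm_num))
  obtain ⟨z, ⟨-, y, h2, h3⟩, h4⟩ := hx
  exact h3 j (hn.step ((dist_cube h2 h4).trans η_le_un) (by norm_num)).co

theorem Cb.le_succ (hx : c.Cb k x) (hx' : c.Cb k' x) : k' ≤ k + 1 :=
  le_succ_of_pow hx.facts.2.1 hx'.facts.2.2

theorem exists_zone (c : Ctx Ω P) (hx : x ∈ Ω) : ∃ k, c.zone k x := by
  classical
  obtain ⟨h0, h2, -⟩ := c.ok2.pos x hx
  have h1 : ∃ k, (2:ℝ)⁻¹ ^ k ≤ c.σ x := by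
    obtain ⟨k, hk⟩ := exists_pow_lt_of_lt_one h0 (show (2:ℝ)⁻¹ < 1 by norm_num)
    exact ⟨k, hk.le⟩
  refine ⟨Nat.find h1, hx, Nat.find_spec h1, ?_⟩
  rcases Nat.eq_zero_or_pos (Nat.find h1) with h | h
  · rw [h]
    simpa using h2
  · obtain ⟨l, hl⟩ : ∃ l, Nat.find h1 = l + 1 := ⟨Nat.find h1 - 1, by omega⟩
    have h3 := Nat.find_min h1 (m := l) (by omega)
    rw [hl, pow_succ]
    linarith [lt_of_not_ge h3]

theorem zone.cube (h : c.zone k x) (hc : ∀ j, ¬ Co P j x) (hz : dy P k x ∈ ucube z) :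
    c.cube k z := ⟨⟨x, h, hz⟩, x, hz, hc⟩

theorem cover (c : Ctx Ω P) (hx : x ∈ Ω) : (∃ k, c.Cb k x) ∨ ∃ j, Co P j x := by
  by_cases hc : ∃ j, Co P j x
  · exact Or.inr hc
  · obtain ⟨k, h2⟩ := c.exists_zone hx
    exact Or.inl ⟨k, _, h2.cube (not_exists.1 hc) (floor_mem _), floor_mem _⟩

theorem bdd_scale (c : Ctx Ω P) (hx : x ∈ Ω) :
    ∃ k₁, ∀ k, ∀ y ∈ ball x (c.σ x), c.Cb k y → k ≤ k₁ := by
  have h0 := (c.ok2.pos x hx).1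
  obtain ⟨l, hl⟩ := exists_pow_lt_of_lt_one (show 0 < c.σ x / 3 by positivity)
    (show (2:ℝ)⁻¹ < 1 by norm_num)
  refine ⟨l, fun k y hy hk => ?_⟩
  by_contra hlt
  have h1 := hk.facts.2.2
  have h2 : (2:ℝ)⁻¹ ^ k ≤ (2:ℝ)⁻¹ ^ l :=
    pow_le_pow_of_le_one (by norm_num) (by norm_num) (by omega)
  have h3 := (abs_le.1 (c.lip y x)).1
  rw [mem_ball] at hy
  linarith

theorem not_co (c : Ctx Ω P) (hx : x ∉ P.U j) : ¬ Co P j x := fun h =>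
  hx (mem_U.2 ((h.nr c.ok).mono (by norm_num)))

theorem core_pin (hz : (k, z) ∈ c.𝓒) (hx : dy P k x ∈ ucube z) :
    x ∈ Ω ∧ Pin c.σ k x ∧ ∀ j, x ∉ P.U j :=
  c.ok2.cpin _ hz x (self_subset_cthickening _ hx)

theorem core_cube (hz : (k, z) ∈ c.𝓒) : c.cube k z := by
  have h1 : dy P k ((c.θ (Sum.inl k)).symm fun i => (z i : ℝ)) ∈ ucube z := by
    rw [← c.hδ, ContinuousAffineEquiv.apply_symm_apply]
    exact mem_ucube.2 fun i => ⟨le_rfl, by linarith⟩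
  obtain ⟨h2, h3, h4⟩ := core_pin hz h1
  have h6 : (0:ℝ) < 2⁻¹ ^ k := by positivity
  exact zone.cube ⟨h2, by linarith [h3.1], by linarith [h3.2]⟩ (fun j => c.not_co (h4 j)) h1

theorem exists_edge (hx : x ∈ Fine1 P j) : ∃ (z : Fin 3 → ℤ) (J : Finset (Fin 3)), J.card = 2 ∧
    P.nu j x ∈ uface z J ∧ ∀ y, P.nu j y ∈ uface z J → y ∈ Fine1 P j := by
  obtain ⟨⟨z, hz, h1⟩, i₀, h2⟩ := hx
  obtain ⟨i, hi, h3⟩ : ∃ i, i ∉ (P.T j).I ∧ ∀ l, l ≠ i → ∃ k : ℤ, P.nu j x l = k := by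
    by_cases h : i₀ ∈ (P.T j).I
    · refine ⟨0, fun h0 => ?_, fun l _ => ?_⟩
      · have := (Finset.mem_filter.1 h0).2
        have := (P.T j).r_pos
        simp at *
        omega
      · by_cases hl : l = i₀
        · exact ⟨z l, h1.2 l (hl ▸ h)⟩
        · exact h2 l hl
    · exact ⟨i₀, h, h2⟩
  choose! a ha using h3
  have h4 : ∀ l, l ∈ ({i}ᶜ : Finset (Fin 3)) ↔ l ≠ i := fun l => by simp
  refine ⟨fun l => if l = i then z i else a l, {i}ᶜ, by simp [Finset.card_compl], ⟨?_, ?_⟩,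
    fun y hy => ⟨⟨z, hz, mem_ucube.2 fun l => ?_, fun l hl => ?_⟩, i, fun l hl => ?_⟩⟩
  · refine mem_ucube.2 fun l => ?_
    by_cases hl : l = i
    · simp only [hl, if_true]
      exact mem_ucube.1 h1.1 i
    · simp only [hl, if_false, ha l hl]
      exact ⟨le_rfl, by linarith⟩
  · intro l hl
    simp only [(h4 l).1 hl, if_false, ha l ((h4 l).1 hl)]
  · by_cases hl : l = i
    · have := mem_ucube.1 hy.1 l
      simpa only [hl, if_true] using this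
    · have := hy.2 l ((h4 l).2 hl)
      simp only [hl, if_false] at this
      rw [this, ← ha l hl]
      exact mem_ucube.1 h1.1 l
  · have hl' : l ≠ i := fun e => hi (e ▸ hl)
    have := hy.2 l ((h4 l).2 hl')
    simp only [hl', if_false] at this
    rw [this, ← ha l hl']
    exact h1.2 l hl
  · have := hy.2 l ((h4 l).2 hl)
    simp only [hl, if_false] at this
    exact ⟨_, this⟩

end Ctx

theorem exists_ctx {Ω : Set E3} {P : Par} {σ : E3 → ℝ} {𝓒 : Set (ℕ × (Fin 3 → ℤ))}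
    (h : Ok2 Ω P σ 𝓒) : ∃ c : Ctx Ω P, c.σ = σ ∧ c.𝓒 = 𝓒 := by
  choose δ hδ using exists_dy P
  choose ν hν using exists_nu h.ok
  exact ⟨⟨σ, 𝓒, h, Sum.elim δ ν, hδ, hν⟩, rfl, rfl⟩

end M2

end P073
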