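import Vale.Agent.P073Y.Ms.Sk

/-!
# An admissible mesh size
-/

open Set Metric Topology Filter MeasureTheory
open scoped ENNReal NNReal

namespace P073

namespace M2

open Me

variable {P : Par} {ς : E3 → ℝ} {k : ℕ} {𝓩 : Set (Fin 3 → ℤ)} {x : E3}

theorem size_le (x : E3) : size P ς k 𝓩 x ≤ ς x := min_le_left _ _

theorem le_size (x : E3) : min (ς x) (3 / 2 * P.η) ≤ size P ς k 𝓩 x :=
  min_le_min_left _ (le_max_left _ _)

theorem size_le' (hk : k ≤ P.k₀) (x : E3) : size P ς k 𝓩 x ≤ 3 / 2 * (2:ℝ)⁻¹ ^ k := by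
  have h1 : P.η ≤ (2:ℝ)⁻¹ ^ k := pow_le_pow_of_le_one (by norm_num) (by norm_num) hk
  refine (min_le_right _ _).trans (max_le (by linarith) ?_)
  split_ifs
  · linarith [infDist_nonneg (x := x) (s := halo P k 𝓩)]
  · positivity

theorem halo_nonempty (h : 𝓩.Nonempty) : (halo P k 𝓩).Nonempty := by
  obtain ⟨z, hz⟩ := h
  obtain ⟨θ, hθ⟩ := exists_dy P k
  refine ⟨θ.symm fun i => (z i : ℝ), z, hz, self_subset_cthickening _ ?_⟩
  rw [← hθ, θ.apply_symm_apply]
  exact mem_ucube.2 fun i => ⟨le_rfl, by linarith⟩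

/-- far from the cores there is no bump -/
theorem size_off (hx : ∀ z ∈ 𝓩, dy P k x ∉ cthickening 20 (ucube z)) :
    size P ς k 𝓩 x = min (ς x) (3 / 2 * P.η) := by
  unfold size
  have h0 := η_pos (P := P)
  rw [max_eq_left]
  split_ifs with h
  · have h1 : 18 * (2:ℝ)⁻¹ ^ k ≤ infDist x (halo P k 𝓩) := by
      refine (le_infDist (halo_nonempty h)).2 fun y ⟨z, hz, hy⟩ => le_of_not_gt fun h2 => hx z hz ?_
      rw [dist_dy (P := P) k, mul_comm] at h2
      have h3 := cthickening_cthickening_subset (by norm_num : (0:ℝ) ≤ 18) zero_le_two (ucube z)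
        (mem_cthickening_of_dist_le _ _ 18 _ hy (lt_of_mul_lt_mul_right h2 (by positivity)).le)
      rwa [show (18:ℝ) + 2 = 20 by norm_num] at h3
    have h2 : (0:ℝ) < 2⁻¹ ^ k := by positivity
    linarith
  · positivity

theorem size_halo (hk : k ≤ P.k₀) (hx : x ∈ halo P k 𝓩) (h : 2 * (2:ℝ)⁻¹ ^ k ≤ ς x) :
    size P ς k 𝓩 x = 3 / 2 * (2:ℝ)⁻¹ ^ k := by
  have h1 : P.η ≤ (2:ℝ)⁻¹ ^ k := pow_le_pow_of_le_one (by norm_num) (by norm_num) hk
  have h2 : (0:ℝ) < 2⁻¹ ^ k := by positivity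
  obtain ⟨z, hz, h3⟩ := id hx
  unfold size
  rw [if_pos ⟨z, hz⟩, infDist_zero_of_mem hx, zero_div, sub_zero, max_eq_right (by linarith),
    min_eq_right (by linarith)]

theorem lip_size (h : LipschitzWith (1 / 10) ς) : LipschitzWith (1 / 10) (size P ς k 𝓩) := by
  have h1 : LipschitzWith (1 / 10) fun x => max (3 / 2 * P.η)
      (open Classical in if 𝓩.Nonempty then 3 / 2 * (2:ℝ)⁻¹ ^ k - infDist x (halo P k 𝓩) / 10
        else 0) := by
    refine LipschitzWith.const_max ?_ _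
    split_ifs
    · refine LipschitzWith.of_dist_le_mul fun x y => ?_
      have := (lipschitz_infDist_pt (halo P k 𝓩)).dist_le_mul x y
      rw [dist_sub_left, Real.dist_eq, ← sub_div, abs_div, ← Real.dist_eq]
      norm_num at this ⊢
      linarith
    · exact (LipschitzWith.const _).weaken zero_le
  exact (h.min h1).weaken (max_self _).le

theorem size_ok : SIZE := by
  intro Ω P ς k 𝓩 ok hl hp hK hh hs hk
  have h0 := η_pos (P := P)
  refine ⟨⟨ok, lip_size hl, fun x hx => ⟨?_, ?_, ?_⟩, fun j x hx => ?_, ?_⟩, fun x => size_off⟩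
  · exact (lt_min (hp x hx).1 (by positivity)).trans_le (le_size x)
  · have : (2:ℝ)⁻¹ ^ k ≤ 1 := pow_le_one₀ (by norm_num) (by norm_num)
    linarith [size_le' (ς := ς) (𝓩 := 𝓩) hk x]
  · exact (closedBall_subset_closedBall (size_le x)).trans (hp x hx).2
  · unfold Pin
    rw [size_off fun z hz => hs z hz j x hx, min_eq_right (by linarith [hK j x hx])]
    exact ⟨show 11 / 10 * P.η ≤ _ by linarith, show _ ≤ 17 / 10 * P.η by linarith⟩
  · rintro _ ⟨z, hz, rfl⟩ x hx
    have h1 : x ∈ halo P k 𝓩 := ⟨z, hz, hx⟩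
    have h2 : (0:ℝ) < 2⁻¹ ^ k := by positivity
    refine ⟨(hh x h1).1, ?_, fun j hj => hs z hz j x ?_ (cthickening_mono (by norm_num) _ hx)⟩
    · unfold Pin
      rw [size_halo hk h1 (hh x h1).2]
      exact ⟨by linarith, by linarith⟩
    · refine thickening_subset_cthickening _ _ (thickening_mono ?_ _ hj)
      have : (0:ℝ) ≤ (P.T j).b * P.η := by positivity
      nlinarith

end M2

end P073
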