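import Vale.Agent.P073Y.Ms.Ad
import Vale.Agent.P073Z.ACC.CellA

/-!
# Description of the cells of the mesh with cores
-/

open Set Metric Topology Filter MeasureTheory
open scoped ENNReal NNReal

namespace P073

namespace M2

open Me G2
open Me.Ctx (Far fine_eq)

theorem hull_cube {ξ : E3} {z : Fin 3 → ℤ} (h : ξ ∈ ucube z) : hull ξ ⊆ ucube z := fun _ hy =>
  mem_ucube.2 fun l => ⟨(mem_hull.1 hy l _).1 (mem_ucube.1 h l).1, by
    have := (mem_hull.1 hy l (z l + 1)).2 (by push_cast; exact (mem_ucube.1 h l).2)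
    push_cast at this
    exact this⟩

theorem hull_coarse {P : Par} {k k' : ℕ} (hk : k ≤ k') {x y : E3}
    (h : dy P k' y ∈ hull (dy P k' x)) : dy P k y ∈ hull (dy P k x) := by
  obtain ⟨d, rfl⟩ := Nat.exists_eq_add_of_le hk
  have e : ∀ (u : E3) l, dy P (k + d) u l = 2 ^ d * dy P k u l := fun u l => by
    simp only [dy, Pi.smul_apply, smul_eq_mul, pow_add]
    ring
  have h0 : (0:ℝ) < 2 ^ d := by positivity
  refine mem_hull.2 fun l a => ?_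
  obtain ⟨h1, h2⟩ := mem_hull.1 h l (2 ^ d * a)
  rw [e, e] at h1 h2
  push_cast at h1 h2
  exact ⟨fun h3 => le_of_mul_le_mul_left (h1 (mul_le_mul_of_nonneg_left h3 h0.le)) h0,
    fun h3 => le_of_mul_le_mul_left (h2 (mul_le_mul_of_nonneg_left h3 h0.le)) h0⟩

namespace Ctx

namespace Cx

variable {Ω : Set E3} {P : Par} {c : Ctx Ω P} {n : ℕ} {K : RCx E3} (h : c.Cx n K) {i : K.ι}
  {x y : E3} {j : Fin P.N} {k : ℕ} {z : Fin 3 → ℤ}
include h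

theorem mem (hx : x ∈ K.cell i) : x ∈ Ω := h.car ▸ K.cell_subset_carrier i hx

theorem exists_ocell (hx : x ∈ Ω) : ∃ i, x ∈ K.ocell i := K.exists_ocell (h.car.symm ▸ hx)

theorem cube (hx : x ∈ K.ocell i) (hz : c.cube k z) (hm : dy P k x ∈ ucube z)
    (hy : y ∈ K.cell i) : dy P k y ∈ ucube z :=
  cube_mem.1 (h.sub i x hx _ (Or.inl ⟨k, rfl, rfl, hz⟩) (cube_mem.2 hm) hy)

theorem cb (hx : x ∈ K.ocell i) (hk : c.Cb k x) :
    ∃ z, c.cube k z ∧ ∀ y ∈ K.cell i, dy P k y ∈ ucube z := by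
  obtain ⟨z, h1, h2⟩ := hk
  exact ⟨z, h1, fun y hy => h.cube hx h1 h2 hy⟩

theorem cb' (hx : x ∈ K.ocell i) (hk : c.Cb k x) (hy : y ∈ K.cell i) : c.Cb k y :=
  let ⟨z, h1, h2⟩ := h.cb hx hk
  ⟨z, h1, h2 y hy⟩

theorem co (hx : x ∈ K.ocell i) (hz : core P j z) (hm : P.nu j x ∈ ucube z) (hy : y ∈ K.cell i) :
    P.nu j y ∈ ucube z :=
  (core_mem.1 (h.sub i x hx (Sum.inr j, z, ∅) (Or.inr ⟨j, rfl, hz, Or.inl rfl⟩)
    (core_mem.2 (uface_empty z ▸ hm)) hy)).1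

theorem adj (hx : x ∈ K.cell i) (hy : y ∈ K.cell i) : c.Adj x y := by
  obtain ⟨p, hp⟩ := K.ocell_nonempty i
  obtain ⟨m, hm⟩ := mem_iUnion.1 (c.iUnion_C.symm.subset (h.mem hp.1))
  exact Ctx.adj m.2 (h.sub i p hp m m.2 hm hx) (h.sub i p hp m m.2 hm hy)

theorem core_sub (hx : x ∈ K.ocell i) (hc : x ∈ Core P c.𝓒) : K.cell i ⊆ Core P c.𝓒 := by
  obtain ⟨q, h1, h2⟩ := hc
  exact fun y hy => ⟨q, h1, h.cube hx (core_cube h1) h2 hy⟩

theorem fine_sub (hx : x ∈ K.ocell i) (hb : x ∈ Fine1 P j) :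
    K.cell i ⊆ Fine1 P j ∧ K.dim i ≤ 1 := by
  obtain ⟨z, J, h1, h2, h3, h4⟩ := exists_mem (c := c) hb
  have h5 := h.sub i x hx _ h2 h3
  refine ⟨fun y hy => h4 y (core_mem.1 (h5 hy)), ?_⟩
  have h6 := Submodule.finrank_mono (vectorSpan_mono ℝ h5)
  rw [← (h.sc.cvx i).2.2, C, Cell.finrank_preimage] at h6
  have h7 := Cell.finrank_uface z J
  simp only at h6
  omega

theorem box (hx : x ∈ K.ocell i) (hn : Nr P j 10 x) (hy : y ∈ K.cell i) :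
    P.nu j y ∈ hull (P.nu j x) :=
  hull_of_cubes (h.co hx ⟨x, hn, floor_mem _⟩ (floor_mem _) hy)
    (h.co hx ⟨x, hn, ceil_mem _⟩ (ceil_mem _) hy)

theorem buf (hx : x ∈ K.ocell i) (hb : x ∈ P.BufSet j) (hf : ¬ (1 ≤ n ∧ x ∈ Fine1 P j)) :
    K.cell i = P.nu j ⁻¹' hull (P.nu j x) := by
  refine Subset.antisymm (fun y hy => h.box hx ((buf_nr c.ok hb).mono (by norm_num)) hy)
    fun y hy => ?_
  rw [h.sc.cc i x hx]
  exact (ad_box hb hf).mem (mem_hull.1 hy)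

theorem sub_box (hz : z ∈ P.Buf j) : K.Sub (P.nu j ⁻¹' ucube z) := by
  intro x hx
  have hn := buf_nr c.ok ⟨z, hz, hx⟩
  obtain ⟨i, hi⟩ := h.exists_ocell ((hn.mono (by norm_num)).big c.ok).1
  exact ⟨i, hi.1, fun y hy => hull_cube hx (h.box hi (hn.mono (by norm_num)) hy)⟩

/-- a cell in a subdivided box lies in a Kuhn cell -/
theorem kuhn {m : Mem P} {N : ℕ} (hx : x ∈ K.ocell i) (hm : c.okm m) (hxm : x ∈ c.C m)
    (hN : c.kn n m N) (hy : y ∈ K.cell i) :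
    (N : ℝ) • c.θ m.1 y ∈ kcell ((N : ℝ) • c.θ m.1 x) := by
  refine mem_kcell.2 fun a k => ?_
  by_cases hk : |(k : ℝ) - N * kΛ a (fun i => (m.2.1 i : ℝ))| ≤ N
  · obtain ⟨ℓ, hl, e⟩ := kuhn_mem hm hxm hN a hk
    have h4 := (h.sc.cc i x hx).subset hy ℓ hl
    rw [e, e] at h4
    exact ⟨fun h5 => sub_nonneg.1 (h4.1 (sub_nonneg.2 h5)),
      fun h5 => sub_nonpos.1 (h4.2 (sub_nonpos.2 h5))⟩
  · have h4 := abs_le.1 (kΛ_bound hxm.1 a)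
    have h5 := abs_le.1 (kΛ_bound (h.sub i x hx m hm hxm hy).1 a)
    have h0 : (0:ℝ) ≤ N := Nat.cast_nonneg _
    simp only [map_smul, smul_eq_mul]
    rw [abs_le, not_and_or, not_le, not_le] at hk
    rcases hk with hk | hk
    · exact ⟨fun _ => by nlinarith [h5.1], fun h6 => by nlinarith [h4.1]⟩
    · exact ⟨fun h6 => by nlinarith [h4.2], fun _ => by nlinarith [h5.2]⟩

theorem fine (hn : 1 ≤ n) (hx : x ∈ K.ocell i) (hf : x ∈ Fine1 P j) :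
    K.cell i = (fun y => (n : ℝ) • P.nu j y) ⁻¹' kcell ((n : ℝ) • P.nu j x) := by
  refine Subset.antisymm (fun y hy => ?_) fun y hy => ?_
  · obtain ⟨z, J, -, h2, h3, h4⟩ := exists_mem (c := c) hf
    have := h.kuhn hx h2 h3 (Or.inr ⟨j, rfl, h4, rfl, hn⟩) hy
    rwa [c.hν, c.hν] at this
  · rw [h.sc.cc i x hx]
    exact (ad_fine (fine_buf hf.1) hn).mem (mem_kcell.1 hy)

theorem in_hull (hx : x ∈ K.ocell i) (hU : ∀ j, x ∉ P.U j) (hs : c.σ x < 2 * (2:ℝ)⁻¹ ^ k) :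
    K.cell i ⊆ dy P k ⁻¹' hull (dy P k x) := by
  obtain ⟨k', h1⟩ := c.exists_zone (h.mem hx.1)
  have h2 := fun j => c.not_co (hU j)
  have h3 : k ≤ k' := by
    by_contra hlt
    have h5 : (2:ℝ)⁻¹ ^ k ≤ (2:ℝ)⁻¹ ^ (k' + 1) :=
      pow_le_pow_of_le_one (by norm_num) (by norm_num) (by omega)
    rw [pow_succ] at h5
    linarith [h1.2.1]
  exact fun y hy => hull_coarse h3 (hull_of_cubes
    (h.cube hx (h1.cube h2 (floor_mem _)) (floor_mem _) hy)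
    (h.cube hx (h1.cube h2 (ceil_mem _)) (ceil_mem _) hy))

theorem unif (hx : x ∈ K.ocell i)
    (hp : ∀ y ∈ closedBall x ((2:ℝ)⁻¹ ^ k), Pin c.σ k y ∧ ∀ j, y ∉ P.U j) :
    (x ∈ Core P c.𝓒 → K.cell i = dy P k ⁻¹' kcell (dy P k x)) ∧
    (x ∉ Core P c.𝓒 → K.cell i = dy P k ⁻¹' hull (dy P k x)) := by
  have h6 : (0:ℝ) < 2⁻¹ ^ k := by positivity
  obtain ⟨a1, a2⟩ := hp x (mem_closedBall_self h6.le)
  refine ⟨fun ⟨⟨k', z⟩, h1, h2⟩ => Subset.antisymm (fun y hy => ?_) fun y hy => ?_,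
    fun hc => Subset.antisymm (h.in_hull hx a2 (by linarith [a1.2])) fun y hy => ?_⟩
  · obtain rfl : k' = k := (core_pin h1 h2).2.1.zn.eq a1
    have := h.kuhn (m := (Sum.inl k', z, ∅)) hx (Or.inl ⟨k', rfl, rfl, core_cube h1⟩)
      (cube_mem.2 h2) (Or.inl ⟨k', rfl, h1, rfl⟩) hy
    rwa [Nat.cast_one, one_smul, one_smul, c.hδ, c.hδ] at this
  · rw [h.sc.cc i x hx]
    exact (ad_unif hp).mem (mem_kcell.1 hy)
  · rw [h.sc.cc i x hx]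
    exact (ad_unif' hp hc).mem (mem_hull.1 hy)

theorem line (hx : x ∈ K.ocell i) (hy : y ∈ K.cell i) {t : ℝ} (ht : t ∈ Ioc (0:ℝ) 1) :
    AffineMap.lineMap y x t ∈ K.ocell i := by
  rw [h.sc.oc i x hx]
  exact line_mem ((h.sc.cc i x hx).subset hy) ht

theorem ball_sub {q : E3} {s : ℝ} (hΩ : closedBall q s ⊆ Ω)
    (hl : ∀ l, (∃ a : ℤ, (2:ℝ) ^ k * (q l - s - P.w l) = a) ∧
      ∃ a : ℤ, (2:ℝ) ^ k * (q l + s - P.w l) = a)
    (hs : ∀ x ∈ sphere q s, c.σ x < 2 * (2:ℝ)⁻¹ ^ k ∧ ∀ j, x ∉ P.U j) :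
    K.Sub (closedBall q s) ∧ K.Sub (sphere q s) := by
  have h0 : (0:ℝ) < 2 ^ k := by positivity
  have e : ∀ (u : E3) l, dy P k u l = 2 ^ k * (u l - P.w l) := fun u l => rfl
  have H : ∀ i, ∀ u ∈ K.ocell i, u ∈ sphere q s → ∀ y ∈ K.cell i, ∀ l,
      (q l - s ≤ u l → q l - s ≤ y l) ∧ (u l ≤ q l - s → y l ≤ q l - s) ∧
      (q l + s ≤ u l → q l + s ≤ y l) ∧ (u l ≤ q l + s → y l ≤ q l + s) := by
    intro i u hu hq y hy l
    obtain ⟨⟨a, ha⟩, b, hb⟩ := hl l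
    have h1 := mem_hull.1 (h.in_hull hu (hs u hq).2 (hs u hq).1 hy) l
    obtain ⟨a1, a2⟩ := h1 a
    obtain ⟨b1, b2⟩ := h1 b
    rw [e, e, ← ha] at a1 a2
    rw [e, e, ← hb] at b1 b2
    simp only [mul_le_mul_iff_right₀ h0, sub_le_sub_iff_right] at a1 a2 b1 b2
    exact ⟨a1, a2, b1, b2⟩
  have H2 : ∀ i, ∀ u ∈ K.ocell i, u ∈ sphere q s → K.cell i ⊆ closedBall q s := by
    intro i u hu hq y hy
    have h1 : 0 ≤ s := (mem_sphere.1 hq) ▸ dist_nonneg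
    refine (dist_pi_le_iff h1).2 fun l => ?_
    have h2 := (dist_pi_le_iff h1).1 (mem_sphere.1 hq).le l
    rw [Real.dist_eq, abs_le] at h2 ⊢
    obtain ⟨a1, -, -, a2⟩ := H i u hu hq y hy l
    exact ⟨by linarith [a1 (by linarith [h2.1])], by linarith [a2 (by linarith [h2.2])]⟩
  refine ⟨fun x hx => ?_, fun x hx => ?_⟩
  · obtain ⟨i, hi⟩ := h.exists_ocell (hΩ hx)
    refine ⟨i, hi.1, fun y hy => by_contra fun hn => ?_⟩
    have h1 : Continuous fun t : ℝ => dist (AffineMap.lineMap y x t) q := by fun_prop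
    obtain ⟨t, ht, h2⟩ := intermediate_value_Icc' zero_le_one h1.continuousOn (a := 0) (b := 1)
      (show s ∈ _ from ⟨by simpa using hx, by simpa using (not_le.1 hn).le⟩)
    have h3 : t ≠ 0 := by
      rintro rfl
      exact hn (by simpa using h2.le)
    exact hn (H2 i _ (h.line hi hy ⟨lt_of_le_of_ne ht.1 h3.symm, ht.2⟩) h2 hy)
  · obtain ⟨i, hi⟩ := h.exists_ocell (hΩ (sphere_subset_closedBall hx))
    refine ⟨i, hi.1, fun y hy => le_antisymm (H2 i x hi hx hy) ?_⟩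
    obtain ⟨l, hl⟩ : ∃ l, s ≤ dist (x l) (q l) := by
      by_contra hn
      push Not at hn
      have h1 : 0 < s := dist_nonneg.trans_lt (hn 0)
      exact absurd (mem_sphere.1 hx) ((dist_pi_lt_iff h1).2 hn).ne
    refine le_trans ?_ (dist_le_pi_dist y q l)
    obtain ⟨-, a1, a2, -⟩ := H i x hi hx y hy l
    rw [Real.dist_eq, le_abs] at hl ⊢
    exact hl.imp (fun h1 => by linarith [a2 (by linarith)]) fun h1 => by linarith [a1 (by linarith)]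

theorem chart {κ : Type} {Λ : κ → E3 →ₗ[ℝ] ℝ} {R : ℝ} {M : ℝ≥0}
    (hC : ∀ (C : Set E3) (θ n : E3 ≃ᴬ[ℝ] E3) (v : E3), IsCompact C → C.Nonempty →
      IntCut Λ (θ '' C) → (∀ x ∈ C, ∀ y ∈ C, dist (θ x) (θ y) ≤ R) → (∀ x, n x = θ x + v) →
      BiChart (Module.finrank ℝ (vectorSpan ℝ C)) (n '' C) (n '' intrinsicFrontier ℝ C) M)
    (θ μ : E3 ≃ᴬ[ℝ] E3) (v : E3) {X : Set E3} (hX : K.cell i ⊆ X)
    (hA : ∀ x ∈ X, Ad Λ θ (c.Ψ n x)) (hd : ∀ x ∈ X, ∀ y ∈ X, dist (θ x) (θ y) ≤ R)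
    (hn : ∀ x, μ x = θ x + v) : BiChart (K.dim i) (μ '' K.cell i) (μ '' K.bd i) M := by
  obtain ⟨x, hx⟩ := K.ocell_nonempty i
  rw [(h.sc.cvx i).2.1, (h.sc.cvx i).2.2]
  refine hC _ θ μ v (K.isCompact_cell i) (K.cell_nonempty i) ?_
    (fun x hx y hy => hd x (hX hx) y (hX hy)) hn
  rw [h.sc.cc i x hx]
  exact (hA x (hX hx.1)).intCut x

theorem wire {κ : Type} {Λ : κ → E3 →ₗ[ℝ] ℝ} (hp : y ∈ K.ocell i)
    (hA : Ad Λ (dy P k) (c.Ψ n y)) (h1 : K.dim i = 1) (hx : x ∈ K.cell i) :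
    (2:ℝ) ^ k • (x - P.w) ∈ Lines Λ := by
  have h4 := (hA.congr (c.hδ k)).lines (h.sc.finite hp.1) (x := y) (y := x)
    (by rw [h.sc.dim hp, h1]) fun ℓ hl h0 => zero_of_mem ((h.sc.cc i y hp).subset hx) hl h0
  rwa [c.hδ] at h4

theorem near (hx : x ∈ K.cell i) (hf : ¬ Far P x) : ∃ j, K.cell i ⊆ P.U j := by
  simp only [Far, not_forall, not_lt] at hf
  obtain ⟨j, p, h1, h2⟩ := hf
  have h3 : Nr P j 12 x := (h1.nr c.ok).step (dist_comm p x ▸ h2.trans η_le_un) (by norm_num)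
  exact ⟨j, fun y hy => mem_U.2 ((h.adj hx hy).nr h3 (by norm_num) (by norm_num))⟩

theorem rat (hi : K.dim i = 0) (hx : x ∈ K.cell i) (k : Fin 3) : ∃ q : ℚ, x k = P.w k + q :=
  rat_of_dim (h.sc.finite hx) (fun _ hl => Ctx.rat hl)
    ((h.sc.dim ((K.ocell_eq_cell hi).symm ▸ hx)).trans hi) k

theorem mult (x : E3) : {i | x ∈ K.cell i}.encard ≤ (3 ^ 15 : ℕ) := by
  obtain ⟨h1, h2⟩ := Ctx.mult h.sc x
  rw [← h1.cast_ncard_eq]
  exact_mod_cast h2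

end Cx

end Ctx

end M2

end P073
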