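import Vale.Agent.P073Y.Zn.Defs
import Vale.Agent.P073Y.Ms.Tool
import Vale.Agent.P073Y.Ms.Cell
import Vale.Agent.P073Z.ACC.Cube.Lin

/-!
# The mesh as a source complex, normalised coordinates, cells of the buffer
-/

open Set Metric Topology Filter MeasureTheory
open scoped ENNReal NNReal

namespace P073

namespace M2

open Me G2 _root_.P073.Top _root_.P073.Zn
open Bd (Chart)

variable {Ω : Set E3} {P : Par} {σ : E3 → ℝ} {𝓒 : Set (ℕ × (Fin 3 → ℤ))} {M₀ : ℝ≥0}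
  {Mt : Ty → ℕ → ℝ≥0} {S₀ : Set E3} {S : Ty → ℕ → Set E3}

theorem dist_nu_le (ok : P.Ok Ω) (j : Fin P.N) (x y : E3) :
    dist (P.nu j x) (P.nu j y) ≤ (P.T j).b * P.m j / P.η * dist x y := by
  have h1 := Cube.lam_ge ok j (P.nu j x - P.nu j y)
  have h2 : P.Lam j (P.nu j x - P.nu j y) = x - y := by
    conv_rhs => rw [← Cube.lam_nu ok j x, ← Cube.lam_nu ok j y]
    rw [map_sub, add_sub_add_left_eq_sub]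
  rw [h2, Par.a, div_div_eq_mul_div] at h1
  rwa [dist_eq_norm, dist_eq_norm]

namespace Mesh2

variable (𝓜 : Mesh2 Ω P σ 𝓒 M₀ Mt S₀ S) {i l : 𝓜.Q.ι} {j : Fin P.N} {x y : E3}

theorem le_MI (i : 𝓜.Q.ι) : M₀ ≤ 𝓜.MI i := (𝓜.M_le i).1.trans (𝓜.M_le i).2

/-- the coarse complex with its isotropic charts -/
noncomputable def src (h1 : 1 ≤ M₀) : Src Ω where
  Q := 𝓜.Q
  cvx := 𝓜.cvx
  carrier := 𝓜.carrier
  r := fun c => 2⁻¹ ^ 𝓜.kf c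
  M := 𝓜.MI
  r_pos := fun _ => by positivity
  M_ge := fun c => h1.trans (𝓜.le_MI c)
  chart := fun c _ => 𝓜.chartI c c Subset.rfl

theorem src_Q (h1 : 1 ≤ M₀) : (𝓜.src h1).Q = 𝓜.Q := rfl

theorem src_r (h1 : 1 ≤ M₀) (c : 𝓜.Q.ι) : (𝓜.src h1).r c = 2⁻¹ ^ 𝓜.kf c := rfl

theorem src_M (h1 : 1 ≤ M₀) (c : 𝓜.Q.ι) : (𝓜.src h1).M c = 𝓜.MI c := rfl

theorem nu_eq (j : Fin P.N) : P.nu j = 𝓜.ν j := funext fun x => (𝓜.ν_eq j x).symm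

theorem lip_nu (ok : P.Ok Ω) (j : Fin P.N) :
    LipschitzWith ((P.T j).b * P.m j / 2⁻¹ ^ P.k₀) (𝓜.ν j) :=
  LipschitzWith.of_dist_le_mul fun x y => by
    rw [𝓜.ν_eq, 𝓜.ν_eq]
    exact (dist_nu_le ok j x y).trans_eq (by push_cast; rfl)

theorem lip_symm (ok : P.Ok Ω) (j : Fin P.N) :
    LipschitzWith ((P.T j).b * 2⁻¹ ^ P.k₀) (𝓜.ν j).symm :=
  LipschitzWith.of_dist_le_mul fun x y => by
    have := dist_nu ok j ((𝓜.ν j).symm x) ((𝓜.ν j).symm y)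
    rw [← 𝓜.ν_eq, ← 𝓜.ν_eq, (𝓜.ν j).apply_symm_apply, (𝓜.ν j).apply_symm_apply] at this
    exact this.trans_eq (by push_cast; rfl)

theorem cond (ok : P.Ok Ω) (j : Fin P.N) : Cond (𝓜.ν j) ((P.T j).b ^ 2 * P.m j) :=
  ⟨_, _, 𝓜.lip_nu ok j, 𝓜.lip_symm ok j, le_of_eq (by field_simp)⟩

theorem not_far (hx : x ∈ 𝓜.Q.cell i) (ok : P.Ok Ω) (hb : x ∈ P.BufSet j) : ¬ 𝓜.far i :=
  fun h => Set.disjoint_left.1 (𝓜.far_K i j h) hx (by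
    rw [mem_thickening_iff, mul_assoc]
    exact (buf_nr ok hb).mono (by norm_num))

theorem kf_buf (ok : P.Ok Ω) (hb : 𝓜.Q.cell i ⊆ P.BufSet j) : 𝓜.kf i = P.k₀ :=
  let ⟨x, hx⟩ := 𝓜.Q.cell_nonempty i
  𝓜.kf_near i j ⟨x, hx, Cube.buf_U ok j (hb hx)⟩

theorem chart_nu (ok : P.Ok Ω) (j : Fin P.N) (h : 𝓜.Q.cell l ⊆ 𝓜.Q.cell i) :
    Chart (𝓜.Q.dim l) (𝓜.ν j '' 𝓜.Q.cell l) (𝓜.ν j '' 𝓜.Q.bd l)
      (𝓜.MI i * ((P.T j).b * P.m j) / (2⁻¹ ^ 𝓜.kf i / 2⁻¹ ^ P.k₀))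
      (𝓜.MI i * ((P.T j).b * P.m j) * (2⁻¹ ^ 𝓜.kf i / 2⁻¹ ^ P.k₀)) := by
  refine chart_mono (chart_push (𝓜.ν j) (𝓜.chartI i l h) (𝓜.lip_nu ok j) (𝓜.lip_symm ok j))
    ?_ (le_of_eq (by ring))
  have hm : (1 : ℝ≥0) ≤ P.m j := by exact_mod_cast ok.m_pos j
  rw [div_div_eq_mul_div, div_mul_eq_mul_div]
  refine div_le_div_of_nonneg_right ?_ zero_le
  rw [← mul_assoc, ← mul_assoc]
  exact mul_le_mul_left (le_mul_of_one_le_right zero_le hm) _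

theorem chart_buf (hb : 𝓜.Q.cell i ⊆ P.BufSet j) (h : 𝓜.Q.cell l ⊆ 𝓜.Q.cell i) :
    BiChart (𝓜.Q.dim l) (𝓜.ν j '' 𝓜.Q.cell l) (𝓜.ν j '' 𝓜.Q.bd l) M₀ := by
  have := 𝓜.chart i l h
  rwa [(𝓜.nm_buf i j hb).1, (𝓜.nm_buf i j hb).2] at this

open Classical in
/-- charts in the coordinates of type `j`: scale one on the near cells, constant `M₀` on the cells
of the buffer -/
noncomputable def nrm (h1 : 1 ≤ M₀) (ok : P.Ok Ω) (j : Fin P.N) : Nrm (𝓜.src h1) (𝓜.ν j) where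
  r := fun c => 2⁻¹ ^ 𝓜.kf c / 2⁻¹ ^ P.k₀
  M := fun c => if 𝓜.Q.cell c ⊆ P.BufSet j then M₀ else 𝓜.MI c * ((P.T j).b * P.m j)
  r_pos := fun _ => by positivity
  M_ge := fun c => by
    have hm : (1 : ℝ≥0) ≤ P.m j := by exact_mod_cast ok.m_pos j
    have hb : (1 : ℝ≥0) ≤ (P.T j).b := by exact_mod_cast (P.T j).b_pos
    split_ifs
    · exact h1
    · exact one_le_mul (h1.trans (𝓜.le_MI c)) (one_le_mul hb hm)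
  chart := fun c _ => by
    split_ifs with h
    · rw [𝓜.kf_buf ok h, div_self (by positivity), div_one, mul_one]
      exact 𝓜.chart_buf h Subset.rfl
    · exact 𝓜.chart_nu ok j Subset.rfl

theorem nrm_cell (h1 : 1 ≤ M₀) (ok : P.Ok Ω) (j : Fin P.N) (c : 𝓜.Q.ι) :
    (𝓜.nrm h1 ok j).src.Q.cell c = 𝓜.ν j '' 𝓜.Q.cell c := rfl

theorem nrm_dim (h1 : 1 ≤ M₀) (ok : P.Ok Ω) (j : Fin P.N) (c : 𝓜.Q.ι) :
    (𝓜.nrm h1 ok j).src.Q.dim c = 𝓜.Q.dim c := rfl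

theorem nrm_r (h1 : 1 ≤ M₀) (ok : P.Ok Ω) {c : 𝓜.Q.ι} (h : (𝓜.Q.cell c ∩ P.U j).Nonempty) :
    (𝓜.nrm h1 ok j).r c = 1 := by
  show (2⁻¹ : ℝ≥0) ^ 𝓜.kf c / 2⁻¹ ^ P.k₀ = _
  rw [𝓜.kf_near c j h, div_self (by positivity)]

theorem nrm_M_buf (h1 : 1 ≤ M₀) (ok : P.Ok Ω) {c : 𝓜.Q.ι} (h : 𝓜.Q.cell c ⊆ P.BufSet j) :
    (𝓜.nrm h1 ok j).M c = M₀ := if_pos h

theorem nrm_M (h1 : 1 ≤ M₀) (ok : P.Ok Ω) {c : 𝓜.Q.ι} (h : ¬ 𝓜.Q.cell c ⊆ P.BufSet j) :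
    (𝓜.nrm h1 ok j).M c = 𝓜.MI c * ((P.T j).b * P.m j) := if_neg h

/-! ### cells of the buffer -/

theorem image_box (j : Fin P.N) (X : Set E3) : 𝓜.ν j '' (P.nu j ⁻¹' X) = X := by
  rw [𝓜.nu_eq]
  exact image_preimage_eq X (𝓜.ν j).surjective

theorem dim_box {z : Fin 3 → ℤ} {J : Finset (Fin 3)} (h : 𝓜.Q.cell i = P.nu j ⁻¹' uface z J) :
    𝓜.Q.dim i + J.card = 3 := by
  rw [(𝓜.cvx i).2.2, h, 𝓜.nu_eq, Cell.finrank_preimage, Cell.finrank_uface]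

theorem bd_box {z : Fin 3 → ℤ} {J : Finset (Fin 3)} (h : 𝓜.Q.cell i = P.nu j ⁻¹' uface z J)
    (hx : x ∈ 𝓜.Q.bd i) : ∃ k, k ∉ J ∧ (P.nu j x ∈ uface z (insert k J) ∨
      P.nu j x ∈ uface (z + Pi.single k 1) (insert k J)) := by
  have h1 : P.nu j x ∈ uface z J := h.subset (𝓜.Q.bd_subset i hx)
  rw [(𝓜.cvx i).2.1, h, 𝓜.nu_eq] at hx
  obtain ⟨k, hk, h2⟩ := Cell.frontier_box (𝓜.ν j) hx (𝓜.ν_eq j x ▸ h1)
  rw [𝓜.ν_eq] at h2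
  obtain ⟨a, b⟩ := Cell.mem_uface.1 h1
  refine ⟨k, hk, h2.imp (fun h3 => ⟨h1.1, fun l hl => ?_⟩) fun h3 =>
    Cell.mem_uface.2 ⟨fun l => ?_, fun l hl => ?_⟩⟩
  · rcases Finset.mem_insert.1 hl with rfl | hl
    exacts [h3, b l hl]
  · by_cases hl : l = k
    · subst hl
      simp [h3]
    · simpa [hl] using a l
  · rcases Finset.mem_insert.1 hl with rfl | hl
    · simp [h3]
    · have : l ≠ k := fun e => hk (e ▸ hl)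
      simpa [this] using b l hl

/-- every face of a buffer cube is a cell -/
theorem face_cell {z z' : Fin 3 → ℤ} {J : Finset (Fin 3)} (hz : z ∈ P.Buf j)
    (h : uface z' J ⊆ ucube z) : ∃ i, 𝓜.Q.cell i = P.nu j ⁻¹' uface z' J ∧
      𝓜.ν j '' 𝓜.Q.cell i = uface z' J ∧ 𝓜.Q.dim i + J.card = 3 ∧ 𝓜.Q.cell i ⊆ P.BufSet j := by
  obtain ⟨i, hi⟩ := 𝓜.box_cell j z hz _ (Cell.isBox z' J) h
  exact ⟨i, hi, hi ▸ 𝓜.image_box j _, 𝓜.dim_box hi, fun x hx => ⟨z, hz, h (hi.subset hx)⟩⟩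

/-- every cell in the buffer is a face of a lattice cube -/
theorem buf_cell (h : 𝓜.Q.cell i ⊆ P.BufSet j) : ∃ z J, 𝓜.Q.cell i = P.nu j ⁻¹' uface z J ∧
    𝓜.Q.dim i + J.card = 3 ∧ ∃ z' ∈ P.Buf j, uface z J ⊆ ucube z' := by
  obtain ⟨x, hx⟩ := 𝓜.Q.ocell_nonempty i
  obtain ⟨z, J, e⟩ := (isBox_hull (P.nu j x)).eq_uface
  have h1 := 𝓜.buf i j x hx (h hx.1)
  obtain ⟨z', h2, h3⟩ := h hx.1
  exact ⟨z, J, e ▸ h1, 𝓜.dim_box (e ▸ h1), z', h2, e ▸ hull_cube h3⟩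

theorem buf_sub (hx : x ∈ 𝓜.Q.ocell i) (hb : x ∈ P.BufSet j) : 𝓜.Q.cell i ⊆ P.BufSet j := by
  obtain ⟨z, h1, h2⟩ := id hb
  exact fun _ hy => ⟨z, h1, hull_cube h2 ((𝓜.buf i j x hx hb).subset hy)⟩

theorem sub_buf (ok : P.Ok Ω) (j : Fin P.N) : 𝓜.Q.Sub (P.BufSet j) := fun _ hx =>
  let ⟨i, hi⟩ := 𝓜.Q.exists_ocell (𝓜.carrier.symm ▸ Cube.U_sub ok j (Cube.buf_U ok j hx))
  ⟨i, hi.1, 𝓜.buf_sub hi hx⟩

/-- the cells which come close to an inner cube lie in the buffer -/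
theorem meet_inner (ok : P.Ok Ω) {z : Fin 3 → ℤ} (hz : z ∈ P.Inner j) (hy : y ∈ 𝓜.Q.cell i)
    (h : P.nu j y ∈ cthickening 2 (ucube z)) : 𝓜.Q.cell i ⊆ P.BufSet j := by
  obtain ⟨x, hx⟩ := 𝓜.Q.ocell_nonempty i
  have h1 : ∀ {z' : Fin 3 → ℤ}, P.nu j y ∈ ucube z' → z' ∈ P.Buf j := fun hz' ξ hξ => by
    have h2 := cthickening_cthickening_subset zero_le_one zero_le_two (ucube z)
      (mem_cthickening_of_dist_le _ _ 1 _ h (dist_ucube hξ hz'))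
    rw [show (1:ℝ) + 2 = 3 by norm_num] at h2
    exact cthickening_subset_of_subset _ (subset_biUnion_of_mem (u := ucube) hz) h2
  have h2 := buf_nr ok ⟨_, h1 (floor_mem _), floor_mem _⟩
  have h3 : Nr P j 10 x := h2.step (𝓜.near_diam i j ⟨y, hy, mem_U.2 (h2.mono (by norm_num))⟩
    x hx.1 y hy) (by norm_num)
  have h4 := 𝓜.near_hull i j x hx (by rw [mem_thickening_iff, mul_assoc]; exact h3)
  exact fun u hu => ⟨_, h1 (hull_cube (floor_mem _) (h4 hy)), hull_cube (floor_mem _) (h4 hu)⟩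

/-- the cells outside the buffer miss the compact set -/
theorem disj_K (ok : P.Ok Ω) (h : ¬ 𝓜.Q.cell i ⊆ P.BufSet j) : Disjoint (𝓜.Q.cell i) (P.K j) :=
  Set.disjoint_left.2 fun y hy hK => h (𝓜.meet_inner ok ⟨y, hK, floor_mem _⟩ hy
    (self_subset_cthickening _ (floor_mem _)))

theorem far_of (hx : x ∈ 𝓜.Q.cell i) (h : ∀ j, x ∉ P.U j) : 𝓜.far i :=
  by_contra fun hi => let ⟨j, hj⟩ := 𝓜.near i hi; h j (hj hx)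

/-- the size of all cells -/
theorem small (hx : x ∈ 𝓜.Q.cell i) (hy : y ∈ 𝓜.Q.cell i) : dist x y ≤ 2 * σ x ∨
    ∃ j, 𝓜.Q.cell i ⊆ P.U j ∧ dist x y ≤ (P.T j).b * P.η := by
  by_cases h : 𝓜.far i
  · have h1 := (𝓜.zone i x hx).1
    have h2 : (0:ℝ) < 2⁻¹ ^ 𝓜.kf i := by positivity
    exact Or.inl (by linarith [𝓜.far_diam i h x hx y hy])
  · obtain ⟨j, hj⟩ := 𝓜.near i h
    exact Or.inr ⟨j, hj, 𝓜.near_diam i j ⟨x, hx, hj hx⟩ x hx y hy⟩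

/-! ### candidates for the free cubes -/

theorem cand_sub {k : ℕ} {Y : Set E3} (hY : Y ⊆ Ω)
    (h : ∀ x ∈ Y, σ x < 2 * (2:ℝ)⁻¹ ^ k ∧ ∀ j, x ∉ P.U j) {q : E3}
    (hq : q ∈ latt P.w ((2:ℝ)⁻¹ ^ k)) (n : ℕ) (hs : closedBall q (n * (2:ℝ)⁻¹ ^ k) ⊆ Y) :
    𝓜.Q.Sub (closedBall q (n * (2:ℝ)⁻¹ ^ k)) ∧ 𝓜.Q.Sub (sphere q (n * (2:ℝ)⁻¹ ^ k)) := by
  refine 𝓜.ball_sub k q _ (hs.trans hY) (fun l => ?_)
    fun x hx => h x (hs (sphere_subset_closedBall hx))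
  obtain ⟨a, ha⟩ := hq l
  have e : (2:ℝ) ^ k * 2⁻¹ ^ k = 1 := by rw [← mul_pow]; simp
  refine ⟨⟨a - n, ?_⟩, a + n, ?_⟩ <;> rw [ha] <;> push_cast
  · linear_combination ((a : ℝ) - n) * e
  · linear_combination ((a : ℝ) + n) * e

theorem cand (h1 : 1 ≤ M₀) {k : ℕ} {Y : Set E3} (hY : Y ⊆ Ω)
    (h : ∀ x ∈ Y, σ x < 2 * (2:ℝ)⁻¹ ^ k ∧ ∀ j, x ∉ P.U j) {w : 𝓜.Q.ι → ℝ≥0∞}
    (hw : ∀ φ, 𝓜.Q.dim φ = 2 → 𝓜.Q.cell φ ⊆ Y ∩ plns P.w ((2:ℝ)⁻¹ ^ k) →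
      ENNReal.ofReal ((2:ℝ)⁻¹ ^ k) ≤ w φ) : Cand (𝓜.src h1) P.w ((2:ℝ)⁻¹ ^ k) Y w :=
  ⟨by positivity, fun _ hq n _ hs => (𝓜.cand_sub hY h hq n hs).1, hw⟩

end Mesh2

end M2

end P073
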