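import Vale.Agent.P073Y.Ms.Tgt
import Vale.Agent.P073Y.Ms.Src
import Vale.Agent.P073Y.Ms.Size
import Vale.Agent.P073Y.Gc.Core
import Vale.Agent.P073Y.An.Max

/-!
# Gauges and the first PL homeomorphism on the mesh with cores
-/

open Set Metric Topology Filter MeasureTheory
open scoped ENNReal NNReal

namespace P073

namespace M2

open Me Gc _root_.P073.Zn
open Inf (gim)

variable {Ω Λ : Set E3} {f f' : E3 → E3}

/-- the gauges in the target and in the source -/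
theorem exists_gauges (hΩ : IsOpen Ω) (hΛ : IsOpen Λ) (hf : HomeoOn f f' Ω Λ) {o : E3 → ℝ}
    (ho : Gauge o Ω) {c : ℝ} (hc : 0 < c) {O : ℕ → Set E3} (hO : LFIn O Ω) {a : ℕ → ℝ}
    (ha : ∀ i, 0 < a i) : ∃ δ ς : E3 → ℝ, Tg Λ δ ∧ (∀ z, δ z ≤ c) ∧
      (∀ y ∈ Ω, 6 * δ (f y) ≤ o y) ∧ LipschitzWith (1 / 10) ς ∧
      (∀ x ∈ Ω, 0 < ς x ∧ closedBall x (ς x) ⊆ Ω) ∧
      (∀ x ∈ Ω, ∀ y ∈ Ω, dist y x ≤ 2 * ς x → dist (f y) (f x) < δ (f x)) ∧
      ∀ i, ∀ x ∈ Ω, x ∈ O i → ς x < a i := by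
  obtain ⟨δ₁, a1, a2, a3, a4⟩ := ACC.exists_delta' hΛ (show 0 < 4 * c by positivity)
  obtain ⟨δ₂, b1, b2, b3⟩ := (ho.comp hf.cont_inv hf.mapsTo_inv).exists_lip
    (show (0:ℝ) < 10 by norm_num)
  obtain ⟨δ, T, t1, t2⟩ : ∃ δ, Tg Λ δ ∧ (∀ z, δ z ≤ δ₁ z) ∧ ∀ z, δ z ≤ δ₂ z :=
    ⟨fun z => min (δ₁ z) (δ₂ z), ⟨fun y hy => lt_min (a1 y hy) (b1.2 y hy), fun y y' => by
      rw [← min_add_add_right]
      exact min_le_min (a3 y y') (b3 y y'), fun y hy => (closedBall_subset_closedBall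
        (by linarith [min_le_left (δ₁ y) (δ₂ y)])).trans (a4 y hy)⟩,
      fun _ => min_le_left _ _, fun _ => min_le_right _ _⟩
  obtain ⟨r, hr, hrl, -, hrp⟩ := exists_gauge (X := Ω)
    (p := fun x a => closedBall x a ⊆ Ω ∧ ∀ y ∈ Ω, dist y x ≤ a → dist (f y) (f x) < δ (f x))
    (fun x _ a b _ hab hb => ⟨(closedBall_subset_closedBall hab).trans hb.1,
      fun y hy h => hb.2 y hy (h.trans hab)⟩) (by
    intro x hx
    have h0 := T.pos _ (hf.mapsTo hx)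
    have hc : ContinuousAt f x := hf.cont.continuousAt (hΩ.mem_nhds hx)
    have h1 : ∀ᶠ y in 𝓝 x, y ∈ Ω ∧ dist (f y) (f x) < δ (f x) / 4 :=
      (hΩ.eventually_mem hx).and (hc.eventually (ball_mem_nhds _ (by positivity)))
    obtain ⟨a, ha, hab⟩ := Metric.nhds_basis_closedBall.mem_iff.1 h1
    refine ⟨a / 2, half_pos ha, ?_⟩
    filter_upwards [mem_nhdsWithin_of_mem_nhds (ball_mem_nhds x (half_pos ha))] with y hy
    rw [mem_ball] at hy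
    have key : ∀ z, dist z y ≤ a / 2 → z ∈ closedBall x a := fun z hz => by
      rw [mem_closedBall]; linarith [dist_triangle z y x]
    refine ⟨fun z hz => (hab (key z hz)).1, fun z _ hz => ?_⟩
    linarith [(hab (key z hz)).2, (hab (key y (by rw [dist_self]; linarith))).2,
      T.lip (f x) (f y), dist_triangle_right (f z) (f y) (f x), dist_comm (f x) (f y)])
  obtain ⟨r₁, c1, c2⟩ := exists_gauge_lf hO ha
  obtain ⟨r₂, d1, d2, d3⟩ := c1.exists_lip (show (0:ℝ) < 10 by norm_num)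
  refine ⟨δ, fun x => min (r x / 10) (r₂ x), T, fun z => by linarith [t1 z, a2 z],
    fun y hy => ?_, LipschitzWith.of_le_add_mul _ fun x y => ?_, fun x hx => ⟨lt_min
      (div_pos (hr.2 x hx) (by norm_num)) (d1.2 x hx), (closedBall_subset_closedBall ?_).trans
        (hrp x hx).1⟩, fun x hx y hy h => (hrp x hx).2 y hy ?_, fun i x hx hi => ?_⟩
  · have h1 := b2 _ (hf.mapsTo hy)
    rw [hf.left_inv hy] at h1
    linarith [t2 (f y), T.pos _ (hf.mapsTo hy)]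
  · rw [← min_add_add_right]
    push_cast
    exact min_le_min (by linarith [hrl x y]) (by linarith [d3 x y])
  · linarith [min_le_left (r x / 10) (r₂ x), hr.2 x hx]
  · linarith [min_le_left (r x / 10) (r₂ x), hr.2 x hx]
  · linarith [min_le_right (r x / 10) (r₂ x), d1.2 x hx, d2 x hx, c2 i x hx hi]

/-- the upper bound for the mesh size, which leaves room for the cores in `V` -/
theorem exists_vs {ς₀ : E3 → ℝ} (hl : LipschitzWith (1 / 10) ς₀)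
    (hp : ∀ x ∈ Ω, 0 < ς₀ x ∧ closedBall x (ς₀ x) ⊆ Ω) {V X : Set E3} (hX : IsCompact X)
    (hXΩ : X ⊆ Ω) {ρ : ℝ} (hV : ∀ v ∈ V, closedBall v (22 * ρ) ⊆ X) :
    ∃ (ς : E3 → ℝ) (η₀ : ℝ), 0 < η₀ ∧ LipschitzWith (1 / 10) ς ∧
      (∀ x ∈ Ω, 0 < ς x ∧ closedBall x (ς x) ⊆ Ω) ∧ (∀ x, ς₀ x ≤ ς x) ∧ (∀ x ∈ V, 2 * ρ ≤ ς x) ∧
      ∀ η ≤ η₀, ∀ x ∈ Ω, min (ς x) (3 / 2 * η) ≤ ς₀ x := by
  rcases V.eq_empty_or_nonempty with rfl | hne
  · exact ⟨ς₀, 1, one_pos, hl, hp, fun _ => le_rfl, fun _ h => h.elim, fun _ _ _ _ => min_le_left _ _⟩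
  obtain ⟨c, hc, h0⟩ := Gauge.exists_lower (r := ς₀) (X := Ω)
    ⟨hl.continuous.continuousOn, fun x hx => (hp x hx).1⟩ hX hXΩ
  have h1 : ∀ x ∈ Ω, max (ς₀ x) (2 * ρ - infDist x V / 10) = ς₀ x ∨
      (max (ς₀ x) (2 * ρ - infDist x V / 10) ≤ 2 * ρ ∧ ∃ y ∈ V, dist x y < 20 * ρ) := fun x hx => by
    rcases le_total (2 * ρ - infDist x V / 10) (ς₀ x) with h | h
    · exact Or.inl (max_eq_left h)
    · rw [max_eq_right h]
      exact Or.inr ⟨by linarith [infDist_nonneg (x := x) (s := V)],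
        (infDist_lt_iff hne).1 (by linarith [(hp x hx).1])⟩
  refine ⟨fun x => max (ς₀ x) (2 * ρ - infDist x V / 10), c / 2, half_pos hc,
    LipschitzWith.of_le_add_mul _ fun x y => max_le ?_ ?_, fun x hx => ⟨(hp x hx).1.trans_le
      (le_max_left _ _), ?_⟩, fun _ => le_max_left _ _, fun x hx => le_trans (by
        rw [infDist_zero_of_mem hx, zero_div, sub_zero]) (le_max_right _ _), fun η hη x hx => ?_⟩
  · linarith [hl.le_add_mul x y, le_max_left (ς₀ y) (2 * ρ - infDist y V / 10)]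
  · push_cast
    linarith [infDist_le_infDist_add_dist (x := y) (y := x) (s := V), dist_comm x y,
      le_max_right (ς₀ y) (2 * ρ - infDist y V / 10)]
  · rcases h1 x hx with h | ⟨h, y, a, b⟩
    · exact (closedBall_subset_closedBall h.le).trans (hp x hx).2
    · exact ((closedBall_subset_closedBall' (by linarith)).trans (hV y a)).trans hXΩ
  · rcases h1 x hx with h | ⟨-, y, a, b⟩
    · exact (min_le_left _ _).trans h.le
    · have h2 := h0 x (hV y a (mem_closedBall.2 (by linarith [dist_nonneg (x := x) (y := y)])))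
      exact (min_le_right _ _).trans (by linarith)

theorem ball_sub_image (hΛ : IsOpen Λ) (hf : HomeoOn f f' Ω Λ) {q y : E3} {r R : ℝ}
    (h1 : closedBall q R ⊆ Ω) (hy : y ∈ ball q R) (hr : 0 ≤ r)
    (h : ∀ u ∈ sphere q R, r < dist (f u) (f y)) : closedBall (f y) r ⊆ f '' ball q R := by
  refine (convex_closedBall _ _).isPreconnected.subset_of_closure_inter_subset
    (An.MaxA.openOn_of hΛ hf _ isOpen_ball (ball_subset_closedBall.trans h1))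
    ⟨f y, mem_closedBall_self hr, y, hy, rfl⟩ fun z hz => ?_
  obtain ⟨u, h2, rfl⟩ := closure_minimal (image_mono ball_subset_closedBall)
    ((isCompact_closedBall q R).image_of_continuousOn (hf.cont.mono h1)).isClosed hz.1
  exact ⟨u, lt_of_le_of_ne h2 fun e => (h u e).not_ge hz.2, rfl⟩

theorem close_lip {A : An.M3} {X : Set E3} {b l : ℝ} (hA : Bil b A) (h : Close f A X l) (hb : 0 ≤ b)
    {x y : E3} (hx : x ∈ X) (hy : y ∈ X) :
    dist (f y) (f x) ≤ b * dist y x + l ∧ dist y x ≤ b * (dist (f y) (f x) + l) := by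
  have h1 := h x hx y hy
  have h3 := A.le_of_opNorm_le hA.1 (y - x)
  have h4 := norm_le_norm_add_norm_sub (f y - f x) (A (y - x))
  have h5 := norm_le_norm_add_norm_sub' (f y - f x) (A (y - x))
  rw [dist_eq_norm, dist_eq_norm]
  exact ⟨by linarith, (hA.2 (y - x)).trans (mul_le_mul_of_nonneg_left (by linarith) hb)⟩

/-- **the first PL homeomorphism** -/
theorem start : ∃ K₂ : ℝ≥0, ∀ {Ω Λ K V K₀ : Set E3} {f f' : E3 → E3} {F A : E3 → An.M3}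
    {p b τ s c β' β : ℝ} {P : Par} {k : ℕ} {P₁ P₂ : Finset E3} {ς δ : E3 → ℝ}
    {𝓒 : Set (ℕ × (Fin 3 → ℤ))} {M₀ : ℝ≥0} {Mt : Ty → ℕ → ℝ≥0} {S₀ : Set E3} {S : Ty → ℕ → Set E3}
    (𝓜 : Mesh2 Ω P (size P ς k (zof P k P₁ s)) 𝓒 M₀ Mt S₀ S)
    (γ' : Good 𝓜.Q' f STR.kap β') (γ : Good 𝓜.Q' f STR.kap β) (η : 𝓜.Q'.ι → ℝ≥0∞),
    Std Ω Λ f f' → P.Ok Ω → k ≤ P.k₀ → Sol p f F K V b τ (2⁻¹ ^ k) s P.w P₁ P₂ A → V ⊆ Ω →
    K₀ ⊆ Ω → 1 ≤ b → τ ≤ 1 → 0 < β' → 0 < β → (∀ i, 0 < η i) →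
    200 * β + 10 * b * 2⁻¹ ^ k ≤ c → 70 * b * c ≤ s → Tg Λ δ → (∀ z, δ z ≤ c) →
    (∀ x ∈ Ω, ∀ y ∈ Ω, dist y x ≤ 2 * P.ς x → dist (f y) (f x) < δ (f x)) →
    (∀ x ∈ Ω, min (ς x) (3 / 2 * P.η) ≤ P.ς x) →
    (∀ v ∈ K₀, 201 * β' ≤ δ (f v) ∧ ∀ x ∈ V, 15 * c ≤ dist (f v) (f x)) →
    (∀ i ∈ γ'.G, ∀ x ∈ 𝓜.Q'.cell i, ∃ v ∈ K₀, dist (γ'.A i x) (f v) ≤ β') →
    (∀ i ∈ γ.G, 𝓜.Q'.cell i ⊆ CoreZ P k (zof P k P₁ s) ∧
      ∀ x ∈ 𝓜.Q'.cell i, dist (γ.A i x) (f x) ≤ 2 * (τ * 2⁻¹ ^ k)) →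
    (∀ e x y, 𝓜.Q'.dim e = 1 → 𝓜.Q'.cell e = segment ℝ x y → segVar f x y < ⊤) →
    ∃ (g : ConHomeo Ω Λ) (O : 𝓜.Q'.ι → Set E3), Rf.Out 𝓜.Q' f O K₂ η g ∧
      (∀ i ∈ γ'.G, EqOn g.toFun (γ'.A i) (𝓜.Q'.cell i)) ∧
      (∀ i ∈ γ.G, EqOn g.toFun (γ.A i) (𝓜.Q'.cell i)) ∧
      ∀ i, ∀ x ∈ 𝓜.Q.cell i, ∀ y ∈ 𝓜.Q.cell i, dist (g.toFun x) (f y) ≤ 6 * δ (f y) ∨
        (y ∈ cubes P₁ (3 * s / 4) ∧ dist (g.toFun x) (f y) ≤ 6 * c) := by
  obtain ⟨K₂, H⟩ := tgt2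
  refine ⟨K₂, ?_⟩
  intro Ω Λ K V K₀ f f' F A p b τ s c β' β P k P₁ P₂ ς δ 𝓒 M₀ Mt S₀ S 𝓜 γ' γ η D ok hk h hV hK hb
    hτ hβ' hβ hη hc hs T hδ ho hς h0 h1 h2 hfin
  have hf := D.homeo
  have r0 : (0:ℝ) < 2⁻¹ ^ k := by positivity
  have r1 : (2:ℝ)⁻¹ ^ k ≤ b * 2⁻¹ ^ k := le_mul_of_one_le_left r0.le hb
  have r2 : τ * (2:ℝ)⁻¹ ^ k ≤ 2⁻¹ ^ k := mul_le_of_le_one_left r0.le hτ
  have r3 : c ≤ b * c := le_mul_of_one_le_left (by linarith) hb
  have b0 : 0 ≤ b := by linarith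
  have hq : ∀ q ∈ P₁, closedBall q (2 * s) ⊆ V := fun q hq =>
    (closedBall_subset_closedBall (by linarith)).trans (h.lat q (Or.inl hq)).2.1
  have hY : ∀ u ∈ CoreZ P k (zof P k P₁ s), u ∈ V ∧ closedBall (f u) (15 * c) ⊆ Λ ∧
      ∀ y ∈ Ω, dist (f y) (f u) ≤ 15 * c → y ∈ cubes P₁ (3 * s / 4) := fun u hu => by
    obtain ⟨q, a1, a2⟩ := mem_cubes.1 (core_sub P k P₁ s hu)
    have a3 : u ∈ closedBall q (2 * s) := mem_closedBall.2 (by linarith)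
    have a4 : closedBall q (3 * s / 4) ⊆ Ω :=
      ((closedBall_subset_closedBall (by linarith)).trans (hq q a1)).trans hV
    have a5 := ball_sub_image D.oΛ hf (y := u) (r := 15 * c) a4 (mem_ball.2 (by linarith))
      (by linarith) fun v hv => lt_of_not_ge fun a6 => by
        rw [mem_sphere] at hv
        have a7 := ((close_lip (h.bil q a1) (h.close q a1) b0 a3 (y := v)
          (mem_closedBall.2 (by linarith))).2).trans (mul_le_mul_of_nonneg_left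
            (show _ ≤ 16 * c by linarith) b0)
        linarith [dist_triangle v u q]
    refine ⟨hq q a1 a3, a5.trans (image_subset_iff.2 fun v hv =>
      hf.mapsTo (a4 (ball_subset_closedBall hv))), fun y hy a6 => ?_⟩
    obtain ⟨v, a7, a8⟩ := a5 a6
    rw [← hf.left_inv.injOn (a4 (ball_subset_closedBall a7)) hy a8]
    exact mem_cubes.2 ⟨q, a1, (mem_ball.1 a7).le⟩
  obtain ⟨δ', T', t1, t2, t3⟩ := T.bump (Y := f '' CoreZ P k (zof P k P₁ s)) (c := c)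
    (forall_mem_image.2 fun u hu => (hY u hu).2.1)
  rw [forall_mem_image] at t2
  have t4 : ∀ z ∈ Λ, δ' z ≤ c := fun z hz => (t3 z hz).elim (fun a => a ▸ hδ z) fun a => a.1
  have hcell : ∀ i, 𝓜.Q.cell i ⊆ Ω :=
    fun i => (𝓜.Q.cell_subset_carrier i).trans_eq 𝓜.carrier
  have osc : ∀ i, ∀ x ∈ 𝓜.Q.cell i, ∀ y ∈ 𝓜.Q.cell i, dist (f y) (f x) < δ' (f x) := by
    intro i x hx y hy
    have a0 : dist x y ≤ 2 * P.ς x → dist (f y) (f x) < δ' (f x) := fun a =>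
      (ho x (hcell i hx) y (hcell i hy) (dist_comm x y ▸ a)).trans_le (t1 _)
    rcases 𝓜.small hx hy with a | ⟨j, a1, a2⟩
    · by_cases a1 : ∀ z ∈ zof P k P₁ s, dy P k x ∉ cthickening 20 (ucube z)
      · rw [size_off a1] at a
        exact a0 (by linarith [hς x (hcell i hx)])
      push Not at a1
      obtain ⟨z, a1, a2⟩ := a1
      obtain ⟨q, a3, a4⟩ := zof_near a1
      have a5 := mem_closedBall.1 (a4 20 (by norm_num) a2)
      rw [(show IsCompact (ucube z) from isCompact_Icc).cthickening_eq_biUnion_closedBall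
        (by norm_num)] at a2
      obtain ⟨ζ, a6, a7⟩ := mem_iUnion₂.1 a2
      obtain ⟨θ, hθ⟩ := exists_dy P k
      have a8 : dy P k (θ.symm ζ) = ζ := by rw [← hθ, θ.apply_symm_apply]
      have a9 : dist x (θ.symm ζ) ≤ 2⁻¹ ^ k * 20 := by
        rw [dist_dy (P := P) k, a8]
        exact mul_le_mul_of_nonneg_left a7 r0.le
      have a10 := size_le' (ς := ς) (𝓩 := zof P k P₁ s) hk x
      have m : ∀ u, dist x u ≤ 2⁻¹ ^ k * 20 → u ∈ closedBall q (2 * s) := fun u hu =>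
        mem_closedBall.2 (by linarith [dist_triangle_left u q x])
      have m0 := m x (by rw [dist_self]; positivity)
      have b1 := (close_lip (h.bil q a3) (h.close q a3) b0 m0 (m y (by linarith))).1
      have b2 := (close_lip (h.bil q a3) (h.close q a3) b0 (m _ a9) m0).1
      have b3 := mul_le_mul_of_nonneg_left (show dist y x ≤ 3 * 2⁻¹ ^ k by
        linarith [dist_comm x y]) b0
      linarith [t2 (show θ.symm ζ ∈ CoreZ P k _ from ⟨z, a1, a8.symm ▸ a6⟩) (f x),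
        mul_le_mul_of_nonneg_left a9 b0]
    · have a3 := ((mem_U.1 (a1 hx)).mono (show (20:ℝ) ≤ 100 by norm_num)).big ok
      have a4 : 0 < un P j := un_pos
      exact a0 (by unfold un at a3 a4; linarith [a3.2])
  have g1 : ∀ y ∈ gim γ', ∃ v ∈ K₀, dist y (f v) ≤ β' := fun y hy => by
    obtain ⟨i, a, x, a1, rfl⟩ := mem_iUnion₂.1 hy
    exact h1 i a x a1
  have g2 : ∀ y ∈ gim γ, ∃ u ∈ CoreZ P k (zof P k P₁ s), dist y (f u) ≤ 2 * 2⁻¹ ^ k :=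
    fun y hy => by
      obtain ⟨i, a, x, a1, rfl⟩ := mem_iUnion₂.1 hy
      exact ⟨x, (h2 i a).1 a1, by linarith [(h2 i a).2 x a1]⟩
  have g3 : ∀ y ∈ gim γ', y ∈ Λ ∧ 200 * β' ≤ δ' y := fun y hy => by
    obtain ⟨v, a1, a2⟩ := g1 y hy
    exact ⟨T.sub _ (hf.mapsTo (hK a1)) (mem_closedBall.2 (by linarith [(h0 v a1).1])),
      by linarith [(h0 v a1).1, t1 y, T.lip (f v) y, dist_comm y (f v)]⟩
  have g4 : ∀ y ∈ gim γ, y ∈ Λ ∧ 200 * β ≤ δ' y := fun y hy => by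
    obtain ⟨u, a1, a2⟩ := g2 y hy
    exact ⟨(hY u a1).2.1 (mem_closedBall.2 (by linarith)), by linarith [t2 a1 y]⟩
  obtain ⟨g, O, o1, o2, o3, o4⟩ := H γ' γ η D T' 𝓜.cvx' 𝓜.carrier' hfin hβ' hβ hη
    (fun i x hx y hy => let ⟨l, _, a⟩ := 𝓜.refine i; osc l x (a hx) y (a hy)) g3 g4
    fun y hy y' hy' => by
      obtain ⟨v, a1, a2⟩ := g1 y hy
      obtain ⟨u, a3, a4⟩ := g2 y' hy'
      linarith [(h0 v a1).1, (h0 v a1).2 u (hY u a3).1, hδ (f v), t4 y (g3 y hy).1,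
        t4 y' (g4 y' hy').1, dist_triangle4 (f v) y y' (f u), dist_comm y (f v)]
  refine ⟨g, O, o1, o2, o3, fun i x hx y hy => ?_⟩
  have a0 := hf.mapsTo (hcell i hy)
  have a1 : dist (g.toFun x) (f y) ≤ 6 * δ' (f y) := by
    linarith [o4 x (hcell i hx), osc i y hy x hx, T'.lip (f x) (f y), T'.pos _ a0,
      dist_triangle (g.toFun x) (f x) (f y)]
  rcases t3 _ a0 with a | ⟨a, _, ⟨u, a2, rfl⟩, a3⟩
  · exact Or.inl (a ▸ a1)
  · exact Or.inr ⟨(hY u a2).2.2 y (hcell i hy) (by linarith), by linarith⟩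

end M2

end P073
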