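import Vale.Agent.P073Y.Rf.Topo1
import Vale.Agent.P073Z.ACC.Gauge

/-!
# The first PL homeomorphism from a gauge in the target
-/

open Set Metric Topology Filter MeasureTheory
open scoped ENNReal NNReal

namespace P073

namespace M2

open Inf (gim)

/-- a gauge in the target -/
structure Tg (Λ : Set E3) (δ : E3 → ℝ) : Prop where
  pos : ∀ y ∈ Λ, 0 < δ y
  lip : ∀ y y', δ y ≤ δ y' + dist y y' / 10
  sub : ∀ y ∈ Λ, closedBall y (5 * δ y) ⊆ Λ

variable {Ω Λ : Set E3} {f f' : E3 → E3} {δ : E3 → ℝ}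

/-- the standing assumptions -/
structure Std (Ω Λ : Set E3) (f f' : E3 → E3) : Prop where
  oΩ : IsOpen Ω
  oΛ : IsOpen Λ
  cΩ : IsConnected Ω
  cΛ : IsPreconnected Λ
  bΛ : Bornology.IsBounded Λ
  homeo : HomeoOn f f' Ω Λ
  gen : GenBV f Ω

theorem near_gim {Q : RCx E3} {κ₀ : ℝ → ℝ} {β : ℝ} {γ : Good Q f κ₀ β} (hβ : 0 < β)
    (h : ∀ y ∈ gim γ, y ∈ Λ ∧ 200 * β ≤ δ y) {z : E3} (hz : z ∈ Inf.zn γ) :
    ∃ y ∈ gim γ, dist z y < δ y :=
  let ⟨y, h1, h2⟩ := mem_thickening_iff.1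
    (cthickening_subset_thickening' (show 0 < 200 * β by positivity) (by linarith) _ hz)
  ⟨y, h1, h2.trans_le (h y h1).2⟩

/-- **countably many zones** -/
theorem tgt : ∃ K₂ : ℝ≥0, ∀ {Ω Λ : Set E3} {f f' : E3 → E3} {δ : E3 → ℝ} {Q : RCx E3} {β : ℕ → ℝ}
    (γ : ∀ n, Good Q f STR.kap (β n)) (η : Q.ι → ℝ≥0∞), Std Ω Λ f f' → Tg Λ δ → Q.Cvx →
    Q.carrier = Ω → (∀ e x y, Q.dim e = 1 → Q.cell e = segment ℝ x y → segVar f x y < ⊤) →
    (∀ n, 0 < β n) → (∀ i, 0 < η i) →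
    (∀ i, ∀ x ∈ Q.cell i, ∀ y ∈ Q.cell i, dist (f y) (f x) < δ (f x)) →
    (∀ n, ∀ y ∈ gim (γ n), y ∈ Λ ∧ 200 * β n ≤ δ y) →
    (∀ n m, n ≠ m → ∀ y ∈ gim (γ n), ∀ y' ∈ gim (γ m), 7 * (δ y + δ y') ≤ dist y y') →
    ∃ (g : ConHomeo Ω Λ) (O : Q.ι → Set E3), Rf.Out Q f O K₂ η g ∧
      (∀ n, ∀ i ∈ (γ n).G, EqOn g.toFun ((γ n).A i) (Q.cell i)) ∧
      ∀ x ∈ Ω, dist (g.toFun x) (f x) ≤ 4 * δ (f x) := by
  obtain ⟨K₂, H⟩ := Rf.topoI
  refine ⟨K₂, ?_⟩
  intro Ω Λ f f' δ K β γ η D T hK hc hV hβ hη hs hb hd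
  have hf := D.homeo
  choose x hx using K.cell_nonempty
  have hcell : ∀ i, K.cell i ⊆ Ω := fun i => hc ▸ K.cell_subset_carrier i
  have hxΛ : ∀ i, f (x i) ∈ Λ := fun i => hf.mapsTo (hcell i (hx i))
  have hnear : ∀ i, ∀ y ∈ K.cell i, dist (f y) (f (x i)) < δ (f (x i)) := fun i => hs i _ (hx i)
  have hO : ∀ n l, (ball (f (x l)) (2 * δ (f (x l))) ∩ Inf.zn (γ n)).Nonempty → ∃ y ∈ gim (γ n),
      ∀ u ∈ ball (f (x l)) (2 * δ (f (x l))), dist u y < 7 * δ y := by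
    rintro n l ⟨z, h1, h2⟩
    obtain ⟨y, h3, h4⟩ := near_gim (hβ n) (hb n) h2
    refine ⟨y, h3, fun u hu => ?_⟩
    rw [mem_ball] at h1 hu
    linarith [T.lip (f (x l)) y, dist_triangle_left (f (x l)) y z, dist_triangle u (f (x l)) y,
      T.pos y (hb n y h3).1]
  obtain ⟨g, g1, g2⟩ := H (O := fun i => ball (f (x i)) (2 * δ (f (x i))))
    (ϱ := fun i => δ (f (x i))) (γ := γ) η ⟨D.oΩ, D.oΛ, D.cΩ, D.bΛ, hf, D.gen, hK, hc, hV, hβ,
      fun i => (ball_subset_closedBall.trans (closedBall_subset_closedBall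
        (by linarith [T.pos _ (hxΛ i)]))).trans (T.sub _ (hxΛ i)), fun i => T.pos _ (hxΛ i),
      fun i z hz => by
        obtain ⟨_, ⟨y, hy, rfl⟩, hzy⟩ := mem_thickening_iff.1 hz
        rw [mem_ball]
        linarith [hnear i y hy, dist_triangle z (f y) (f (x i))],
      fun n i => by
        rintro ⟨_, hz, y, hy, rfl⟩
        obtain ⟨y₀, hy₀, hzy⟩ := mem_thickening_iff.1 hz
        linarith [T.lip y₀ (f y), T.lip (f y) (f (x i)), hnear i y hy, (hb n y₀ hy₀).2,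
          dist_comm y₀ (f y), hβ n],
      fun y hy => by
        have hC' : IsCompact (f' '' closedBall y (5 * δ y)) :=
          (isCompact_closedBall _ _).image_of_continuousOn (hf.cont_inv.mono (T.sub y hy))
        refine ⟨ball y (δ y), ball_mem_nhds _ (T.pos y hy),
          (K.finite_meet hC' (hc ▸ ?_)).subset ?_⟩
        · rintro _ ⟨z, hz, rfl⟩
          exact hf.mapsTo_inv (T.sub y hy hz)
        · rintro i ⟨z, hz, hz'⟩
          refine ⟨x i, hx i, f (x i), ?_, hf.left_inv (hcell i (hx i))⟩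
          rw [mem_ball] at hz hz'
          rw [mem_closedBall]
          linarith [T.lip (f (x i)) y, dist_triangle_left (f (x i)) y z, T.pos y hy],
      fun n z hz => by
        obtain ⟨y, h1, h2⟩ := near_gim (hβ n) (hb n) hz
        exact T.sub y (hb n y h1).1 (mem_closedBall.2 (by linarith [T.pos y (hb n y h1).1])),
      fun u hu => by
        refine ⟨ball u (δ u), ball_mem_nhds _ (T.pos u hu), Subsingleton.finite ?_⟩
        have key : ∀ n, (Inf.zn (γ n) ∩ ball u (δ u)).Nonempty →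
            ∃ y ∈ gim (γ n), dist u y < 7 * δ y := by
          rintro n ⟨z, h1, h2⟩
          obtain ⟨y, h3, h4⟩ := near_gim (hβ n) (hb n) h1
          rw [mem_ball] at h2
          exact ⟨y, h3, by
            linarith [T.lip u y, dist_triangle_left u y z, T.pos y (hb n y h3).1]⟩
        intro n hn m hm
        by_contra hne
        obtain ⟨y, a1, a2⟩ := key n hn
        obtain ⟨y', b1, b2⟩ := key m hm
        linarith [hd n m hne y a1 y' b1, dist_triangle_left y y' u],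
      fun n m hne l l' h1 h2 => Set.disjoint_left.2 fun u a b => by
        obtain ⟨y, a1, a2⟩ := hO n l h1
        obtain ⟨y', b1, b2⟩ := hO m l' h2
        linarith [hd n m hne y a1 y' b1, dist_triangle_left y y' u, a2 u a, b2 u b]⟩
    D.cΛ (fun i _ => convex_ball _ _) hη
  refine ⟨g, _, g1, g2, fun y hy => ?_⟩
  obtain ⟨i, hi⟩ := K.mem_carrier.1 (hc.symm ▸ hy)
  have h1 := mem_ball.1 (g1.img i i Subset.rfl ⟨y, hi, rfl⟩)
  linarith [hnear i y hi, T.lip (f (x i)) (f y), dist_triangle_right (g.toFun y) (f y) (f (x i)),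
    dist_comm (f y) (f (x i)), T.pos _ (hf.mapsTo hy)]

/-- no good cells -/
def none (Q : RCx E3) (f : E3 → E3) (κ₀ : ℝ → ℝ) (β : ℝ) : Good Q f κ₀ β where
  G := ∅
  A := fun _ => 0
  s := fun _ => 0
  M := fun _ => 0
  face := fun _ h => absurd h (Finset.notMem_empty _)
  simplex := fun _ h => absurd h (Finset.notMem_empty _)
  vert := fun _ h => absurd h (Finset.notMem_empty _)
  inj := fun _ h => absurd h (Finset.notMem_empty _)
  inter := fun _ h => absurd h (Finset.notMem_empty _)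
  pos := fun _ h => absurd h (Finset.notMem_empty _)
  sep := fun _ h => absurd h (Finset.notMem_empty _)
  deg := fun _ h => absurd h (Finset.notMem_empty _)
  wire := fun _ h => absurd h (Finset.notMem_empty _)
  far := fun _ h => absurd h (Finset.notMem_empty _)
  ang := fun _ h => absurd h (Finset.notMem_empty _)

theorem gim_none (Q : RCx E3) (f : E3 → E3) (κ₀ : ℝ → ℝ) (β : ℝ) : gim (none Q f κ₀ β) = ∅ := by
  simp [gim, none]

/-- **two zones** -/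
theorem tgt2 : ∃ K₂ : ℝ≥0, ∀ {Ω Λ : Set E3} {f f' : E3 → E3} {δ : E3 → ℝ} {Q : RCx E3}
    {β₁ β₂ : ℝ} (γ₁ : Good Q f STR.kap β₁) (γ₂ : Good Q f STR.kap β₂) (η : Q.ι → ℝ≥0∞),
    Std Ω Λ f f' → Tg Λ δ → Q.Cvx → Q.carrier = Ω →
    (∀ e x y, Q.dim e = 1 → Q.cell e = segment ℝ x y → segVar f x y < ⊤) →
    0 < β₁ → 0 < β₂ → (∀ i, 0 < η i) →
    (∀ i, ∀ x ∈ Q.cell i, ∀ y ∈ Q.cell i, dist (f y) (f x) < δ (f x)) →
    (∀ y ∈ gim γ₁, y ∈ Λ ∧ 200 * β₁ ≤ δ y) → (∀ y ∈ gim γ₂, y ∈ Λ ∧ 200 * β₂ ≤ δ y) →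
    (∀ y ∈ gim γ₁, ∀ y' ∈ gim γ₂, 7 * (δ y + δ y') ≤ dist y y') →
    ∃ (g : ConHomeo Ω Λ) (O : Q.ι → Set E3), Rf.Out Q f O K₂ η g ∧
      (∀ i ∈ γ₁.G, EqOn g.toFun (γ₁.A i) (Q.cell i)) ∧
      (∀ i ∈ γ₂.G, EqOn g.toFun (γ₂.A i) (Q.cell i)) ∧
      ∀ x ∈ Ω, dist (g.toFun x) (f x) ≤ 4 * δ (f x) := by
  obtain ⟨K₂, H⟩ := tgt
  refine ⟨K₂, ?_⟩
  intro Ω Λ f f' δ Q β₁ β₂ γ₁ γ₂ η D T hK hc hV h1 h2 hη hs b1 b2 hd
  let β : ℕ → ℝ := fun n => match n with | 0 => β₁ | 1 => β₂ | _ + 2 => 1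
  let γ : ∀ n, Good Q f STR.kap (β n) := fun n =>
    match n with | 0 => γ₁ | 1 => γ₂ | _ + 2 => none Q f _ 1
  have e : ∀ n y, y ∉ gim (γ (n + 2)) := fun n y hy => (gim_none Q f _ 1).subset hy
  obtain ⟨g, O, g1, g2, g3⟩ := H γ η D T hK hc hV
    (fun n => match n with | 0 => h1 | 1 => h2 | _ + 2 => one_pos) hη hs
    (fun n => match n with | 0 => b1 | 1 => b2 | n + 2 => fun y hy => absurd hy (e n y))
    fun n m hne y hy y' hy' => match n, m with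
      | 0, 0 => absurd rfl hne
      | 1, 1 => absurd rfl hne
      | 0, 1 => hd y hy y' hy'
      | 1, 0 => by linarith [hd y' hy' y hy, dist_comm y y']
      | n + 2, _ => absurd hy (e n y)
      | _, m + 2 => absurd hy' (e m y')
  exact ⟨g, O, g1, g2 0, g2 1, g3⟩

/-- a bump along the set `Y` -/
theorem Tg.bump (T : Tg Λ δ) {Y : Set E3} {c : ℝ} (hY : ∀ y ∈ Y, closedBall y (15 * c) ⊆ Λ) :
    ∃ δ', Tg Λ δ' ∧ (∀ z, δ z ≤ δ' z) ∧ (∀ y ∈ Y, ∀ z, c - dist z y / 10 ≤ δ' z) ∧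
      ∀ z ∈ Λ, δ' z = δ z ∨ (δ' z ≤ c ∧ ∃ y ∈ Y, dist z y < 10 * c) := by
  rcases Y.eq_empty_or_nonempty with rfl | hne
  · exact ⟨δ, T, fun _ => le_rfl, fun _ h => h.elim, fun _ _ => Or.inl rfl⟩
  have h1 : ∀ z ∈ Λ, max (δ z) (c - infDist z Y / 10) = δ z ∨
      (max (δ z) (c - infDist z Y / 10) ≤ c ∧ ∃ y ∈ Y, dist z y < 10 * c) := fun z hz => by
    rcases le_total (c - infDist z Y / 10) (δ z) with h | h
    · exact Or.inl (max_eq_left h)
    · rw [max_eq_right h]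
      exact Or.inr ⟨by linarith [infDist_nonneg (x := z) (s := Y)],
        (infDist_lt_iff hne).1 (by linarith [T.pos z hz])⟩
  refine ⟨fun z => max (δ z) (c - infDist z Y / 10), ⟨fun y hy => (T.pos y hy).trans_le
    (le_max_left _ _), fun y y' => max_le ?_ ?_, fun z hz => ?_⟩, fun _ => le_max_left _ _,
    fun y hy z => le_trans (by linarith [infDist_le_dist_of_mem (x := z) hy]) (le_max_right _ _),
    h1⟩
  · linarith [T.lip y y', le_max_left (δ y') (c - infDist y' Y / 10)]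
  · linarith [infDist_le_infDist_add_dist (x := y') (y := y) (s := Y), dist_comm y y',
      le_max_right (δ y') (c - infDist y' Y / 10)]
  · rcases h1 z hz with h | ⟨h, y, a, b⟩
    · exact h.symm ▸ T.sub z hz
    · exact (closedBall_subset_closedBall' (by linarith)).trans (hY y a)

end M2

end P073
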