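import Vale.Agent.P073Y.Ms.All
import Vale.Agent.P073Y.Ms.Src

/-!
# Two meshes with different sizes and cores
-/

open Set Metric Topology Filter MeasureTheory
open scoped ENNReal NNReal

namespace P073

namespace M2

open Me G2

variable {Ω : Set E3} {P : Par} {σ σ' : E3 → ℝ} {𝓒 𝓒' : Set (ℕ × (Fin 3 → ℤ))} {M₀ : ℝ≥0}
  {Mt : Ty → ℕ → ℝ≥0} {S₀ : Set E3} {S : Ty → ℕ → Set E3}

/-- the two sizes agree near `x`, or `x` is close to a type -/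
def Loc (P : Par) (σ σ' : E3 → ℝ) (x : E3) : Prop :=
  (∀ y ∈ closedBall x (3 * σ x), σ y = σ' y) ∨ ∃ j, x ∈ P.U j

/-- the core cubes of the first family which contain `x` belong to the second family -/
def Sub (P : Par) (𝓒 𝓒' : Set (ℕ × (Fin 3 → ℤ))) (x : E3) : Prop :=
  ∀ q ∈ 𝓒, dy P q.1 x ∈ ucube q.2 → q ∈ 𝓒'

/-- the same constants -/
structure Same (𝓜 : Mesh2 Ω P σ 𝓒 M₀ Mt S₀ S) (𝓜' : Mesh2 Ω P σ' 𝓒' M₀ Mt S₀ S) (i : 𝓜.Q.ι)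
    (i' : 𝓜'.Q.ι) : Prop where
  far : 𝓜'.far i' ↔ 𝓜.far i
  kf : 𝓜'.kf i' = 𝓜.kf i
  MI : 𝓜'.MI i' = 𝓜.MI i
  nm : 𝓜'.nm i' = 𝓜.nm i
  M : 𝓜'.M i' = 𝓜.M i

/-- the same cell -/
def Eqc (Q Q' : RCx E3) (i : Q.ι) (i' : Q'.ι) : Prop :=
  Q'.cell i' = Q.cell i ∧ Q'.bd i' = Q.bd i ∧ Q'.ocell i' = Q.ocell i ∧ Q'.dim i' = Q.dim i

/-- the first cell lies in the second one -/
def Inc (Q Q' : RCx E3) (i : Q.ι) (i' : Q'.ι) : Prop :=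
  Q.cell i ⊆ Q'.cell i' ∧ Q.ocell i ⊆ Q'.ocell i' ∧ Q.dim i ≤ Q'.dim i'

/-- the comparison of two complexes -/
structure Cmp0 (P : Par) (σ σ' : E3 → ℝ) (𝓒 𝓒' : Set (ℕ × (Fin 3 → ℤ))) (Q Q' : RCx E3) :
    Prop where
  inc : ∀ i i', ∀ x ∈ Q.ocell i ∩ Q'.ocell i', Loc P σ σ' x → Sub P 𝓒' 𝓒 x → Inc Q Q' i i'
  eqc : ∀ i i', ∀ x ∈ Q.ocell i ∩ Q'.ocell i', Loc P σ σ' x → Sub P 𝓒' 𝓒 x → Sub P 𝓒 𝓒' x →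
    Eqc Q Q' i i'
  wire : ∀ i i', ∀ x ∈ Q.ocell i ∩ Q'.ocell i', Loc P σ σ' x → Sub P 𝓒' 𝓒 x → Q'.dim i' ≤ 1 →
    Eqc Q Q' i i'

/-- the comparison of two meshes -/
structure Cmp (𝓜 : Mesh2 Ω P σ 𝓒 M₀ Mt S₀ S) (𝓜' : Mesh2 Ω P σ' 𝓒' M₀ Mt S₀ S) : Prop where
  coarse : Cmp0 P σ σ' 𝓒 𝓒' 𝓜.Q 𝓜'.Q
  fine : Cmp0 P σ σ' 𝓒 𝓒' 𝓜.Q' 𝓜'.Q'
  same : ∀ i i', ∀ x ∈ 𝓜.Q.ocell i ∩ 𝓜'.Q.ocell i', Loc P σ σ' x → Sub P 𝓒' 𝓒 x → Same 𝓜 𝓜' i i'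

/-- meshes which depend locally on the data -/
def MESH3 : Prop := ∃ (M₀ : ℝ≥0) (Mt : Ty → ℕ → ℝ≥0) (S₀ : Set E3) (S : Ty → ℕ → Set E3),
  1 ≤ M₀ ∧ (MeasurableSet S₀ ∧ ∀ y, μH[1] (S₀ ∩ closedBall y 1) ≤ M₀) ∧
  (∀ T m, M₀ ≤ Mt T m ∧ MeasurableSet (S T m) ∧ ∀ y, μH[1] (S T m ∩ closedBall y 1) ≤ Mt T m) ∧
  ∀ (Ω : Set E3) (P : Par), ∃ mk : ∀ σ 𝓒, Ok2 Ω P σ 𝓒 → Mesh2 Ω P σ 𝓒 M₀ Mt S₀ S,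
    ∀ σ 𝓒 h σ' 𝓒' h', Cmp (mk σ 𝓒 h) (mk σ' 𝓒' h')

theorem eqc_of {Q Q' : RCx E3} (h : Q.Cvx) (h' : Q'.Cvx) {i : Q.ι} {i' : Q'.ι}
    (e : Q'.cell i' = Q.cell i) : Eqc Q Q' i i' := by
  have h1 : Q'.bd i' = Q.bd i := by rw [(h i).2.1, (h' i').2.1, e]
  exact ⟨e, h1, by rw [RCx.ocell, RCx.ocell, e, h1], by rw [(h i).2.2, (h' i').2.2, e]⟩

theorem kcell_eq {ξ : E3} (h : Module.finrank ℝ (vectorSpan ℝ (hull ξ)) ≤ 1) :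
    kcell ξ = hull ξ := by
  refine Subset.antisymm (fun ζ hζ => mem_hull.2 hζ.1) fun ζ hζ => ⟨mem_hull.1 hζ, fun i l k => ?_⟩
  obtain ⟨z, J, e⟩ := (isBox_hull ξ).eq_uface
  have h1 := Cell.finrank_uface z J
  rw [← e] at h1
  have h2 := (e.subset (mem_hull.2 fun _ _ => ⟨id, id⟩ : ξ ∈ hull ξ)).2
  have h3 := (e.subset hζ).2
  by_cases hl : l ∈ J
  · have h4 := mem_hull.1 hζ i (k + z l)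
    push_cast at h4
    rw [h2 l hl, h3 l hl]
    exact ⟨fun a => by linarith [h4.1 (by linarith)], fun a => by linarith [h4.2 (by linarith)]⟩
  by_cases hi : i ∈ J
  · have h4 := mem_hull.1 hζ l (z i - k)
    push_cast at h4
    rw [h2 i hi, h3 i hi]
    exact ⟨fun a => by linarith [h4.2 (by linarith)], fun a => by linarith [h4.1 (by linarith)]⟩
  have h4 : i = l := by
    by_contra hne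
    have h5 := Finset.card_le_card (show J ⊆ {i, l}ᶜ from fun m hm => by
      simp only [Finset.mem_compl, Finset.mem_insert, Finset.mem_singleton]
      rintro (rfl | rfl)
      exacts [hi hm, hl hm])
    rw [Finset.card_compl, Finset.card_pair hne, Fintype.card_fin] at h5
    omega
  rw [h4, sub_self, sub_self]
  exact ⟨id, id⟩

namespace Ctx

variable {c c' : Ctx Ω P} {n k : ℕ} {x p : E3} {z : Fin 3 → ℤ} {K K' : RCx E3}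

theorem θ_eq (c c' : Ctx Ω P) : c.θ = c'.θ := funext fun a => ContinuousAffineEquiv.ext fun x => by
  rcases a with k | j
  · rw [c.hδ, c'.hδ]
  · rw [c.hν, c'.hν]

theorem loc_symm (hx : x ∈ Ω) (h : Loc P c.σ c'.σ x) : Loc P c'.σ c.σ x :=
  h.imp_left fun h y hy => (h y (by
    rwa [h x (mem_closedBall_self (by linarith [(c.ok2.pos x hx).1]))])).symm

theorem cube_of (h : (∀ y ∈ closedBall p (10 / 9 * c.σ p), c.σ y = c'.σ y) ∨ ∃ j, Nr P j 100 p)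
    (hz : c.cube k z) (hp : dy P k p ∈ ucube z) : c'.cube k z := by
  have h1 : c.Cb k p := ⟨z, hz, hp⟩
  refine ⟨?_, hz.2⟩
  rcases h with h | ⟨j, h⟩
  · obtain ⟨y, h2, h3⟩ := hz.1
    have h4 := h y ((dist_cube h3 hp).trans (by linarith [h1.facts.2.1]))
    exact ⟨y, ⟨h2.1, h4 ▸ h2.2⟩, h3⟩
  · obtain rfl := h1.eq_of_nr h
    have h2 := c'.pin_nr h
    have h6 : (0:ℝ) < 2⁻¹ ^ P.k₀ := by positivity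
    exact ⟨p, ⟨h1.facts.1, by linarith [h2.1], by linarith [h2.2]⟩, hp⟩

theorem cube_adj (h : Loc P c.σ c'.σ x) (ha : c.Adj x p) (hz : c.cube k z)
    (hp : dy P k p ∈ ucube z) : c'.cube k z := by
  refine cube_of ?_ hz hp
  rcases h with h | ⟨j, h⟩
  · rcases ha with ⟨l, h1, -, h2⟩ | ⟨j, -, h1, -⟩
    · refine Or.inl fun y hy => h y ?_
      have h3 := h1.facts.2.1
      have h4 := (abs_le.1 (c.lip p x)).2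
      have h5 : (0:ℝ) < 2⁻¹ ^ l := by positivity
      rw [mem_closedBall] at hy ⊢
      linarith [dist_triangle y p x]
    · exact Or.inr ⟨j, (h1.nr c.ok).mono (by norm_num)⟩
  · exact Or.inr ⟨j, ha.nr (mem_U.1 h) (by norm_num) (by norm_num)⟩

theorem okm_adj {m : Mem P} (h : Loc P c.σ c'.σ x) (ha : c.Adj x p) (hm : c.okm m)
    (hp : p ∈ c.C m) : c'.okm m :=
  hm.imp_left fun ⟨k, a, b, d⟩ => ⟨k, a, b, cube_adj h ha d (mem_cube a hp)⟩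

theorem Ψ_sub (h : Loc P c.σ c'.σ x) (hs : Sub P c.𝓒 c'.𝓒 x) : c.Ψ n x ⊆ c'.Ψ n x := by
  have e : ∀ m, c.C m = c'.C m := fun m => by rw [C, C, θ_eq c c']
  rintro ℓ ⟨m, h1, h2, h3⟩
  refine ⟨m, okm_adj h (adj h1 h2 h2) h1 h2, e m ▸ h2, ?_⟩
  rcases h3 with ⟨m', h4, ⟨p, h5, h6⟩, h7⟩ | ⟨N, h4, h5⟩
  · refine Or.inl ⟨m', okm_adj h (adj h1 h2 h5) h4 h6, ⟨p, e m ▸ h5, e m' ▸ h6⟩, ?_⟩
    rwa [G, θ_eq c c'] at h7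
  · refine Or.inr ⟨N, h4.imp_left fun ⟨k, a, b, d⟩ => ⟨k, a, hs _ b (mem_cube a h2), d⟩, ?_⟩
    rwa [θ_eq c c'] at h5

theorem cb_iff (hx : x ∈ Ω) (h : Loc P c.σ c'.σ x) : c.Cb k x ↔ c'.Cb k x :=
  ⟨fun ⟨z, a, b⟩ => ⟨z, cube_adj h (Or.inl ⟨k, ⟨z, a, b⟩, ⟨z, a, b⟩, by simp⟩) a b, b⟩,
    fun ⟨z, a, b⟩ => ⟨z, cube_adj (loc_symm hx h)
      (Or.inl ⟨k, ⟨z, a, b⟩, ⟨z, a, b⟩, by simp⟩) a b, b⟩⟩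

theorem unif_core {q : ℕ × (Fin 3 → ℤ)} (hq : q ∈ c.𝓒) (hx : dy P q.1 x ∈ ucube q.2)
    (h : Loc P c.σ c'.σ x) :
    (∀ y ∈ closedBall x ((2:ℝ)⁻¹ ^ q.1), Pin c.σ q.1 y ∧ ∀ j, y ∉ P.U j) ∧
      ∀ y ∈ closedBall x ((2:ℝ)⁻¹ ^ q.1), Pin c'.σ q.1 y ∧ ∀ j, y ∉ P.U j := by
  have h2 : ∀ y ∈ closedBall x ((2:ℝ)⁻¹ ^ q.1), Pin c.σ q.1 y ∧ ∀ j, y ∉ P.U j :=
    fun y hy => (c.ok2.cpin q hq y (cth_ball (self_subset_cthickening _ hx) hy)).2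
  have h0 : (0:ℝ) < 2⁻¹ ^ q.1 := by positivity
  obtain ⟨a1, a2⟩ := h2 x (mem_closedBall_self h0.le)
  refine ⟨h2, fun y hy => ⟨?_, (h2 y hy).2⟩⟩
  have h3 := h.resolve_right (fun ⟨j, hj⟩ => a2 j hj) y
    (closedBall_subset_closedBall (by linarith [a1.1]) hy)
  have h4 := (h2 y hy).1
  rwa [Pin, h3] at h4

theorem cmp0 (h : c.Cx n K) (h' : c'.Cx n K') : Cmp0 P c.σ c'.σ c.𝓒 c'.𝓒 K K' := by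
  have a1 : ∀ i i', ∀ x ∈ K.ocell i ∩ K'.ocell i', Loc P c.σ c'.σ x → Sub P c'.𝓒 c.𝓒 x →
      Inc K K' i i' := fun i i' x hx hl hs => by
    have h1 := Ψ_sub (n := n) (loc_symm (h.mem hx.1.1) hl) hs
    have h2 : K.cell i ⊆ K'.cell i' := by
      rw [h.sc.cc i x hx.1, h'.sc.cc i' x hx.2]
      exact fun y hy ℓ hl => hy ℓ (h1 hl)
    refine ⟨h2, ?_, ?_⟩
    · rw [h.sc.oc i x hx.1, h'.sc.oc i' x hx.2]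
      exact fun y hy ℓ hl => hy ℓ (h1 hl)
    · rw [(h.sc.cvx i).2.2, (h'.sc.cvx i').2.2]
      exact Submodule.finrank_mono (vectorSpan_mono ℝ h2)
  have a2 : ∀ i i', ∀ x ∈ K.ocell i ∩ K'.ocell i', Loc P c.σ c'.σ x → Sub P c'.𝓒 c.𝓒 x →
      Sub P c.𝓒 c'.𝓒 x → Eqc K K' i i' := fun i i' x hx hl hs hs' =>
    eqc_of h.sc.cvx h'.sc.cvx (by
      rw [h.sc.cc i x hx.1, h'.sc.cc i' x hx.2,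
        (Ψ_sub hl hs').antisymm (Ψ_sub (loc_symm (h.mem hx.1.1) hl) hs)])
  refine ⟨a1, a2, fun i i' x hx hl hs hd => ?_⟩
  by_cases hc : x ∈ Core P c.𝓒
  · obtain ⟨q, b1, b2⟩ := id hc
    obtain ⟨b3, b4⟩ := unif_core b1 b2 hl
    refine eqc_of h.sc.cvx h'.sc.cvx ?_
    rw [(h.unif hx.1 b3).1 hc]
    by_cases hc' : x ∈ Core P c'.𝓒
    · exact (h'.unif hx.2 b4).1 hc'
    · have b5 := (h'.unif hx.2 b4).2 hc'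
      rw [(h'.sc.cvx i').2.2, b5, ← funext (c.hδ q.1), Cell.finrank_preimage, c.hδ] at hd
      rw [b5, kcell_eq hd]
  · exact a2 i i' x hx hl hs fun q b1 b2 => absurd ⟨q, b1, b2⟩ hc

end Ctx

theorem same_of (ok : P.Ok Ω) {𝓜 : Mesh2 Ω P σ 𝓒 M₀ Mt S₀ S} {𝓜' : Mesh2 Ω P σ' 𝓒' M₀ Mt S₀ S}
    {i : 𝓜.Q.ι} {i' : 𝓜'.Q.ι} (h : 𝓜.Q.cell i ⊆ 𝓜'.Q.cell i')
    (h1 : 𝓜'.far i' ↔ 𝓜.far i) (h2 : 𝓜'.kf i' = 𝓜.kf i)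
    (h3 : ¬ 𝓜.far i → 𝓜'.Q.cell i' ⊆ 𝓜.Q.cell i) : Same 𝓜 𝓜' i i' := by
  have h4 : 𝓜'.MI i' = 𝓜.MI i := by
    by_cases hf : 𝓜.far i
    · rw [𝓜.MI_far i hf, 𝓜'.MI_far i' (h1.2 hf)]
    · obtain ⟨j, hj⟩ := 𝓜.near i hf
      rw [𝓜.MI_near i j hf hj, 𝓜'.MI_near i' j (mt h1.1 hf) ((h3 hf).trans hj)]
  by_cases hb : ∃ j, 𝓜.Q.cell i ⊆ P.BufSet j
  · obtain ⟨j, hj⟩ := hb
    obtain ⟨x, hx⟩ := 𝓜.Q.cell_nonempty i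
    have h5 := 𝓜.nm_buf i j hj
    have h6 := 𝓜'.nm_buf i' j ((h3 (𝓜.not_far hx ok (hj hx))).trans hj)
    exact ⟨h1, h2, h4, h6.1.trans (Eq.trans (ContinuousAffineEquiv.ext fun y =>
      (𝓜'.ν_eq j y).trans (𝓜.ν_eq j y).symm) h5.1.symm), h6.2.trans h5.2.symm⟩
  · have h5 := 𝓜.nm_iso i (not_exists.1 hb)
    have h6 := 𝓜'.nm_iso i' fun j hj => hb ⟨j, h.trans hj⟩
    exact ⟨h1, h2, h4, ContinuousAffineEquiv.ext fun y => by rw [h5.1, h6.1, h2],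
      by rw [h5.2, h6.2, h4]⟩

theorem cmp_of {c c' : Ctx Ω P} {𝓜 : Mesh2 Ω P c.σ c.𝓒 M₀ Mt S₀ S}
    {𝓜' : Mesh2 Ω P c'.σ c'.𝓒 M₀ Mt S₀ S} (h : Canon c 𝓜) (h' : Canon c' 𝓜') : Cmp 𝓜 𝓜' := by
  have a := Ctx.cmp0 h.cx h'.cx
  refine ⟨a, Ctx.cmp0 h.cx' h'.cx', fun i i' x hx hl hs => ?_⟩
  have h1 := (a.inc i i' x hx hl hs).1
  have h2 : (𝓜.far i ∧ 𝓜'.far i') ∨ 𝓜'.Q.cell i' = 𝓜.Q.cell i := by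
    by_cases hc : x ∈ Core P c.𝓒
    · obtain ⟨q, b1, b2⟩ := hc
      have b3 := (Ctx.core_pin (k := q.1) (z := q.2) b1 b2).2.2
      exact Or.inl ⟨𝓜.far_of hx.1.1 b3, 𝓜'.far_of hx.2.1 b3⟩
    · exact Or.inr (a.eqc i i' x hx hl hs fun q b1 b2 => absurd ⟨q, b1, b2⟩ hc).1
  have h3 : 𝓜'.far i' ↔ 𝓜.far i := by
    rcases h2 with h2 | h2
    · exact iff_of_true h2.2 h2.1
    · rw [h.far, h'.far, Fc, Fc, h2]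
  refine same_of c.ok h1 h3 ?_ fun hf => (h2.resolve_left fun b => hf b.1).subset
  by_cases hf : 𝓜.far i
  · refine (h'.least i' (h3.2 hf) x hx.2).unique ?_
    have := h.least i hf x hx.1
    simpa only [Ctx.cb_iff (h.cx.mem hx.1.1) hl] using this
  · obtain ⟨j, hj⟩ := 𝓜.near i hf
    rw [𝓜.kf_near i j ⟨x, hx.1.1, hj hx.1.1⟩, 𝓜'.kf_near i' j ⟨x, hx.2.1, hj hx.1.1⟩]

/-- the data of the construction -/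
noncomputable def ctx (h : Ok2 Ω P σ 𝓒) : Ctx Ω P :=
  ⟨σ, 𝓒, h, Sum.elim (fun k => (exists_dy P k).choose) fun j => (exists_nu h.ok j).choose,
    fun k => (exists_dy P k).choose_spec, fun j => (exists_nu h.ok j).choose_spec⟩

theorem mesh3 : MESH3 := by
  obtain ⟨M₀, Mt, S₀, S, h1, h2, h3, h4⟩ := mesh_all
  refine ⟨M₀, Mt, S₀, S, h1, h2, h3, fun Ω P => ?_⟩
  choose mk hmk using fun σ 𝓒 (h : Ok2 Ω P σ 𝓒) => h4 (ctx h)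
  exact ⟨mk, fun σ 𝓒 h σ' 𝓒' h' => cmp_of (hmk σ 𝓒 h) (hmk σ' 𝓒' h')⟩

/-! ### consequences -/

variable {𝓜 : Mesh2 Ω P σ 𝓒 M₀ Mt S₀ S} {𝓜' : Mesh2 Ω P σ' 𝓒' M₀ Mt S₀ S}

theorem Mesh2.loc {i : 𝓜.Q.ι} {x : E3} (hx : x ∈ 𝓜.Q.cell i)
    (h : ∀ y ∈ closedBall x (7 * (2:ℝ)⁻¹ ^ 𝓜.kf i), σ y = σ' y) : Loc P σ σ' x :=
  Or.inl fun y hy => h y (closedBall_subset_closedBall (by
    have h0 : (0:ℝ) < 2⁻¹ ^ 𝓜.kf i := by positivity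
    linarith [(𝓜.zone i x hx).2]) hy)

/-- a cell away from the changes is a cell of the second mesh -/
theorem Cmp.cell (h : Cmp 𝓜 𝓜') {i : 𝓜.Q.ι} {x : E3} (hx : x ∈ 𝓜.Q.ocell i) (hl : Loc P σ σ' x)
    (hs : Sub P 𝓒' 𝓒 x) (hs' : Sub P 𝓒 𝓒' x) : ∃ i', Eqc 𝓜.Q 𝓜'.Q i i' ∧ Same 𝓜 𝓜' i i' :=
  let ⟨i', hi⟩ := 𝓜'.Q.exists_ocell
    (𝓜'.carrier.symm ▸ 𝓜.carrier ▸ 𝓜.Q.cell_subset_carrier i hx.1)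
  ⟨i', h.coarse.eqc i i' x ⟨hx, hi⟩ hl hs hs', h.same i i' x ⟨hx, hi⟩ hl hs⟩

theorem Cmp.cell' (h : Cmp 𝓜 𝓜') {i : 𝓜.Q'.ι} {x : E3} (hx : x ∈ 𝓜.Q'.ocell i)
    (hl : Loc P σ σ' x) (hs : Sub P 𝓒' 𝓒 x) (hs' : Sub P 𝓒 𝓒' x) : ∃ i', Eqc 𝓜.Q' 𝓜'.Q' i i' :=
  let ⟨i', hi⟩ := 𝓜'.Q'.exists_ocell
    (𝓜'.carrier'.symm ▸ 𝓜.carrier' ▸ 𝓜.Q'.cell_subset_carrier i hx.1)
  ⟨i', h.fine.eqc i i' x ⟨hx, hi⟩ hl hs hs'⟩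

variable {𝓜₁ : Mesh2 Ω P σ 𝓒' M₀ Mt S₀ S}

/-- equal sizes, fewer cores: the first mesh refines the second one -/
theorem Cmp.refine (h : Cmp 𝓜 𝓜₁) (hs : 𝓒' ⊆ 𝓒) (i : 𝓜.Q.ι) :
    ∃ i', Inc 𝓜.Q 𝓜₁.Q i i' ∧ Same 𝓜 𝓜₁ i i' :=
  let ⟨x, hx⟩ := 𝓜.Q.ocell_nonempty i
  let ⟨i', hi⟩ := 𝓜₁.Q.exists_ocell
    (𝓜₁.carrier.symm ▸ 𝓜.carrier ▸ 𝓜.Q.cell_subset_carrier i hx.1)
  ⟨i', h.coarse.inc i i' x ⟨hx, hi⟩ (Or.inl fun _ _ => rfl) fun _ a _ => hs a,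
    h.same i i' x ⟨hx, hi⟩ (Or.inl fun _ _ => rfl) fun _ a _ => hs a⟩

theorem Cmp.refine' (h : Cmp 𝓜 𝓜₁) (hs : 𝓒' ⊆ 𝓒) (i : 𝓜.Q'.ι) : ∃ i', Inc 𝓜.Q' 𝓜₁.Q' i i' :=
  let ⟨x, hx⟩ := 𝓜.Q'.ocell_nonempty i
  let ⟨i', hi⟩ := 𝓜₁.Q'.exists_ocell
    (𝓜₁.carrier'.symm ▸ 𝓜.carrier' ▸ 𝓜.Q'.cell_subset_carrier i hx.1)
  ⟨i', h.fine.inc i i' x ⟨hx, hi⟩ (Or.inl fun _ _ => rfl) fun _ a _ => hs a⟩

/-- equal sizes, fewer cores: wires and vertices are kept -/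
theorem Cmp.wire (h : Cmp 𝓜 𝓜₁) (hs : 𝓒' ⊆ 𝓒) {e : 𝓜₁.Q.ι} (he : 𝓜₁.Q.dim e ≤ 1) :
    ∃ i, Eqc 𝓜.Q 𝓜₁.Q i e ∧ Same 𝓜 𝓜₁ i e :=
  let ⟨x, hx⟩ := 𝓜₁.Q.ocell_nonempty e
  let ⟨i, hi⟩ := 𝓜.Q.exists_ocell
    (𝓜.carrier.symm ▸ 𝓜₁.carrier ▸ 𝓜₁.Q.cell_subset_carrier e hx.1)
  ⟨i, h.coarse.wire i e x ⟨hi, hx⟩ (Or.inl fun _ _ => rfl) (fun _ a _ => hs a) he,
    h.same i e x ⟨hi, hx⟩ (Or.inl fun _ _ => rfl) fun _ a _ => hs a⟩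

theorem Cmp.wire' (h : Cmp 𝓜 𝓜₁) (hs : 𝓒' ⊆ 𝓒) {e : 𝓜₁.Q'.ι} (he : 𝓜₁.Q'.dim e ≤ 1) :
    ∃ i, Eqc 𝓜.Q' 𝓜₁.Q' i e :=
  let ⟨x, hx⟩ := 𝓜₁.Q'.ocell_nonempty e
  let ⟨i, hi⟩ := 𝓜.Q'.exists_ocell
    (𝓜.carrier'.symm ▸ 𝓜₁.carrier' ▸ 𝓜₁.Q'.cell_subset_carrier e hx.1)
  ⟨i, h.fine.wire i e x ⟨hi, hx⟩ (Or.inl fun _ _ => rfl) (fun _ a _ => hs a) he⟩

/-- equal sizes, fewer cores: the cells of the second mesh are subcomplexes of the first one -/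
theorem Cmp.sub (h : Cmp 𝓜 𝓜₁) (hs : 𝓒' ⊆ 𝓒) (i' : 𝓜₁.Q.ι) : 𝓜.Q.Sub (𝓜₁.Q.cell i') := by
  intro x hx
  obtain ⟨i, h1⟩ := 𝓜.Q.exists_ocell
    (𝓜.carrier.symm ▸ 𝓜₁.carrier ▸ 𝓜₁.Q.cell_subset_carrier i' hx)
  obtain ⟨l, h2, -⟩ := h.refine hs i
  exact ⟨i, h1.1, h2.1.trans (𝓜₁.Q.cell_subset_of_mem (h2.2.1 h1) hx)⟩

end M2

end P073
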