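import Vale.Agent.P073Y.Gd.Mean
import Vale.Agent.P073Y.Ms.Size

/-!
# Lines near the planes of a coarse lattice, transition layers
-/

open Set Metric Topology Filter MeasureTheory
open scoped ENNReal NNReal

namespace P073

namespace M2

open Dens Mn G2 Me

/-- the points at distance at most `d` from the planes of the lattice of step `s` -/
def npl (s d : ℝ) : Set E3 := {v | ∃ (i : Fin 3) (a : ℤ), |v i - a * s| ≤ d}

/-- the same without the planes of one direction -/
def npa (s d : ℝ) : Set E3 := {v | ∃ (i : Fin 3) (a : ℤ), v i ≠ a * s ∧ |v i - a * s| ≤ d}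

/-- the points of the planes which are near a plane of another direction -/
def npt (s d : ℝ) : Set E3 := {v | ∃ i l : Fin 3, i ≠ l ∧ ∃ a b : ℤ, v i = a * s ∧ |v l - b * s| ≤ d}

theorem npa_subset (s d : ℝ) : npa s d ⊆ npl s d := fun _ ⟨i, a, _, h⟩ => ⟨i, a, h⟩

theorem mem_npt {s d : ℝ} (hs : 0 < s) {v : E3} (h : v ∈ npl s 0) (h' : v ∈ npa s d) :
    v ∈ npt s d := by
  obtain ⟨i, a, h1⟩ := h
  obtain ⟨l, b, h2, h3⟩ := h'
  have h4 : v i = a * s := sub_eq_zero.1 (abs_nonpos_iff.1 h1)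
  by_cases hl : i = l
  · subst hl
    obtain ⟨m, hm⟩ := exists_ne i
    refine ⟨i, m, hm.symm, a, round (v m / s), h4, le_trans ?_ h3⟩
    have h5 : (1:ℝ) ≤ |(a : ℝ) - b| := by
      have : a ≠ b := fun e => h2 (e ▸ h4)
      exact_mod_cast Int.one_le_abs (sub_ne_zero.2 this)
    have h6 := abs_sub_round (v m / s)
    rw [h4, ← sub_mul, abs_mul, abs_of_pos hs, show v m - (round (v m / s) : ℤ) * s =
      (v m / s - (round (v m / s) : ℤ)) * s by field_simp, abs_mul, abs_of_pos hs]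
    exact mul_le_mul_of_nonneg_right (by linarith) hs.le
  · exact ⟨i, l, hl, a, b, h4, h3⟩

theorem measurableSet_npt (s d : ℝ) : MeasurableSet (npt s d) := by
  have : npt s d = ⋃ (i : Fin 3) (l : Fin 3) (_ : i ≠ l) (a : ℤ) (b : ℤ),
      {v : E3 | v i = a * s} ∩ {v : E3 | |v l - b * s| ≤ d} := by
    ext v
    simp only [npt, mem_ofPred_eq, mem_iUnion, mem_inter_iff, exists_prop]
  rw [this]
  exact MeasurableSet.iUnion fun i => MeasurableSet.iUnion fun l => MeasurableSet.iUnion fun _ =>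
    MeasurableSet.iUnion fun a => MeasurableSet.iUnion fun b =>
      ((isClosed_eq (by fun_prop) continuous_const).inter
        (isClosed_le (by fun_prop) continuous_const)).measurableSet

theorem measurableSet_npl (s d : ℝ) : MeasurableSet (npl s d) := by
  have : npl s d = ⋃ (i : Fin 3) (a : ℤ), {v : E3 | |v i - a * s| ≤ d} := by
    ext v
    simp [npl]
  rw [this]
  exact MeasurableSet.iUnion fun i => MeasurableSet.iUnion fun a =>
    (isClosed_le (by fun_prop) continuous_const).measurableSet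

theorem card_icc {u R c : ℝ} (hc : 0 < c) (hR : 0 ≤ R) :
    ((Finset.Icc ⌈(u - R) / c⌉ ⌊(u + R) / c⌋).card : ℝ) ≤ 2 * R / c + 1 := by
  have h1 : 0 ≤ 2 * R / c := div_nonneg (by linarith) hc.le
  have h2 := Int.le_ceil ((u - R) / c)
  have h3 := Int.floor_le ((u + R) / c)
  have h4 : (u + R) / c - (u - R) / c = 2 * R / c := by ring
  rw [Int.card_Icc, ← Int.cast_natCast, Int.toNat_eq_max, Int.cast_max]
  push_cast
  exact max_le (by linarith) (by linarith)

theorem mem_icc {u R c : ℝ} (hc : 0 < c) {k : ℤ} (h : |c * k - u| ≤ R) :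
    k ∈ Finset.Icc ⌈(u - R) / c⌉ ⌊(u + R) / c⌋ := by
  rw [abs_le] at h
  rw [Finset.mem_Icc, Int.ceil_le, Int.le_floor, div_le_iff₀ hc, le_div_iff₀ hc]
  constructor <;> linarith [h.1, h.2]

/-- the measure of a box from a density at a small scale -/
theorem dens_box {μ : Measure E3} {S : Set E3} {r D : ℝ} (hr : 0 < r)
    (h : ∀ y, μ (S ∩ closedBall y r) ≤ ENNReal.ofReal D) (y R : E3) (hR : ∀ i, 0 ≤ R i) :
    μ (S ∩ {x | ∀ i, |x i - y i| ≤ R i}) ≤ ENNReal.ofReal ((∏ i, (R i / r + 2)) * D) := by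
  classical
  let s : Fin 3 → Finset ℤ := fun i =>
    Finset.Icc ⌈(y i - (R i + r)) / (2 * r)⌉ ⌊(y i + (R i + r)) / (2 * r)⌋
  have h3 : S ∩ {x | ∀ i, |x i - y i| ≤ R i} ⊆
      ⋃ z ∈ Fintype.piFinset s, S ∩ closedBall (fun i => 2 * r * (z i : ℝ)) r := by
    rintro x ⟨hx, hb⟩
    have h4 : ∀ i, |x i - 2 * r * (round (x i / (2 * r)) : ℤ)| ≤ r := fun i => by
      have h5 := abs_sub_round (x i / (2 * r))
      rw [show x i - 2 * r * (round (x i / (2 * r)) : ℤ) =
        2 * r * (x i / (2 * r) - (round (x i / (2 * r)) : ℤ)) by field_simp, abs_mul,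
        abs_of_pos (by positivity)]
      nlinarith
    refine mem_biUnion (x := fun i => round (x i / (2 * r)))
      (Fintype.mem_piFinset.2 fun i => mem_icc (by positivity) ?_)
      ⟨hx, (dist_pi_le_iff hr.le).2 h4⟩
    have h5 := abs_le.1 (h4 i)
    have h6 := abs_le.1 (hb i)
    exact abs_le.2 ⟨by linarith [h5.2, h6.1], by linarith [h5.1, h6.2]⟩
  refine (measure_mono h3).trans ((measure_biUnion_finset_le _ _).trans
    ((Finset.sum_le_card_nsmul _ _ _ fun v _ => h _).trans ?_))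
  have h0 : ∀ i, 0 ≤ R i / r + 2 := fun i => by have := hR i; positivity
  rw [nsmul_eq_mul, ENNReal.ofReal_mul (Finset.prod_nonneg fun i _ => h0 i),
    ← ENNReal.ofReal_natCast]
  refine mul_le_mul_left (ENNReal.ofReal_le_ofReal ?_) _
  rw [Fintype.card_piFinset, Nat.cast_prod]
  refine Finset.prod_le_prod (fun _ _ => Nat.cast_nonneg _) fun i _ =>
    (card_icc (by positivity) (by have := hR i; positivity)).trans (le_of_eq ?_)
  field_simp
  ring

/-- the density near the planes -/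
theorem dens_slab {μ : Measure E3} {S : Set E3} {r s d D : ℝ} (hr : 0 < r) (hs : r ≤ s)
    (hd : 0 ≤ d) (hD : 0 ≤ D) (h : ∀ y, μ (S ∩ closedBall y r) ≤ ENNReal.ofReal D) (y : E3) :
    μ (S ∩ npl s d ∩ closedBall y s) ≤ ENNReal.ofReal (270 * (s / r) ^ 2 * ((d + r) / r) * D) := by
  classical
  have h0 : 0 < s := hr.trans_le hs
  have h1 : 1 ≤ s / r := (one_le_div hr).2 hs
  have h2 : 0 ≤ d / r := by positivity
  have e : (d + r) / r = d / r + 1 := by field_simp
  rcases le_total s d with hsd | hsd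
  · refine (measure_mono (inter_subset_inter_left _ inter_subset_left)).trans
      ((dens_up hr hs h y).trans (ENNReal.ofReal_le_ofReal (mul_le_mul_of_nonneg_right ?_ hD)))
    have h3 : s / r ≤ d / r := div_le_div_of_nonneg_right hsd hr.le
    rw [e]
    nlinarith [mul_le_mul_of_nonneg_left h3 (sq_nonneg (s / r)), sq_nonneg (s / r)]
  have h3 : S ∩ npl s d ∩ closedBall y s ⊆ ⋃ i : Fin 3,
      ⋃ a ∈ Finset.Icc ⌈(y i - 2 * s) / s⌉ ⌊(y i + 2 * s) / s⌋, S ∩ {x | ∀ l,
        |x l - Function.update y i (a * s) l| ≤ Function.update (fun _ => s) i d l} := by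
    rintro x ⟨⟨hx, i, a, ha⟩, hb⟩
    have h4 : ∀ l, |x l - y l| ≤ s := fun l => (dist_le_pi_dist x y l).trans hb
    refine mem_iUnion.2 ⟨i, mem_biUnion (x := a) (mem_icc h0 ?_) ⟨hx, fun l => ?_⟩⟩
    · have h5 := abs_le.1 (h4 i)
      have h6 := abs_le.1 ha
      exact abs_le.2 ⟨by linarith [h5.1, h6.2], by linarith [h5.2, h6.1]⟩
    · by_cases hl : l = i
      · subst hl
        simpa using ha
      · simpa [hl] using h4 l
  have h4 : ∀ (i : Fin 3) (a : ℤ), μ (S ∩ {x | ∀ l,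
      |x l - Function.update y i (a * s) l| ≤ Function.update (fun _ => s) i d l}) ≤
      ENNReal.ofReal (18 * (s / r) ^ 2 * ((d + r) / r) * D) := fun i a => by
    refine (dens_box hr h _ _ fun l => ?_).trans
      (ENNReal.ofReal_le_ofReal (mul_le_mul_of_nonneg_right ?_ hD))
    · by_cases hl : l = i
      · subst hl
        simpa using hd
      · simpa [hl] using h0.le
    · have h5 : ∏ l, (Function.update (fun _ : Fin 3 => s) i d l / r + 2) =
          (d / r + 2) * (s / r + 2) ^ 2 := by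
        rw [Fin.prod_univ_three]
        fin_cases i <;> simp <;> ring
      rw [h5, e]
      have h6 : (s / r + 2) ^ 2 ≤ 9 * (s / r) ^ 2 := by nlinarith
      nlinarith [mul_le_mul (show d / r + 2 ≤ 2 * (d / r + 1) by linarith) h6 (by positivity)
        (by positivity)]
  refine (measure_mono h3).trans ((measure_iUnion_fintype_le _ _).trans
    ((Finset.sum_le_card_nsmul _ _ (ENNReal.ofReal (5 * (18 * (s / r) ^ 2 * ((d + r) / r) * D)))
      fun i _ => (measure_biUnion_finset_le _ _).trans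
        ((Finset.sum_le_card_nsmul _ _ _ fun a _ => h4 i a).trans ?_)).trans ?_))
  · rw [nsmul_eq_mul, ENNReal.ofReal_mul (p := 5) (by norm_num), ← ENNReal.ofReal_natCast]
    refine mul_le_mul_left (ENNReal.ofReal_le_ofReal
      ((card_icc h0 (by positivity)).trans (le_of_eq ?_))) _
    field_simp
    norm_num
  · rw [nsmul_eq_mul, Finset.card_univ, Fintype.card_fin, ← ENNReal.ofReal_natCast,
      ← ENNReal.ofReal_mul (by norm_num)]
    exact ENNReal.ofReal_le_ofReal (le_of_eq (by push_cast; ring))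

/-- the density in the planes near the other planes -/
theorem dens_two {μ : Measure E3} {S : Set E3} {r s d D : ℝ} (hr : 0 < r) (hs : r ≤ s)
    (hd : 0 ≤ d) (hD : 0 ≤ D) (h : ∀ y, μ (S ∩ closedBall y r) ≤ ENNReal.ofReal D) (y : E3) :
    μ (S ∩ npt s d ∩ closedBall y s) ≤ ENNReal.ofReal (2700 * (s / r) * ((d + r) / r) * D) := by
  classical
  have h0 : 0 < s := hr.trans_le hs
  have h1 : 1 ≤ s / r := (one_le_div hr).2 hs
  have h2 : 0 ≤ d / r := by positivity
  have e : (d + r) / r = d / r + 1 := by field_simp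
  rcases le_total s d with hsd | hsd
  · have h3 : S ∩ npt s d ⊆ S ∩ npl s 0 := fun x ⟨a, i, _, _, b, _, c, _⟩ =>
      ⟨a, i, b, by rw [c, sub_self, abs_zero]⟩
    refine (measure_mono (inter_subset_inter_left _ h3)).trans ((dens_slab hr hs le_rfl hD h y).trans
      (ENNReal.ofReal_le_ofReal (mul_le_mul_of_nonneg_right ?_ hD)))
    have h4 : s / r ≤ d / r := div_le_div_of_nonneg_right hsd hr.le
    rw [e, zero_add, div_self hr.ne']
    nlinarith [mul_le_mul_of_nonneg_left h4 (zero_le_one.trans h1)]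
  let I : Fin 3 → Finset ℤ := fun i => Finset.Icc ⌈(y i - 2 * s) / s⌉ ⌊(y i + 2 * s) / s⌋
  let B : Fin 3 × Fin 3 → ℤ × ℤ → Set E3 := fun q a => S ∩ {x | q.1 ≠ q.2} ∩ {x | ∀ m,
    |x m - Function.update (Function.update y q.1 (a.1 * s)) q.2 (a.2 * s) m| ≤
      Function.update (Function.update (fun _ => s) q.1 0) q.2 d m}
  have h3 : S ∩ npt s d ∩ closedBall y s ⊆ ⋃ q : Fin 3 × Fin 3, ⋃ a ∈ I q.1 ×ˢ I q.2, B q a := by
    rintro x ⟨⟨hx, i, l, hne, a, b, ha, hb⟩, hy⟩
    have h4 : ∀ l, |x l - y l| ≤ s := fun l => (dist_le_pi_dist x y l).trans hy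
    refine mem_iUnion.2 ⟨(i, l), mem_biUnion (x := (a, b)) (Finset.mem_product.2
      ⟨mem_icc h0 ?_, mem_icc h0 ?_⟩) ⟨⟨hx, hne⟩, fun m => ?_⟩⟩
    · have h5 := abs_le.1 (h4 i)
      exact abs_le.2 ⟨by linarith [h5.1], by linarith [h5.2]⟩
    · have h5 := abs_le.1 (h4 l)
      have h6 := abs_le.1 hb
      exact abs_le.2 ⟨by linarith [h5.1, h6.2], by linarith [h5.2, h6.1]⟩
    · by_cases hm : m = l
      · subst hm
        simpa using hb
      · by_cases hm' : m = i
        · subst hm'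
          simp [hm, ha]
        · simpa [hm, hm'] using h4 m
  have h4 : ∀ q a, μ (B q a) ≤ ENNReal.ofReal (12 * (s / r) * ((d + r) / r) * D) := by
    rintro ⟨i, l⟩ a
    by_cases hne : i = l
    · simp [B, hne]
    refine (measure_mono (inter_subset_inter_left _ inter_subset_left)).trans
      ((dens_box hr h _ _ fun m => ?_).trans
      (ENNReal.ofReal_le_ofReal (mul_le_mul_of_nonneg_right ?_ hD)))
    · simp only [Function.update_apply]
      split_ifs
      exacts [hd, le_rfl, h0.le]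
    · have h5 : ∏ m, (Function.update (Function.update (fun _ : Fin 3 => s) i 0) l d m / r + 2) =
          2 * (d / r + 2) * (s / r + 2) := by
        rw [Fin.prod_univ_three]
        fin_cases i <;> fin_cases l <;>
          first | exact absurd rfl hne | (simp [-mul_eq_mul_right_iff] <;> ring)
      rw [h5, e]
      nlinarith [mul_le_mul (show d / r + 2 ≤ 2 * (d / r + 1) by linarith)
        (show s / r + 2 ≤ 3 * (s / r) by linarith) (by positivity) (by positivity)]
  have h5 : ∀ i, ((I i).card : ℝ) ≤ 5 := fun i =>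
    (card_icc h0 (by positivity)).trans (le_of_eq (by field_simp; norm_num))
  refine (measure_mono h3).trans ((measure_iUnion_fintype_le _ _).trans
    ((Finset.sum_le_card_nsmul _ _ (ENNReal.ofReal (25 * (12 * (s / r) * ((d + r) / r) * D)))
      fun q _ => (measure_biUnion_finset_le _ _).trans
        ((Finset.sum_le_card_nsmul _ _ _ fun a _ => h4 q a).trans ?_)).trans ?_))
  · rw [nsmul_eq_mul, ENNReal.ofReal_mul (p := 25) (by norm_num), ← ENNReal.ofReal_natCast]
    refine mul_le_mul_left (ENNReal.ofReal_le_ofReal ?_) _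
    rw [Finset.card_product, Nat.cast_mul]
    nlinarith [mul_le_mul (h5 q.1) (h5 q.2) (Nat.cast_nonneg _) (by norm_num)]
  · rw [nsmul_eq_mul, Finset.card_univ, ← ENNReal.ofReal_natCast,
      ← ENNReal.ofReal_mul (Nat.cast_nonneg _)]
    exact ENNReal.ofReal_le_ofReal (le_of_eq (by simp; ring))

theorem dens_lines {S : Set E3} {r : ℝ} {M : ℝ≥0} (hr : 0 < r)
    (h : ∀ y, μH[1] (S ∩ closedBall y 1) ≤ M) (y : E3) :
    μH[1] ({x | r⁻¹ • x ∈ S} ∩ closedBall y r) ≤ ENNReal.ofReal (r * M) := by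
  refine (hm_smul (inv_pos.2 hr) zero_le_one (T := S) (D := M)
    (by rwa [inv_mul_cancel₀ hr.ne']) y).trans_eq ?_
  rw [ENNReal.rpow_one, inv_inv, ENNReal.ofReal_mul hr.le, ENNReal.ofReal_coe_nnreal]

/-- lines of scale `r` in the planes of step `s` and near the other planes, inside `X` -/
theorem mean_two {S X : Set E3} {g : E3 → ℝ≥0∞} {r s d R : ℝ} {M : ℝ≥0} (hr : 0 < r)
    (hs : r ≤ s) (hR : s ≤ R) (hd : 0 ≤ d) (hS : MeasurableSet S)
    (h : ∀ y, μH[1] (S ∩ closedBall y 1) ≤ M) (hX : MeasurableSet X) (hg : Measurable g) :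
    Mean R (fun w => ENNReal.ofReal (s * r) *
      ∫⁻ x in {x ∈ X | r⁻¹ • (x - w) ∈ S ∧ x - w ∈ npt s d}, g x ∂(μH[1]))
      (72900 * M * ENNReal.ofReal ((d + r) / s) * ∫⁻ x in X, g x) := by
  have h0 : 0 < s := hr.trans_le hs
  have h2 := coreR 1 Nat.cast_one (a := s * r) (c := 72900 * M * ((d + r) / s)) h0 hR
    ((measurable_const_smul r⁻¹ hS).inter (measurableSet_npt s d)) (hg.indicator hX)
    (dens_two hr hs hd (by positivity) (dens_lines hr h)) (by positivity) (by positivity)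
    (le_of_eq (by field_simp; ring))
  rw [ENNReal.ofReal_mul (p := 72900 * M) (by positivity),
    ENNReal.ofReal_mul (p := 72900) (by norm_num), ENNReal.ofReal_coe_nnreal,
    ENNReal.ofReal_ofNat, lintegral_indicator hX] at h2
  refine (congrArg (fun Φ => Mean R Φ _) (funext fun w => ?_)).mp h2
  rw [lintegral_indicator hX, Measure.restrict_restrict hX]
  rfl

/-- lines of scale `r` at distance at most `d` from the planes of step `s`, inside `X` -/
theorem mean_slab {S X : Set E3} {g : E3 → ℝ≥0∞} {r s d R : ℝ} {M : ℝ≥0} (hr : 0 < r)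
    (hs : r ≤ s) (hR : s ≤ R) (hd : 0 ≤ d) (hS : MeasurableSet S)
    (h : ∀ y, μH[1] (S ∩ closedBall y 1) ≤ M) (hX : MeasurableSet X) (hg : Measurable g) :
    Mean R (fun w => ENNReal.ofReal r ^ 2 *
      ∫⁻ x in {x ∈ X | r⁻¹ • (x - w) ∈ S ∧ x - w ∈ npl s d}, g x ∂(μH[1]))
      (7290 * M * ENNReal.ofReal ((d + r) / s) * ∫⁻ x in X, g x) := by
  have h0 : 0 < s := hr.trans_le hs
  have h2 := coreR 1 Nat.cast_one (a := r ^ 2) (c := 7290 * M * ((d + r) / s)) h0 hR
    ((measurable_const_smul r⁻¹ hS).inter (measurableSet_npl s d)) (hg.indicator hX)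
    (dens_slab hr hs hd (by positivity) (dens_lines hr h)) (by positivity) (by positivity)
    (le_of_eq (by field_simp; ring))
  rw [ENNReal.ofReal_pow hr.le, ENNReal.ofReal_mul (by positivity),
    ENNReal.ofReal_mul (by norm_num), ENNReal.ofReal_coe_nnreal, ENNReal.ofReal_ofNat,
    lintegral_indicator hX] at h2
  refine (congrArg (fun Φ => Mean R Φ _) (funext fun w => ?_)).mp h2
  rw [lintegral_indicator hX, Measure.restrict_restrict hX]
  rfl

theorem mem_cth {r : ℝ} (hr : 0 ≤ r) {z : Fin 3 → ℤ} {ξ : E3} :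
    ξ ∈ cthickening r (ucube z) ↔ ∀ i, z i - r ≤ ξ i ∧ ξ i ≤ z i + 1 + r := by
  constructor
  · intro h i
    rw [(show IsCompact (ucube z) from isCompact_Icc).cthickening_eq_biUnion_closedBall hr] at h
    obtain ⟨ζ, h1, h2⟩ := mem_iUnion₂.1 h
    have h3 := abs_le.1 ((dist_le_pi_dist ξ ζ i).trans h2)
    have h4 := mem_ucube.1 h1 i
    exact ⟨by linarith [h3.1, h4.1], by linarith [h3.2, h4.2]⟩
  · intro h
    refine mem_cthickening_of_dist_le _ (fun i => max (z i : ℝ) (min (ξ i) (z i + 1))) r _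
      (mem_ucube.2 fun i => ⟨le_max_left _ _, max_le (by linarith) (min_le_right _ _)⟩)
      ((dist_pi_le_iff hr).2 fun i => ?_)
    obtain ⟨h1, h2⟩ := h i
    rw [Real.dist_eq, abs_le]
    simp only [max_def, min_def]
    split_ifs <;> constructor <;> linarith

/-- the level sets of the distance to the halo lie near the planes of the lattice -/
theorem layer {P : Par} {k : ℕ} {𝓩 : Set (Fin 3 → ℤ)} {x : E3} {d : ℝ} (hne : 𝓩.Nonempty)
    (h1 : 15 * (2:ℝ)⁻¹ ^ k - d ≤ infDist x (halo P k 𝓩))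
    (h2 : infDist x (halo P k 𝓩) < 15 * (2:ℝ)⁻¹ ^ k) :
    (∃ z ∈ 𝓩, dy P k x ∈ cthickening 17 (ucube z)) ∧ x - P.w ∈ npa ((2:ℝ)⁻¹ ^ k) d := by
  obtain ⟨y, ⟨z, hz, hy⟩, h3⟩ := (infDist_lt_iff (halo_nonempty hne)).1 h2
  have h0 : (0:ℝ) < 2⁻¹ ^ k := by positivity
  rw [dist_dy (P := P) k, mul_comm] at h3
  have h4 : ∀ i, |dy P k x i - dy P k y i| < 15 := fun i =>
    (dist_le_pi_dist _ _ i).trans_lt (lt_of_mul_lt_mul_right h3 h0.le)
  have h5 := (mem_cth zero_le_two).1 hy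
  refine ⟨⟨z, hz, (mem_cth (by norm_num)).2 fun i => ?_⟩, by_contra fun hn => ?_⟩
  · have := abs_lt.1 (h4 i)
    exact ⟨by linarith [(h5 i).1], by linarith [(h5 i).2]⟩
  have e : ∀ (i : Fin 3) (a : ℝ), (x - P.w) i - a * 2⁻¹ ^ k = (dy P k x i - a) * 2⁻¹ ^ k := by
    intro i a
    have : (2:ℝ) ^ k * 2⁻¹ ^ k = 1 := by rw [← mul_pow]; simp
    simp only [dy, Pi.smul_apply, smul_eq_mul]
    linear_combination (-(x - P.w) i) * this
  obtain ⟨δ, rfl⟩ : ∃ δ, d = δ * 2⁻¹ ^ k := ⟨d / 2⁻¹ ^ k, by field_simp⟩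
  have h6 : ∀ (i : Fin 3) (a : ℤ), dy P k x i - a ≠ 0 → δ < |dy P k x i - a| :=
    fun i a ha => lt_of_not_ge fun h => hn ⟨i, a, sub_ne_zero.1 (e i a ▸ mul_ne_zero ha h0.ne'),
      by rw [e, abs_mul, abs_of_pos h0]; exact mul_le_mul_of_nonneg_right h h0.le⟩
  have h7 : δ < 1 := by
    have b1 := Int.floor_le (dy P k x 0)
    have b2 := Int.lt_floor_add_one (dy P k x 0)
    have b3 := h6 0 (⌊dy P k x 0⌋ + 1) (by push_cast; linarith)
    push_cast at b3
    rw [abs_of_neg (by linarith)] at b3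
    linarith
  obtain ⟨θ, hθ⟩ := exists_dy P k
  have h8 : θ.symm (fun i => max (z i - 2 : ℝ) (min (dy P k x i) (z i + 1 + 2))) ∈
      halo P k 𝓩 := by
    refine ⟨z, hz, ?_⟩
    rw [← hθ, θ.apply_symm_apply]
    exact (mem_cth zero_le_two).2 fun i =>
      ⟨le_max_left _ _, max_le (by linarith) (min_le_right _ _)⟩
  have h9 := h1.trans (infDist_le_dist_of_mem h8)
  rw [dist_dy (P := P) k, ← hθ (θ.symm _), θ.apply_symm_apply, ← sub_mul, mul_comm] at h9
  refine absurd (le_of_mul_le_mul_left h9 h0) (not_le.2 ((dist_pi_lt_iff (by linarith)).2 fun i => ?_))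
  have a1 := abs_lt.1 (h4 i)
  obtain ⟨a4, a5⟩ := h5 i
  have a2 := h6 i (z i - 17) (by push_cast; linarith [a1.1])
  have a3 := h6 i (z i + 18) (by push_cast; linarith [a1.2])
  push_cast at a2 a3
  rw [abs_of_pos (by linarith [a1.1])] at a2
  rw [abs_of_neg (by linarith [a1.2])] at a3
  rw [Real.dist_eq, abs_lt]
  simp only [max_def, min_def]
  split_ifs <;> constructor <;> linarith

/-- the three kinds of points in the zone of scale `l` of the mesh size -/
theorem size_zone {P : Par} {ς : E3 → ℝ} {k l : ℕ} {𝓩 : Set (Fin 3 → ℤ)} {x : E3}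
    (h1 : 9 / 10 * (2:ℝ)⁻¹ ^ l ≤ size P ς k 𝓩 x) (h2 : size P ς k 𝓩 x ≤ 21 / 10 * (2:ℝ)⁻¹ ^ l) :
    (9 / 10 * (2:ℝ)⁻¹ ^ l ≤ ς x ∧ ς x ≤ 21 / 10 * (2:ℝ)⁻¹ ^ l) ∨ l = P.k₀ ∨
      (k ≤ l ∧ (∃ z ∈ 𝓩, dy P k x ∈ cthickening 17 (ucube z)) ∧
        x - P.w ∈ npa ((2:ℝ)⁻¹ ^ k) (21 * (2:ℝ)⁻¹ ^ l)) := by
  have h0 : (0:ℝ) < 2⁻¹ ^ l := by positivity
  have key : ∀ {a b : ℕ}, 9 / 10 * (2:ℝ)⁻¹ ^ a ≤ 3 / 2 * (2:ℝ)⁻¹ ^ b → b ≤ a := fun {a b} h => by
    by_contra hlt
    have h5 : (2:ℝ)⁻¹ ^ b ≤ (2:ℝ)⁻¹ ^ (a + 1) :=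
      pow_le_pow_of_le_one (by norm_num) (by norm_num) (by omega)
    have h6 : (0:ℝ) < 2⁻¹ ^ a := by positivity
    rw [pow_succ] at h5
    linarith
  unfold size at h1 h2
  rcases min_choice (ς x) (max (3 / 2 * P.η) (open Classical in if 𝓩.Nonempty then
    3 / 2 * (2:ℝ)⁻¹ ^ k - infDist x (halo P k 𝓩) / 10 else 0)) with e | e <;> rw [e] at h1 h2
  · exact Or.inl ⟨h1, h2⟩
  rcases max_choice (3 / 2 * P.η) (open Classical in if 𝓩.Nonempty then
    3 / 2 * (2:ℝ)⁻¹ ^ k - infDist x (halo P k 𝓩) / 10 else 0) with e | e <;> rw [e] at h1 h2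
  · refine Or.inr (Or.inl (le_antisymm ?_ (key h1)))
    by_contra hlt
    have h5 : (2:ℝ)⁻¹ ^ l ≤ (2:ℝ)⁻¹ ^ (P.k₀ + 1) :=
      pow_le_pow_of_le_one (by norm_num) (by norm_num) (by omega)
    rw [pow_succ] at h5
    unfold Par.η at h2
    linarith
  · split_ifs at h1 h2 with h
    · exact Or.inr (Or.inr ⟨key (by linarith [infDist_nonneg (x := x) (s := halo P k 𝓩)]),
        layer h (by linarith) (by linarith)⟩)
    · linarith

end M2

end P073
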