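import Vale.Agent.P073Y.Ms.Far
import Vale.Agent.P073Y.Ms.Slab

/-!
# The line integrals which bound the weighted sums over the far faces and their means
-/

open Set Metric Topology Filter MeasureTheory
open scoped ENNReal NNReal

namespace P073

namespace M2

open Dens Mn Me G2 _root_.P073.Top _root_.P073.Zn _root_.P073.Nr _root_.P073.Nr.Sm

/-- the line integral at the scale `l` -/
noncomputable def lin (S₀ : Set E3) (l : ℕ) (X Y : Set E3) (G : E3 → ℝ≥0∞) (w : E3) : ℝ≥0∞ :=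
  ∫⁻ x in {x ∈ X | ((2:ℝ)⁻¹ ^ l)⁻¹ • (x - w) ∈ S₀ ∧ x - w ∈ Y}, G x ∂(μH[1])

/-- the zones which do not depend on the shift -/
def zn (ς : E3 → ℝ) (k₀ l : ℕ) : Set E3 :=
  {x | (9 / 10 * (2:ℝ)⁻¹ ^ l ≤ ς x ∧ ς x ≤ 21 / 10 * (2:ℝ)⁻¹ ^ l) ∨ l = k₀}

/-- all lines, fixed zones -/
noncomputable def LamA (S₀ : Set E3) (ς : E3 → ℝ) (k₀ : ℕ) (X : Set E3) (G : E3 → ℝ≥0∞)
    (w : E3) : ℝ≥0∞ :=
  ∑' l, ENNReal.ofReal (2⁻¹ ^ l * 2⁻¹ ^ l) * lin S₀ l (X ∩ zn ς k₀ l) univ G w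

/-- all lines, transition layers -/
noncomputable def LamB (S₀ : Set E3) (k : ℕ) (X : Set E3) (G : E3 → ℝ≥0∞) (w : E3) : ℝ≥0∞ :=
  ∑' l, ENNReal.ofReal (2⁻¹ ^ l * 2⁻¹ ^ l) *
    lin S₀ l (X ∩ {_x | k ≤ l}) (npl (2⁻¹ ^ k) (21 * 2⁻¹ ^ l)) G w

/-- lines in the planes of step `2⁻¹ ^ n`, fixed zones -/
noncomputable def LamQ (S₀ : Set E3) (ς : E3 → ℝ) (k₀ n : ℕ) (X : Set E3) (G : E3 → ℝ≥0∞)
    (w : E3) : ℝ≥0∞ :=
  ∑' l, ENNReal.ofReal (2⁻¹ ^ n * 2⁻¹ ^ l) * lin S₀ l (X ∩ zn ς k₀ l) (npl (2⁻¹ ^ n) 0) G w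

/-- lines in the planes of step `2⁻¹ ^ k`, transition layers -/
noncomputable def LamT (S₀ : Set E3) (k : ℕ) (X : Set E3) (G : E3 → ℝ≥0∞) (w : E3) : ℝ≥0∞ :=
  ∑' l, ENNReal.ofReal (2⁻¹ ^ k * 2⁻¹ ^ l) *
    lin S₀ l (X ∩ {_x | k ≤ l}) (npt (2⁻¹ ^ k) (21 * 2⁻¹ ^ l)) G w

/-- the majorant -/
noncomputable def LAM (S₀ : Set E3) (ς : E3 → ℝ) (k₀ k : ℕ) (O : ℕ → Set E3) (n : ℕ → ℕ)
    (X : Set E3) (G : E3 → ℝ≥0∞) (w : E3) : ℝ≥0∞ :=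
  LamA S₀ ς k₀ X G w + LamB S₀ k X G w + ∑' i, LamQ S₀ ς k₀ (n i) (X ∩ O i) G w +
    (LamQ S₀ ς k₀ k X G w + LamT S₀ k X G w)

section means

variable {S₀ X Y : Set E3} {G : E3 → ℝ≥0∞} {R : ℝ} {M : ℝ≥0} {ς : E3 → ℝ}

theorem encard_two {A : Set ℕ} (h : ∀ l ∈ A, ∀ l' ∈ A, l' < l + 2) : A.encard ≤ 2 := by
  classical
  rcases A.eq_empty_or_nonempty with rfl | hA
  · simp
  · refine (encard_le_encard (t := {Nat.find hA, Nat.find hA + 1}) fun l hl => ?_).trans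
      (encard_pair (by omega)).le
    have h1 := Nat.find_min' hA hl
    have h2 := h _ (Nat.find_spec hA) l hl
    simp only [mem_insert_iff, mem_singleton_iff]
    omega

theorem sum_cover {Z : ℕ → Set E3} {c : ℝ≥0∞} (hX : MeasurableSet X) (hG : Measurable G)
    (hZ : ∀ l, MeasurableSet (Z l)) (h : ∀ x, (({l | x ∈ Z l}.encard : ℕ∞) : ℝ≥0∞) ≤ c) :
    ∑' l, ∫⁻ x in X ∩ Z l, G x ≤ c * ∫⁻ x in X, G x := by
  have h1 : ∀ l, ∫⁻ x in X ∩ Z l, G x = ∫⁻ x in X, (Z l).indicator G x := fun l => by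
    rw [lintegral_indicator (hZ l), Measure.restrict_restrict (hZ l), inter_comm]
  simp only [h1]
  rw [← lintegral_tsum fun l => (hG.indicator (hZ l)).aemeasurable, ← lintegral_const_mul _ hG]
  refine setLIntegral_mono' hX fun x _ => le_trans (le_of_eq ?_) (mul_le_mul_left (h x) _)
  rw [← tot_const]
  exact tsum_congr fun l => by by_cases hl : x ∈ Z l <;> simp [hl]

theorem measurableSet_zn (hς : Continuous ς) (k₀ l : ℕ) : MeasurableSet (zn ς k₀ l) :=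
  ((measurableSet_le measurable_const hς.measurable).inter
    (measurableSet_le hς.measurable measurable_const)).union (MeasurableSet.const _)

theorem sum_zn (hς : Continuous ς) (k₀ : ℕ) (hX : MeasurableSet X) (hG : Measurable G) :
    ∑' l, ∫⁻ x in X ∩ zn ς k₀ l, G x ≤ 3 * ∫⁻ x in X, G x := by
  refine sum_cover hX hG (measurableSet_zn hς k₀) fun x => ?_
  have h1 : {l | 9 / 10 * (2:ℝ)⁻¹ ^ l ≤ ς x ∧ ς x ≤ 21 / 10 * (2:ℝ)⁻¹ ^ l}.encard ≤ 2 := by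
    refine encard_two fun l hl l' hl' => lt_of_not_ge fun h => ?_
    have h5 : (2:ℝ)⁻¹ ^ l' ≤ (2:ℝ)⁻¹ ^ (l + 2) :=
      pow_le_pow_of_le_one (by norm_num) (by norm_num) h
    have h6 : (0:ℝ) < 2⁻¹ ^ l := by positivity
    rw [pow_add] at h5
    linarith [hl.1, hl'.2]
  have h2 := (encard_union_le _ {k₀}).trans (add_le_add h1 (encard_singleton k₀).le)
  exact (ENat.toENNReal_le.2 h2).trans_eq (by norm_num)

theorem sum_geo (k : ℕ) (X : Set E3) (G : E3 → ℝ≥0∞) :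
    ∑' l, ENNReal.ofReal (2⁻¹ ^ l / 2⁻¹ ^ k) * ∫⁻ x in X ∩ {_x | k ≤ l}, G x ≤
      2 * ∫⁻ x in X, G x := by
  rw [← (add_right_injective k).tsum_eq (f := fun l => ENNReal.ofReal (2⁻¹ ^ l / 2⁻¹ ^ k) *
    ∫⁻ x in X ∩ {_x | k ≤ l}, G x) fun l hl => ?_]
  · have h : ∀ n, ENNReal.ofReal (2⁻¹ ^ (k + n) / 2⁻¹ ^ k) * ∫⁻ x in X ∩ {_x | k ≤ k + n}, G x ≤
        2⁻¹ ^ n * ∫⁻ x in X, G x := fun n => mul_le_mul' (le_of_eq (by
      rw [pow_add, mul_div_cancel_left₀ _ (by positivity), ENNReal.ofReal_pow (by norm_num),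
        ENNReal.ofReal_inv_of_pos two_pos, ENNReal.ofReal_ofNat]))
      (lintegral_mono_set inter_subset_left)
    refine (ENNReal.tsum_le_tsum h).trans_eq ?_
    rw [ENNReal.tsum_mul_right, ENNReal.tsum_geometric, ENNReal.one_sub_inv_two, inv_inv]
  · by_contra hn
    have h : ¬ k ≤ l := fun h => hn ⟨l - k, by simp only; omega⟩
    simp [h] at hl

theorem mean_lin {l : ℕ} {η a c D : ℝ} (hη : 0 < η) (hR : η ≤ R) (hS : MeasurableSet S₀)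
    (hY : MeasurableSet Y) (hX : MeasurableSet X) (hG : Measurable G)
    (h : ∀ y, μH[1] ({x | ((2:ℝ)⁻¹ ^ l)⁻¹ • x ∈ S₀} ∩ Y ∩ closedBall y η) ≤ ENNReal.ofReal D)
    (ha : 0 ≤ a) (hc : 0 ≤ c) (hac : a * (27 * D) ≤ c * η ^ 3) :
    Mean R (fun w => ENNReal.ofReal a * lin S₀ l X Y G w) (ENNReal.ofReal c * ∫⁻ x in X, G x) := by
  have h2 := coreR 1 Nat.cast_one hη hR ((measurable_const_smul _ hS).inter hY) (hG.indicator hX)
    h ha hc hac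
  rw [lintegral_indicator hX] at h2
  refine (congrArg (fun Φ => Mean R Φ _) (funext fun w => ?_)).mp h2
  rw [lintegral_indicator hX, Measure.restrict_restrict hX]
  rfl

variable (hR : 1 ≤ R) (hS : MeasurableSet S₀) (hM : ∀ y, μH[1] (S₀ ∩ closedBall y 1) ≤ M)
  (hX : MeasurableSet X) (hG : Measurable G)
include hR hS hM hX hG

theorem mean_all {l : ℕ} {a : ℝ} (hY : MeasurableSet Y) (ha : 0 ≤ a) (ha' : a ≤ 2⁻¹ ^ l * 2⁻¹ ^ l) :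
    Mean R (fun w => ENNReal.ofReal a * lin S₀ l X Y G w)
      (ENNReal.ofReal (7290 * M) * ∫⁻ x in X, G x) := by
  have h0 : (0:ℝ) < 2⁻¹ ^ l := by positivity
  refine mean_lin h0 ((pow_le_one₀ (by norm_num) (by norm_num)).trans hR) hS hY hX hG
    (fun y => (measure_mono (inter_subset_inter_left _ inter_subset_left)).trans
      (dens_lines h0 hM y)) ha (by positivity)
    ((mul_le_mul_of_nonneg_right ha' (by positivity)).trans ?_)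
  have : (0:ℝ) ≤ M * (2⁻¹ ^ l) ^ 3 := by positivity
  nlinarith

theorem mean_A (hς : Continuous ς) (k₀ : ℕ) :
    Mean R (LamA S₀ ς k₀ X G) (21870 * M * ∫⁻ x in X, G x) := by
  refine (mean_tsum fun l => mean_all hR hS hM (hX.inter (measurableSet_zn hς k₀ l)) hG
    MeasurableSet.univ (by positivity) le_rfl).mono ?_
  rw [ENNReal.tsum_mul_left, ENNReal.ofReal_mul (by norm_num), ENNReal.ofReal_coe_nnreal,
    ENNReal.ofReal_ofNat]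
  exact (mul_le_mul_right (sum_zn hς k₀ hX hG) _).trans_eq (by ring)

theorem mean_Q (hς : Continuous ς) (k₀ n : ℕ) :
    Mean R (LamQ S₀ ς k₀ n X G) (21870 * M * ∫⁻ x in X, G x) := by
  refine (mean_tsum (a := fun l => ENNReal.ofReal (7290 * M) * ∫⁻ x in X ∩ zn ς k₀ l, G x)
    fun l => ?_).mono ?_
  · have h0 : (0:ℝ) < 2⁻¹ ^ l := by positivity
    have h1 := hX.inter (measurableSet_zn hς k₀ l)
    rcases le_total ((2:ℝ)⁻¹ ^ n) (2⁻¹ ^ l) with h | h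
    · exact mean_all hR hS hM h1 hG (measurableSet_npl _ _) (by positivity)
        (mul_le_mul_of_nonneg_right h h0.le)
    · exact mean_lin (h0.trans_le h) ((pow_le_one₀ (by norm_num) (by norm_num)).trans hR) hS
        (measurableSet_npl _ _) h1 hG (dens_slab h0 h le_rfl (by positivity) (dens_lines h0 hM))
        (by positivity) (by positivity) (le_of_eq (by field_simp; ring))
  · rw [ENNReal.tsum_mul_left, ENNReal.ofReal_mul (by norm_num), ENNReal.ofReal_coe_nnreal,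
      ENNReal.ofReal_ofNat]
    exact (mul_le_mul_right (sum_zn hς k₀ hX hG) _).trans_eq (by ring)

omit hR hS hM hX hG in
theorem mean_lay {k : ℕ} {c : ℝ≥0} {a : ℕ → ℝ} {Z : ℕ → Set E3}
    (h : ∀ l, k ≤ l → Mean R (fun w => ENNReal.ofReal (a l) * lin S₀ l X (Z l) G w)
      (ENNReal.ofReal (c * (2⁻¹ ^ l / 2⁻¹ ^ k)) * ∫⁻ x in X, G x)) :
    Mean R (fun w => ∑' l, ENNReal.ofReal (a l) * lin S₀ l (X ∩ {_x | k ≤ l}) (Z l) G w)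
      (2 * c * ∫⁻ x in X, G x) := by
  refine (mean_tsum (a := fun l => c * (ENNReal.ofReal (2⁻¹ ^ l / 2⁻¹ ^ k) *
    ∫⁻ x in X ∩ {_x | k ≤ l}, G x)) fun l => ?_).mono ?_
  · by_cases hl : k ≤ l
    · rw [show X ∩ {_x | k ≤ l} = X by simp [hl], ← mul_assoc, ← ENNReal.ofReal_coe_nnreal,
        ← ENNReal.ofReal_mul c.coe_nonneg]
      exact h l hl
    · simp only [hl, lin, ofPred_false, inter_empty, mem_empty_iff_false, false_and,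
        Measure.restrict_empty, lintegral_zero_measure, mul_zero]
      exact ⟨measurable_const, by simp⟩
  · rw [ENNReal.tsum_mul_left]
    exact (mul_le_mul_right (sum_geo k X G) _).trans_eq (by ring)

theorem mean_B (k : ℕ) : Mean R (LamB S₀ k X G) (320760 * M * ∫⁻ x in X, G x) := by
  refine (mean_lay (c := 160380 * M) fun l hl => ?_).mono (le_of_eq (by push_cast; ring))
  have h0 : (0:ℝ) < 2⁻¹ ^ l := by positivity
  have h : (2:ℝ)⁻¹ ^ l ≤ 2⁻¹ ^ k := pow_le_pow_of_le_one (by norm_num) (by norm_num) hl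
  exact mean_lin (h0.trans_le h) ((pow_le_one₀ (by norm_num) (by norm_num)).trans hR) hS
    (measurableSet_npl _ _) hX hG (dens_slab h0 h (by positivity) (by positivity)
      (dens_lines h0 hM)) (by positivity) (by positivity)
    (le_of_eq (by push_cast; field_simp; ring))

theorem mean_T (k : ℕ) : Mean R (LamT S₀ k X G) (3207600 * M * ∫⁻ x in X, G x) := by
  refine (mean_lay (c := 1603800 * M) fun l hl => ?_).mono (le_of_eq (by push_cast; ring))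
  have h0 : (0:ℝ) < 2⁻¹ ^ l := by positivity
  have h : (2:ℝ)⁻¹ ^ l ≤ 2⁻¹ ^ k := pow_le_pow_of_le_one (by norm_num) (by norm_num) hl
  exact mean_lin (h0.trans_le h) ((pow_le_one₀ (by norm_num) (by norm_num)).trans hR) hS
    (measurableSet_npt _ _) hX hG (dens_two h0 h (by positivity) (by positivity)
      (dens_lines h0 hM)) (by positivity) (by positivity)
    (le_of_eq (by push_cast; field_simp; ring))

/-- **the mean of the majorant** -/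
theorem mean_LAM (hς : Continuous ς) (k₀ k : ℕ) {O : ℕ → Set E3} (n : ℕ → ℕ)
    (hO : ∀ i, MeasurableSet (O i)) (hd : ∀ i i', i + 2 ≤ i' → Disjoint (O i) (O i')) :
    Mean R (LAM S₀ ς k₀ k O n X G) (4000000 * M * ∫⁻ x in X, G x) := by
  refine ((((mean_A hR hS hM hX hG hς k₀).add (mean_B hR hS hM hX hG k)).add (mean_tsum fun i =>
    mean_Q hR hS hM (hX.inter (hO i)) hG hς k₀ (n i))).add ((mean_Q hR hS hM hX hG hς k₀ k).add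
      (mean_T hR hS hM hX hG k))).mono ?_
  have h1 := sum_cover hX hG hO (c := 2) fun x => (ENat.toENNReal_le.2 (encard_two
    fun i hi i' hi' => lt_of_not_ge fun h => Set.disjoint_left.1 (hd i i' h) hi hi')).trans_eq rfl
  rw [ENNReal.tsum_mul_left]
  refine (add_le_add (add_le_add le_rfl (mul_le_mul_right h1 _)) le_rfl).trans ?_
  calc _ = 3615840 * (M * ∫⁻ x in X, G x) := by ring
    _ ≤ _ := by
      rw [mul_assoc]
      exact mul_le_mul_left (by norm_num) _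

end means

variable {Ω : Set E3} {P : Par} {ς : E3 → ℝ} {k : ℕ} {𝓩 : Set (Fin 3 → ℤ)}
  {𝓒 : Set (ℕ × (Fin 3 → ℤ))} {M₀ : ℝ≥0} {Mt : Ty → ℕ → ℝ≥0} {S₀ : Set E3} {S : Ty → ℕ → Set E3}

theorem plns_npl {w x : E3} {s : ℝ} (h : x ∈ plns w s) : x - w ∈ npl s 0 :=
  let ⟨i, a, e⟩ := h
  ⟨i, a, by rw [Pi.sub_apply, e, add_sub_cancel_left, sub_self, abs_zero]⟩

namespace Mesh2

open Classical in
/-- the weights of the faces: the scale plus the steps of the candidate planes -/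
noncomputable def wt {σ : E3 → ℝ} (𝓜 : Mesh2 Ω P σ 𝓒 M₀ Mt S₀ S) (Y : ℕ → Set E3) (n : ℕ → ℕ)
    (Y' : Set E3) (k : ℕ) (φ : 𝓜.Q.ι) : ℝ≥0∞ := 𝓜.rr φ +
  ∑' i, {i | 𝓜.Q.cell φ ⊆ Y i ∩ plns P.w (2⁻¹ ^ n i)}.indicator
    (fun i => ENNReal.ofReal (2⁻¹ ^ n i)) i +
  if 𝓜.Q.cell φ ⊆ Y' ∩ plns P.w (2⁻¹ ^ k) then ENNReal.ofReal (2⁻¹ ^ k) else 0

section wt

variable {σ : E3 → ℝ} (𝓜 : Mesh2 Ω P σ 𝓒 M₀ Mt S₀ S) (Y : ℕ → Set E3) (n : ℕ → ℕ)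
  (Y' : Set E3) (k : ℕ) {φ : 𝓜.Q.ι}

theorem rr_le_wt (φ : 𝓜.Q.ι) : 𝓜.rr φ ≤ 𝓜.wt Y n Y' k φ := le_self_add.trans le_self_add

theorem le_wt {i : ℕ} (h : 𝓜.Q.cell φ ⊆ Y i ∩ plns P.w (2⁻¹ ^ n i)) :
    ENNReal.ofReal (2⁻¹ ^ n i) ≤ 𝓜.wt Y n Y' k φ :=
  ((le_tot (A := {i | 𝓜.Q.cell φ ⊆ Y i ∩ plns P.w (2⁻¹ ^ n i)}) h
    fun i => ENNReal.ofReal (2⁻¹ ^ n i)).trans le_add_self).trans le_self_add

theorem le_wt' (h : 𝓜.Q.cell φ ⊆ Y' ∩ plns P.w (2⁻¹ ^ k)) :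
    ENNReal.ofReal (2⁻¹ ^ k) ≤ 𝓜.wt Y n Y' k φ := (if_pos h).ge.trans le_add_self

theorem wt_ne_top {O : ℕ → Set E3} (hO : LFIn O Ω) (hY : ∀ i, Y i ⊆ O i) (φ : 𝓜.Q.ι) :
    𝓜.wt Y n Y' k φ ≠ ⊤ := by
  obtain ⟨x, hx⟩ := 𝓜.Q.cell_nonempty φ
  refine ENNReal.add_ne_top.2 ⟨ENNReal.add_ne_top.2 ⟨ENNReal.ofReal_ne_top, tot_ne_top
    ((hO.finite_mem (𝓜.carrier ▸ 𝓜.Q.cell_subset_carrier φ hx)).subset fun i hi => hY i (hi hx).1)
    fun _ _ => ENNReal.ofReal_ne_top⟩, ?_⟩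
  split_ifs
  exacts [ENNReal.ofReal_ne_top, ENNReal.zero_ne_top]

end wt

variable (𝓜 : Mesh2 Ω P (size P ς k 𝓩) 𝓒 M₀ Mt S₀ S) {A : Set 𝓜.Q.ι} {X : Set E3}

theorem two_sum {u : 𝓜.Q.ι → ℝ≥0∞} {c : ℕ → ℝ} {Y : Set E3} {Z : ℕ → Set E3}
    (G : E3 → ℝ≥0∞) (hA : ∀ φ ∈ A, 𝓜.far φ ∧ u φ ≤ ENNReal.ofReal (c (𝓜.kf φ)) ∧
      ∀ x ∈ 𝓜.Q.cell φ, x ∈ X ∧ x - P.w ∈ Y ∧ ((∃ z ∈ 𝓩, dy P k x ∈ cthickening 17 (ucube z)) →
        x - P.w ∈ npa (2⁻¹ ^ k) (21 * 2⁻¹ ^ 𝓜.kf φ) → x - P.w ∈ Z (𝓜.kf φ))) :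
    tot A (fun φ => u φ * wint 𝓜.Q G φ) ≤ M₀ *
      (∑' l, ENNReal.ofReal (c l) * lin S₀ l (X ∩ zn ς P.k₀ l) Y G P.w +
        ∑' l, ENNReal.ofReal (c l) * lin S₀ l (X ∩ {_x | k ≤ l}) (Z l) G P.w) := by
  refine (𝓜.wires_sum (X := fun l => {x ∈ X ∩ zn ς P.k₀ l | x - P.w ∈ Y} ∪
    {x ∈ X ∩ {_x | k ≤ l} | x - P.w ∈ Z l}) (c := fun l => ENNReal.ofReal (c l)) G fun φ hφ =>
      ⟨(hA φ hφ).1, (hA φ hφ).2.1, fun x hx => ?_⟩).trans (mul_le_mul_right ?_ _)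
  · obtain ⟨a1, a2, a3⟩ := (hA φ hφ).2.2 x hx
    rcases size_zone (𝓜.zone φ x hx).1 (𝓜.zone φ x hx).2 with h | h | h
    exacts [Or.inl ⟨⟨a1, Or.inl h⟩, a2⟩, Or.inl ⟨⟨a1, Or.inr h⟩, a2⟩,
      Or.inr ⟨⟨a1, h.1⟩, a3 h.2.1 h.2.2⟩]
  · rw [← ENNReal.tsum_add]
    refine ENNReal.tsum_le_tsum fun l => ?_
    rw [← mul_add]
    refine mul_le_mul_right ((lintegral_mono_set ?_).trans (lintegral_union_le _ _ _)) _
    rintro x ⟨h | h, h'⟩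
    exacts [Or.inl ⟨h.1, h', h.2⟩, Or.inr ⟨h.1, h', h.2⟩]

/-- **the weighted sum over the far faces inside `X`** -/
theorem wt_sum {Y O : ℕ → Set E3} (n : ℕ → ℕ) (Y' : Set E3) (G : E3 → ℝ≥0∞)
    (hA : ∀ φ ∈ A, 𝓜.far φ ∧ 𝓜.Q.cell φ ⊆ X) (hO : ∀ i, Y i ⊆ O i)
    (hY : ∀ i, ∀ x ∈ Y i, ∀ z ∈ 𝓩, dy P k x ∉ cthickening 17 (ucube z)) :
    tot A (fun φ => 𝓜.wt Y n Y' k φ * (𝓜.rr φ * wint 𝓜.Q G φ)) ≤
      M₀ * LAM S₀ ς P.k₀ k O n X G P.w := by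
  classical
  have e : ∀ (a : ℝ) φ, 0 ≤ a → ENNReal.ofReal a * 𝓜.rr φ ≤ ENNReal.ofReal (a * 2⁻¹ ^ 𝓜.kf φ) :=
    fun a φ ha => (ENNReal.ofReal_mul ha).ge
  simp only [wt, LAM, add_mul, tot_add, mul_add, ← mul_assoc]
  refine add_le_add (add_le_add ?_ ?_) ?_
  · rw [← mul_add]
    exact 𝓜.two_sum (c := fun l => 2⁻¹ ^ l * 2⁻¹ ^ l)
      (Z := fun l => npl (2⁻¹ ^ k) (21 * 2⁻¹ ^ l)) G fun φ hφ => ⟨(hA φ hφ).1,
        e _ φ (by positivity), fun x hx => ⟨(hA φ hφ).2 hx, trivial, fun _ h => npa_subset _ _ h⟩⟩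
  · have h1 := tot_swap (fun φ i => 𝓜.Q.cell φ ⊆ Y i ∩ plns P.w (2⁻¹ ^ n i)) A
      (fun φ => 𝓜.rr φ * wint 𝓜.Q G φ) fun i => ENNReal.ofReal (2⁻¹ ^ n i)
    refine (tot_congr fun φ _ => ?_).trans_le (h1.trans_le ?_)
    · rw [mul_assoc, mul_comm]
      rfl
    rw [← ENNReal.tsum_mul_left]
    refine ENNReal.tsum_le_tsum fun i => ?_
    rw [← tot_mul_right]
    refine (tot_congr fun φ _ => by rw [mul_comm, ← mul_assoc]).trans_le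
      ((𝓜.two_sum (c := fun l => 2⁻¹ ^ n i * 2⁻¹ ^ l) (X := X ∩ O i)
      (Y := npl (2⁻¹ ^ n i) 0) (Z := fun _ => ∅) G fun φ hφ => ⟨(hA φ hφ.1).1,
        e _ φ (by positivity), fun x hx => ⟨⟨(hA φ hφ.1).2 hx, hO i (hφ.2 hx).1⟩,
          plns_npl (hφ.2 hx).2, fun ⟨z, a1, a2⟩ _ => hY i x (hφ.2 hx).1 z a1 a2⟩⟩).trans_eq ?_)
    simp [lin, LamQ]
  · rw [← mul_add]
    refine le_trans ?_ (𝓜.two_sum (c := fun l => 2⁻¹ ^ k * 2⁻¹ ^ l)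
      (A := {φ ∈ A | 𝓜.Q.cell φ ⊆ plns P.w (2⁻¹ ^ k)}) (Y := npl (2⁻¹ ^ k) 0)
      (u := fun φ => ENNReal.ofReal (2⁻¹ ^ k) * 𝓜.rr φ)
      (Z := fun l => npt (2⁻¹ ^ k) (21 * 2⁻¹ ^ l)) G fun φ hφ => ⟨(hA φ hφ.1).1,
        e _ φ (by positivity), fun x hx => ⟨(hA φ hφ.1).2 hx, plns_npl (hφ.2 hx),
          fun _ h => mem_npt (by positivity) (plns_npl (hφ.2 hx)) h⟩⟩)
    refine ENNReal.tsum_le_tsum fun φ => indicator_apply_le' (fun hφ => ?_) fun _ => zero_le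
    split_ifs with h
    · rw [indicator_of_mem (show φ ∈ {φ ∈ A | 𝓜.Q.cell φ ⊆ plns P.w (2⁻¹ ^ k)} from
        ⟨hφ, h.trans inter_subset_right⟩)]
    · simp

end Mesh2

end M2

end P073
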