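import Vale.Agent.P073Y.Ms.Src
import Vale.Agent.P073Y.Nr.Sk

/-!
# The near cells of the mesh
-/

open Set Metric Topology Filter MeasureTheory
open scoped ENNReal NNReal

namespace P073.M2.Mesh2

variable {Ω : Set E3} {P : Par} {σ : E3 → ℝ} {𝓒 : Set (ℕ × (Fin 3 → ℤ))} {M₀ : ℝ≥0}
  {Mt : Ty → ℕ → ℝ≥0} {S₀ : Set E3} {S : Ty → ℕ → Set E3} (𝓜 : Mesh2 Ω P σ 𝓒 M₀ Mt S₀ S)

theorem nea (h1 : 1 ≤ M₀) (ok : P.Ok Ω) (j : Fin P.N) :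
    Nr.Nea P j (𝓜.src h1) (𝓜.nrm h1 ok j) {i | ¬ 𝓜.far i ∧ 𝓜.Q.cell i ⊆ P.U j} M₀
      (Mt (P.T j) (P.m j) * ((P.T j).b * P.m j)) where
  sub := fun _ hc => hc.2
  buf := fun c hc =>
    let ⟨_, hx⟩ := 𝓜.Q.cell_nonempty c
    ⟨⟨𝓜.not_far hx ok (hc hx), hc.trans (Cube.buf_U ok j)⟩, 𝓜.nrm_M_buf h1 ok hc⟩
  rest := fun c hc hb => by rw [𝓜.nrm_M h1 ok hb, 𝓜.MI_near c j hc.1 hc.2]
  r_le := fun c hc =>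
    let ⟨x, hx⟩ := 𝓜.Q.cell_nonempty c
    (𝓜.nrm_r h1 ok ⟨x, hx, hc.2 hx⟩).le

/-- the cells which are not near cells are the far cells -/
theorem far_iff (i : 𝓜.Q.ι) :
    (∀ j, i ∉ {i | ¬ 𝓜.far i ∧ 𝓜.Q.cell i ⊆ P.U j}) ↔ 𝓜.far i :=
  ⟨fun h => by_contra fun hi => let ⟨j, hj⟩ := 𝓜.near i hi; h j ⟨hi, hj⟩,
    fun h _ hj => hj.1 h⟩

end P073.M2.Mesh2
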