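import Vale.Agent.P073Y.Ms.Fam

/-!
# The functions relevant in the far, near, buffer and core regions
-/

open Set Metric Topology Filter MeasureTheory
open scoped ENNReal NNReal

namespace P073

namespace M2

open Me G2
open Me.Ctx (Far fine_eq)

/-- the forms of the far region -/
noncomputable def gΛ : Fin 3 ⊕ Fin 3 × Fin 3 → E3 →ₗ[ℝ] ℝ
  | Sum.inl i => fΛ i
  | Sum.inr p => kΛ (Sum.inr p)

theorem gΛ_int (a : Fin 3 ⊕ Fin 3 × Fin 3) (i : Fin 3) : ∃ k : ℤ, gΛ a (Pi.single i 1) = k := by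
  rcases a with l | p
  · exact fΛ_int l i
  · exact kΛ_int (Sum.inr p) i

/-- the coordinate forms -/
def pΛ (i : Fin 3) : E3 →ₗ[ℝ] ℝ := LinearMap.proj i

theorem pΛ_int (a i : Fin 3) : ∃ k : ℤ, pΛ a (Pi.single i 1) = k := single_int i a

namespace Ctx

variable {Ω : Set E3} {P : Par} {c : Ctx Ω P} {n : ℕ} {x p : E3} {j : Fin P.N} {k : ℕ} {r : ℝ}

theorem Adj.symm (h : c.Adj x p) : c.Adj p x := by
  rcases h with ⟨k, h1, h2, h3⟩ | ⟨j, h1, h2, h3⟩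
  · exact Or.inl ⟨k, h2, h1, dist_comm p x ▸ h3⟩
  · exact Or.inr ⟨j, h2, h1, dist_comm p x ▸ h3⟩

theorem Adj.dist_le (h : c.Adj x p) (hx : Nr P j 100 x) : dist p x ≤ un P j := by
  rcases h with ⟨k, h1, -, h3⟩ | ⟨j', h1, -, h3⟩
  · obtain rfl := h1.eq_of_nr hx
    exact h3.trans η_le_un
  · obtain rfl := Nr.eq c.ok hx ((h1.nr c.ok).mono (by norm_num))
    exact h3

theorem Adj.nr (h : c.Adj x p) (hx : Nr P j r x) (hr : r ≤ 100) {s : ℝ} (hs : r + 1 ≤ s) :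
    Nr P j s p := hx.step (h.dist_le (hx.mono hr)) hs

theorem co_eq {j' : Fin P.N} (hx : Nr P j 20 x) (h : c.Adj x p) (h' : Co P j' p) : j = j' :=
  Nr.eq c.ok (h.nr hx (by norm_num) (by norm_num)) ((h'.nr c.ok).mono (by norm_num))

theorem far_fine (c : Ctx Ω P) (hx : Far P x) : x ∉ Fine1 P j := fun h1 =>
  hx.not_co ((buf_nr c.ok (fine_buf h1.1)).mono (by norm_num)).co

theorem far_of_not (c : Ctx Ω P) (hx : ∀ j, x ∉ P.U j) : Far P x := fun j p h1 =>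
  lt_of_not_ge fun h2 => hx j (mem_U.2
    ((h1.nr c.ok).step (dist_comm p x ▸ h2.trans η_le_un) (by norm_num)))

/-- the functions at a far point -/
theorem far_cases (hx : Far P x) (hk : c.Cb k x) {ℓ : E3 →ᵃ[ℝ] ℝ} (hl : ℓ ∈ c.Ψ n x) :
    (∃ (i : Fin 3) (a : ℤ) (ε : ℝ), ε ≠ 0 ∧ ∀ y, ℓ y = ε * (dy P (k + 2) y i - a)) ∨
    (x ∈ Core P c.𝓒 ∧ ∃ a, ∃ b : ℤ, ∀ y, ℓ y = kΛ a (dy P k y) - b) := by
  rcases cases hl with ⟨k', p, h1, ⟨l, h2, h3, -⟩ | ⟨j, h2, -⟩, i, a, ε, hε, e⟩ |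
    ⟨j, p, h1, ⟨l, h2, h4, h3⟩ | ⟨j, h2, -⟩, -⟩ | ⟨k', z, h1, h2, h3⟩ | ⟨-, j, h1, -⟩
  · have h4 := h3.le_succ h1
    have h5 := hk.le_succ h2
    obtain ⟨d, hd⟩ : ∃ d, k + 2 = k' + d := ⟨k + 2 - k', by omega⟩
    refine Or.inl ⟨i, 2 ^ d * a, ε / 2 ^ d, by positivity, fun y => ?_⟩
    rw [e, hd]
    simp only [dy, Pi.smul_apply, smul_eq_mul, pow_add]
    push_cast
    field_simp
  · exact absurd h2 hx.not_co
  · obtain rfl := h4.eq_of_nr ((h1.nr c.ok).mono (by norm_num))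
    exact absurd h3 (not_le.2 (hx j p h1))
  · exact absurd h2 hx.not_co
  · obtain rfl := hk.eq_of_pin (core_pin h1 h2).2.1
    exact Or.inr ⟨⟨_, h1, h2⟩, h3⟩
  · exact absurd h1 (c.far_fine hx)

theorem ad_grid (hx : Far P x) (hk : c.Cb k x) (hc : x ∉ Core P c.𝓒) :
    Ad pΛ (dy P (k + 2)) (c.Ψ n x) := fun _ hl =>
  (far_cases hx hk hl).resolve_right fun h => hc h.1

theorem ad_far (hx : Far P x) (hk : c.Cb k x) : Ad gΛ (dy P k) (c.Ψ n x) := by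
  intro ℓ hl
  rcases far_cases hx hk hl with ⟨i, a, ε, hε, e⟩ | ⟨-, i | q, b, e⟩
  · refine ⟨Sum.inl i, a, ε, hε, fun y => ?_⟩
    rw [e]
    simp only [dy, gΛ, fΛ, LinearMap.smul_apply, LinearMap.proj_apply, Pi.smul_apply, smul_eq_mul]
    ring
  · refine ⟨Sum.inl i, 4 * b, 1 / 4, by norm_num, fun y => ?_⟩
    rw [e]
    simp only [kΛ, gΛ, fΛ, LinearMap.smul_apply, LinearMap.proj_apply, smul_eq_mul]
    push_cast
    ring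
  · exact ⟨Sum.inr q, b, 1, one_ne_zero, fun y => by rw [e, one_mul]; rfl⟩

theorem ad_near (hx : Nr P j 20 x) : Ad (nΛ (P.T j) (P.m j)) (dy P P.k₀) (c.Ψ 0 x) := by
  intro ℓ hl
  rcases cases hl with ⟨k', p, h1, h2, i, a, ε, hε, e⟩ | ⟨j', p, h1, h2, i, a, ε, hε, e⟩ |
    ⟨k', z, h1, h2, -⟩ | ⟨h1, -⟩
  · obtain rfl := h1.eq_of_nr (h2.nr hx (by norm_num) (by norm_num))
    exact ⟨Sum.inl i, a, ε, hε, e⟩
  · obtain rfl := co_eq hx h2 h1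
    have hq : (0:ℝ) < den (P.T j) := by exact_mod_cast den_pos _
    refine ⟨Sum.inr i, den (P.T j) * a, ε / den (P.T j), by positivity, fun y => ?_⟩
    rw [e, nΛ_nu c.ok]
    push_cast
    field_simp
  · exact absurd (mem_U.2 hx) ((core_pin h1 h2).2.2 j)
  · omega

/-- the functions at a point of the buffer -/
theorem buf_cases (hx : x ∈ P.BufSet j) {ℓ : E3 →ᵃ[ℝ] ℝ} (hl : ℓ ∈ c.Ψ n x) :
    (∃ (i : Fin 3) (a : ℤ) (ε : ℝ), ε ≠ 0 ∧ ∀ y, ℓ y = ε * (P.nu j y i - a)) ∨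
    (1 ≤ n ∧ x ∈ Fine1 P j ∧ ∃ a, ∃ k : ℤ, ∀ y, ℓ y = kΛ a ((n : ℝ) • P.nu j y) - k) := by
  have hn := buf_nr c.ok hx
  rcases cases hl with ⟨k', p, h1, h2, -⟩ | ⟨j', p, h1, h2, h3⟩ | ⟨k', z, h1, h2, -⟩ |
    ⟨h0, j', h1, h2⟩
  · exact absurd (h2.nr hn (by norm_num) (by norm_num)) h1.not_nr
  · obtain rfl := co_eq (hn.mono (by norm_num)) h2 h1
    exact Or.inl h3
  · exact absurd (mem_U.2 (hn.mono (by norm_num))) ((core_pin h1 h2).2.2 j)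
  · obtain rfl := fine_eq c.ok (hn.mono (by norm_num)) h1.1
    exact Or.inr ⟨h0, h1, h2⟩

theorem ad_box (hx : x ∈ P.BufSet j) (hf : ¬ (1 ≤ n ∧ x ∈ Fine1 P j)) :
    Ad pΛ (P.nu j) (c.Ψ n x) := fun _ hl =>
  (buf_cases hx hl).resolve_right fun h => hf ⟨h.1, h.2.1⟩

theorem ad_fine (hx : x ∈ P.BufSet j) (hn : 1 ≤ n) :
    Ad kΛ (fun y => (n : ℝ) • P.nu j y) (c.Ψ n x) := by
  intro ℓ hl
  have h0 : (0:ℝ) < n := by exact_mod_cast hn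
  rcases buf_cases hx hl with ⟨i, a, ε, hε, e⟩ | ⟨-, -, a, k, e⟩
  · refine ⟨Sum.inl i, n * a, ε / n, by positivity, fun y => ?_⟩
    rw [e]
    simp only [kΛ, LinearMap.proj_apply, Pi.smul_apply, smul_eq_mul]
    push_cast
    field_simp
  · exact ⟨a, k, 1, one_ne_zero, fun y => by rw [e, one_mul]⟩

/-- the functions at a point round which the size is pinned -/
theorem unif_cases (hx : ∀ y ∈ closedBall x ((2:ℝ)⁻¹ ^ k), Pin c.σ k y ∧ ∀ j, y ∉ P.U j)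
    {ℓ : E3 →ᵃ[ℝ] ℝ} (hl : ℓ ∈ c.Ψ n x) :
    (∃ (i : Fin 3) (a : ℤ) (ε : ℝ), ε ≠ 0 ∧ ∀ y, ℓ y = ε * (dy P k y i - a)) ∨
    (x ∈ Core P c.𝓒 ∧ ∃ a, ∃ b : ℤ, ∀ y, ℓ y = kΛ a (dy P k y) - b) := by
  obtain ⟨a1, a2⟩ := hx x (mem_closedBall_self (by positivity))
  rcases cases hl with ⟨k', p, h1, ⟨l, h2, h3, h4⟩ | ⟨j, h2, -⟩, e⟩ |
    ⟨j, p, h1, ⟨l, h2, h4, h3⟩ | ⟨j, h2, -⟩, -⟩ | ⟨k', z, h1, h2, h3⟩ | ⟨-, j, h1, -⟩
  · obtain rfl := h2.eq_of_pin a1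
    obtain rfl := h1.eq_of_pin (hx p h4).1
    exact Or.inl e
  · exact absurd h2 (c.not_co (a2 j))
  · obtain rfl := h2.eq_of_pin a1
    exact absurd h1 (c.not_co ((hx p h3).2 j))
  · exact absurd h2 (c.not_co (a2 j))
  · obtain rfl := (core_pin h1 h2).2.1.zn.eq a1
    exact Or.inr ⟨⟨_, h1, h2⟩, h3⟩
  · exact absurd h1 (c.far_fine (c.far_of_not a2))

theorem ad_unif (hx : ∀ y ∈ closedBall x ((2:ℝ)⁻¹ ^ k), Pin c.σ k y ∧ ∀ j, y ∉ P.U j) :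
    Ad kΛ (dy P k) (c.Ψ n x) := by
  intro ℓ hl
  rcases unif_cases hx hl with ⟨i, a, ε, hε, e⟩ | ⟨-, a, b, e⟩
  · exact ⟨Sum.inl i, a, ε, hε, e⟩
  · exact ⟨a, b, 1, one_ne_zero, fun y => by rw [e, one_mul]⟩

theorem ad_unif' (hx : ∀ y ∈ closedBall x ((2:ℝ)⁻¹ ^ k), Pin c.σ k y ∧ ∀ j, y ∉ P.U j)
    (hc : x ∉ Core P c.𝓒) : Ad pΛ (dy P k) (c.Ψ n x) := fun _ hl =>
  (unif_cases hx hl).resolve_right fun h => hc h.1

theorem kΛ_rat (a : Fin 3 ⊕ Fin 3 × Fin 3) {N : E3 →ₗ[ℝ] E3}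
    (h : ∀ i l, ∃ q : ℚ, N (Pi.single i 1) l = q) (l : Fin 3) :
    ∃ q : ℚ, kΛ a (N (Pi.single l 1)) = q := by
  rcases a with i | ⟨i, i'⟩
  · exact h l i
  · obtain ⟨q, hq⟩ := h l i
    obtain ⟨q', hq'⟩ := h l i'
    refine ⟨q - q', ?_⟩
    show N (Pi.single l 1) i - N (Pi.single l 1) i' = _
    rw [hq, hq']
    push_cast
    rfl

theorem rat {ℓ : E3 →ᵃ[ℝ] ℝ} (hl : ℓ ∈ c.Ψ n x) : ∃ (c : ℝ) (g : E3 →ₗ[ℝ] ℝ) (k : ℤ), c ≠ 0 ∧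
    (∀ i, ∃ q : ℚ, g (Pi.single i 1) = q) ∧ ∀ y, ℓ y = c * (g (y - P.w) - k) := by
  have hd : ∀ (k : ℕ) (l i : Fin 3), ∃ q : ℚ,
      ((2:ℝ) ^ k • (LinearMap.id : E3 →ₗ[ℝ] E3)) (Pi.single l 1) i = q := fun k l i => by
    obtain ⟨b, hb⟩ := single_int l i
    refine ⟨2 ^ k * b, ?_⟩
    show (2:ℝ) ^ k * (Pi.single l 1 : E3) i = _
    rw [hb]
    push_cast
    rfl
  rcases cases hl with ⟨k, p, -, -, i, a, ε, hε, e⟩ | ⟨j, p, -, -, i, a, ε, hε, e⟩ |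
    ⟨k, z, -, -, a, b, e⟩ | ⟨-, j, -, a, k, e⟩
  · exact ⟨ε, (LinearMap.proj i).comp ((2:ℝ) ^ k • (LinearMap.id : E3 →ₗ[ℝ] E3)), a, hε,
      fun l => hd k l i, fun y => by rw [e]; rfl⟩
  · obtain ⟨N, h1, h2⟩ := exists_nuL P j
    exact ⟨ε, (LinearMap.proj i).comp N, a, hε, fun l => h2 l i, fun y => by rw [e, h1]; rfl⟩
  · exact ⟨1, (kΛ a).comp ((2:ℝ) ^ k • LinearMap.id), b, one_ne_zero, kΛ_rat a (hd k),
      fun y => by rw [e, one_mul]; rfl⟩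
  · obtain ⟨N, h1, h2⟩ := exists_nuL P j
    refine ⟨1, (kΛ a).comp ((n : ℝ) • N), k, one_ne_zero, kΛ_rat a fun l i => ?_,
      fun y => by rw [e, h1, one_mul]; rfl⟩
    obtain ⟨q, hq⟩ := h2 l i
    refine ⟨n * q, ?_⟩
    show (n : ℝ) * N (Pi.single l 1) i = _
    rw [hq]
    push_cast
    rfl

theorem mult {K : RCx E3} (h : SC K (c.Ψ n)) (x : E3) :
    {i | x ∈ K.cell i}.Finite ∧ {i | x ∈ K.cell i}.ncard ≤ 3 ^ 15 := by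
  have e1 : ∀ (k : ℕ) (i : Fin 3) (a ε : ℝ) (y : E3), ε * (dy P k y i - a) - ε * (dy P k x i - a) =
      ε * 2 ^ k * (y i - x i) := fun k i a ε y => by
    simp only [dy, Pi.smul_apply, Pi.sub_apply, smul_eq_mul]
    ring
  by_cases hx : ∃ j, Nr P j 20 x
  · obtain ⟨j, hx⟩ := hx
    refine h.mult (κ := Fin 3 ⊕ Fin 3 ⊕ Fin 3 × Fin 3)
      (Sum.elim (fun i y => y i) fun a y => kΛ a (P.nu j y)) fun ℓ hl => ?_
    rcases cases hl with ⟨k, p, -, -, i, a, ε, -, e⟩ | ⟨j', p, h1, h2, i, a, ε, -, e⟩ |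
      ⟨k, z, h1, h2, -⟩ | ⟨-, j', h1, a, k, e⟩
    · exact ⟨Sum.inl i, ε * 2 ^ k, fun y => by rw [e, e, e1]; rfl⟩
    · obtain rfl := co_eq hx h2 h1
      refine ⟨Sum.inr (Sum.inl i), ε, fun y => ?_⟩
      rw [e, e]
      simp only [Sum.elim_inr, kΛ, LinearMap.proj_apply]
      ring
    · exact absurd (mem_U.2 hx) ((core_pin h1 h2).2.2 j)
    · obtain rfl := fine_eq c.ok hx h1.1
      refine ⟨Sum.inr a, n, fun y => ?_⟩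
      rw [e, e]
      simp only [Sum.elim_inr, map_smul, smul_eq_mul]
      ring
  · refine h.mult (κ := Fin 3 ⊕ Fin 3 ⊕ Fin 3 × Fin 3)
      (Sum.elim (fun i y => y i) fun a y => kΛ a y) fun ℓ hl => ?_
    rcases cases hl with ⟨k, p, -, -, i, a, ε, -, e⟩ | ⟨j, p, h1, h2, -⟩ |
      ⟨k, z, -, -, a, b, e⟩ | ⟨-, j, h1, -⟩
    · exact ⟨Sum.inl i, ε * 2 ^ k, fun y => by rw [e, e, e1]; rfl⟩
    · exact absurd ⟨j, h2.symm.nr (h1.nr c.ok) (by norm_num) (by norm_num)⟩ hx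
    · refine ⟨Sum.inr a, 2 ^ k, fun y => ?_⟩
      rw [e, e]
      simp only [Sum.elim_inr, dy, map_smul, map_sub, smul_eq_mul]
      ring
    · exact absurd ⟨j, (buf_nr c.ok (fine_buf h1.1)).mono (by norm_num)⟩ hx

end Ctx

end M2

end P073
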