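import Vale.Agent.P073Y.Ms.Geo
import Vale.Agent.P073Z.TriU

/-!
# The family of boxes with cores and its arrangement complex
-/

open Set Metric Topology Filter MeasureTheory
open scoped ENNReal NNReal

namespace P073

namespace M2

open Me G2

namespace Ctx

variable {Ω : Set E3} {P : Par} (c : Ctx Ω P) (n : ℕ)

/-- admissible indices -/
def okm (m : Mem P) : Prop :=
  (∃ k, m.1 = Sum.inl k ∧ m.2.2 = ∅ ∧ c.cube k m.2.1) ∨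
    ∃ j, m.1 = Sum.inr j ∧ core P j m.2.1 ∧
      (m.2.2 = ∅ ∨ ∀ y, P.nu j y ∈ uface m.2.1 m.2.2 → y ∈ Fine1 P j)

/-- the boxes -/
def C (m : Mem P) : Set E3 := c.θ m.1 ⁻¹' uface m.2.1 m.2.2

/-- their facet functions -/
def G (m : Mem P) : Set (E3 →ᵃ[ℝ] ℝ) :=
  range (fun i => fm (c.θ m.1) (LinearMap.proj i)
    ((m.2.1 i + if i ∈ m.2.2 then 0 else 1 : ℤ) : ℝ)) ∪
  range (fun i => -fm (c.θ m.1) (LinearMap.proj i) (m.2.1 i))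

/-- the boxes which are subdivided, with the number of pieces -/
def kn (m : Mem P) (N : ℕ) : Prop :=
  (∃ k, m.1 = Sum.inl k ∧ (k, m.2.1) ∈ c.𝓒 ∧ N = 1) ∨
    ∃ j, m.1 = Sum.inr j ∧ (∀ y, P.nu j y ∈ uface m.2.1 m.2.2 → y ∈ Fine1 P j) ∧ N = n ∧ 1 ≤ n

/-- the Kuhn functions -/
def Kn (m : Mem P) : Set (E3 →ᵃ[ℝ] ℝ) :=
  {ℓ | ∃ N, c.kn n m N ∧ ∃ a, ∃ k : ℤ,
    |(k : ℝ) - N * kΛ a (fun i => (m.2.1 i : ℝ))| ≤ N ∧ ℓ = fm (c.θ m.1) ((N : ℝ) • kΛ a) k}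

/-- all functions of a box -/
def H (m : Mem P) : Set (E3 →ᵃ[ℝ] ℝ) :=
  {ℓ | ∃ m', c.okm m' ∧ (c.C m ∩ c.C m').Nonempty ∧ ℓ ∈ c.G m'} ∪ c.Kn n m

/-- all functions relevant at a point -/
def Ψ (x : E3) : Set (E3 →ᵃ[ℝ] ℝ) := {ℓ | ∃ m, c.okm m ∧ x ∈ c.C m ∧ ℓ ∈ c.H n m}

theorem finite_G (m : Mem P) : (c.G m).Finite := (finite_range _).union (finite_range _)

theorem finite_Kn (m : Mem P) : (c.Kn n m).Finite := by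
  refine ((toFinite ({1, n} : Set ℕ)).biUnion fun N _ =>
    finite_iUnion fun a : Fin 3 ⊕ Fin 3 × Fin 3 => (Set.finite_Icc
    ⌊N * kΛ a (fun i => (m.2.1 i : ℝ)) - N⌋ ⌈N * kΛ a (fun i => (m.2.1 i : ℝ)) + N⌉).image
      fun k : ℤ => fm (c.θ m.1) ((N : ℝ) • kΛ a) k).subset ?_
  rintro _ ⟨N, hN, a, k, h, rfl⟩
  rw [abs_le] at h
  refine mem_iUnion₂.2 ⟨N, ?_, mem_iUnion.2 ⟨a, k, ⟨Int.floor_le_iff.2 (by linarith [h.1]),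
    Int.le_ceil_iff.2 (by linarith [h.2])⟩, rfl⟩⟩
  rcases hN with ⟨_, -, -, h1⟩ | ⟨_, -, -, h1, -⟩
  · exact Or.inl h1
  · exact Or.inr h1

theorem C_eq (m : Mem P) : c.C m = {x | ∀ ℓ ∈ c.G m, ℓ x ≤ 0} := by
  ext x
  rw [C, mem_preimage, mem_uface]
  constructor
  · rintro h _ (⟨i, rfl⟩ | ⟨i, rfl⟩)
    · exact sub_nonpos.2 (h i).2
    · exact neg_nonpos.2 (sub_nonneg.2 (h i).1)
  · exact fun h i => ⟨sub_nonneg.1 (neg_nonpos.1 (h _ (Or.inr ⟨i, rfl⟩))),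
      sub_nonpos.1 (h _ (Or.inl ⟨i, rfl⟩))⟩

theorem isCompact_C (m : Mem P) : IsCompact (c.C m) := by
  have h : uface m.2.1 m.2.2 = Icc (fun i => (m.2.1 i : ℝ))
      (fun i => ((m.2.1 i + if i ∈ m.2.2 then 0 else 1 : ℤ) : ℝ)) := by
    ext ξ
    rw [mem_uface]
    exact ⟨fun h => ⟨fun i => (h i).1, fun i => (h i).2⟩, fun h i => ⟨h.1 i, h.2 i⟩⟩
  rw [C, h]
  exact (c.θ m.1).toHomeomorph.isCompact_preimage.2 isCompact_Icc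

/-- two points in a common box -/
def Adj (x p : E3) : Prop :=
  (∃ k, c.Cb k x ∧ c.Cb k p ∧ dist p x ≤ (2:ℝ)⁻¹ ^ k) ∨
    ∃ j, Co P j x ∧ Co P j p ∧ dist p x ≤ un P j

variable {c n} {m : Mem P} {x y : E3}

theorem mem_cube {k : ℕ} (h : m.1 = Sum.inl k) (hx : x ∈ c.C m) : dy P k x ∈ ucube m.2.1 := by
  have := hx.1
  rwa [h, c.hδ] at this

theorem mem_core {j : Fin P.N} (h : m.1 = Sum.inr j) (hx : x ∈ c.C m) :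
    P.nu j x ∈ uface m.2.1 m.2.2 := by
  have : c.θ m.1 x ∈ uface m.2.1 m.2.2 := hx
  rwa [h, c.hν] at this

theorem adj (hm : c.okm m) (hx : x ∈ c.C m) (hy : y ∈ c.C m) : c.Adj x y := by
  rcases hm with ⟨k, h1, -, h2⟩ | ⟨j, h1, h2, -⟩
  · exact Or.inl ⟨k, ⟨_, h2, mem_cube h1 hx⟩, ⟨_, h2, mem_cube h1 hy⟩,
      dist_cube (mem_cube h1 hy) (mem_cube h1 hx)⟩
  · exact Or.inr ⟨j, ⟨_, h2, (mem_core h1 hx).1⟩, ⟨_, h2, (mem_core h1 hy).1⟩,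
      dist_core c.ok (mem_core h1 hy).1 (mem_core h1 hx).1⟩

theorem cube_mem {k : ℕ} {z : Fin 3 → ℤ} : x ∈ c.C (Sum.inl k, z, ∅) ↔ dy P k x ∈ ucube z := by
  rw [C, mem_preimage, c.hδ, uface_empty]

theorem core_mem {j : Fin P.N} {z : Fin 3 → ℤ} {J : Finset (Fin 3)} :
    x ∈ c.C (Sum.inr j, z, J) ↔ P.nu j x ∈ uface z J := by
  rw [C, mem_preimage, c.hν]

theorem mem_Ω (hm : c.okm m) (hx : x ∈ c.C m) : x ∈ Ω := by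
  rcases adj hm hx hx with ⟨k, h, -⟩ | ⟨j, h, -⟩
  · exact h.facts.1
  · exact (((h.nr c.ok).mono (by norm_num)).big c.ok).1

variable (c n)

theorem iUnion_C : ⋃ m : {m // c.okm m}, c.C m = Ω := by
  refine Subset.antisymm (iUnion_subset fun m x hx => mem_Ω m.2 hx) fun x hx => ?_
  rcases c.cover hx with ⟨k, z, h1, h2⟩ | ⟨j, z, h1, h2⟩
  · exact mem_iUnion.2 ⟨⟨(Sum.inl k, z, ∅), Or.inl ⟨k, rfl, rfl, h1⟩⟩, cube_mem.2 h2⟩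
  · exact mem_iUnion.2 ⟨⟨(Sum.inr j, z, ∅), Or.inr ⟨j, rfl, h1, Or.inl rfl⟩⟩,
      core_mem.2 (uface_empty z ▸ h2)⟩

theorem lfIn : LFIn (fun m : {m // c.okm m} => c.C m) Ω := by
  intro x hx
  obtain ⟨k₁, hk⟩ := c.bdd_scale hx
  refine ⟨ball x (c.σ x), ball_mem_nhds x (c.ok2.pos x hx).1, ?_⟩
  have h1 : (Sum.inl '' Iic k₁ ∪ range Sum.inr : Set (ℕ ⊕ Fin P.N)).Finite :=
    ((finite_Iic k₁).image _).union (finite_range _)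
  have h2 := h1.biUnion fun a _ => (finite_singleton a).prod ((finite_cubes
    ((isCompact_closedBall x (c.σ x)).image (c.θ a).continuous).isBounded).prod
      (finite_univ (α := Finset (Fin 3))))
  refine (h2.preimage Subtype.val_injective.injOn).subset ?_
  rintro ⟨m, hm⟩ ⟨y, (h3 : y ∈ c.C m), h4⟩
  have h7 := h3.1
  refine mem_iUnion₂.2 ⟨m.1, ?_, rfl, ⟨_, h7, y, ball_subset_closedBall h4, rfl⟩, trivial⟩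
  rcases hm with ⟨k, h5, -, h6⟩ | ⟨j, h5, -⟩
  · exact Or.inl ⟨k, hk k y h4 ⟨_, h6, mem_cube h5 h3⟩, h5.symm⟩
  · exact Or.inr ⟨j, h5.symm⟩

theorem finite_H (hm : c.okm m) : (c.H n m).Finite := by
  refine Finite.union (((c.lfIn.finite_meet (c.isCompact_C m) fun x hx => mem_Ω hm hx).biUnion
    fun m' _ => c.finite_G m').subset ?_) (c.finite_Kn n m)
  rintro ℓ ⟨m', h1, h2, h3⟩
  exact mem_iUnion₂.2 ⟨⟨m', h1⟩, h2.imp fun _ h => ⟨h.2, h.1⟩, h3⟩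

/-- the arrangement complex -/
structure Cx (K : RCx E3) : Prop where
  sc : SC K (c.Ψ n)
  car : K.carrier = Ω
  sub : ∀ i, ∀ x ∈ K.ocell i, ∀ m, c.okm m → x ∈ c.C m → K.cell i ⊆ c.C m

theorem exists_cx : ∃ K : RCx E3, c.Cx n K := by
  have hlf : LFIn (fun m : {m // c.okm m} => c.C m) (⋃ m : {m // c.okm m}, c.C m) := by
    rw [c.iUnion_C]
    exact c.lfIn
  obtain ⟨K, h1, h2, h3⟩ := arr (fun m : {m // c.okm m} => c.C m)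
    (fun m => (c.finite_G m).toFinset) (fun m => (c.finite_H n m.2).toFinset)
    (fun m => by simp only [Finite.mem_toFinset]; exact c.C_eq m) (fun m => c.isCompact_C m) hlf
    (fun m m' h ℓ hl => (Finite.mem_toFinset _).2
      (Or.inl ⟨m', m'.2, h, (Finite.mem_toFinset _).1 hl⟩))
  rw [c.iUnion_C] at h2
  simp only [Finite.mem_toFinset] at h3
  have hcc : ∀ i, ∀ x ∈ K.ocell i, K.cell i = sgnC (c.Ψ n x) x := fun i x hx => by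
    rw [(h3 i x hx).2]
    exact Set.ext fun y => ⟨fun h ℓ ⟨m, a, b, d⟩ => h ⟨m, a⟩ b ℓ d,
      fun h m b ℓ d => h ℓ ⟨m, m.2, b, d⟩⟩
  have hsub : ∀ i, ∀ x ∈ K.ocell i, ∀ m, c.okm m → x ∈ c.C m → K.cell i ⊆ c.C m := by
    intro i x hx m hm hxm y hy
    rw [hcc i x hx] at hy
    rw [c.C_eq]
    exact fun ℓ hl => (hy ℓ ⟨m, hm, hxm, Or.inl ⟨m, hm, ⟨x, hxm, hxm⟩, hl⟩⟩).2
      ((c.C_eq m).subset hxm ℓ hl)
  refine ⟨K, ⟨h1, fun x hx => ?_, fun i x hx => ?_, hcc,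
    fun i x hx y hy ℓ ⟨m, a, b, d⟩ => ⟨m, a, hsub i x hx m a b hy, d⟩⟩, h2, hsub⟩
  · refine ((c.lfIn.finite_mem (h2 ▸ hx)).biUnion fun m _ => c.finite_H n m.2).subset ?_
    rintro ℓ ⟨m, a, b, d⟩
    exact mem_iUnion₂.2 ⟨⟨m, a⟩, b, d⟩
  · rw [(h3 i x hx).1]
    exact Set.ext fun y => ⟨fun h ℓ ⟨m, a, b, d⟩ => h ⟨m, a⟩ b ℓ d,
      fun h m b ℓ d => h ℓ ⟨m, m.2, b, d⟩⟩

theorem Ψ_mono (x : E3) : c.Ψ 0 x ⊆ c.Ψ n x := by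
  rintro ℓ ⟨m, h1, h2, h3 | ⟨N, h3 | ⟨j, -, -, -, h3⟩, h4⟩⟩
  · exact ⟨m, h1, h2, Or.inl h3⟩
  · exact ⟨m, h1, h2, Or.inr ⟨N, Or.inl h3, h4⟩⟩
  · omega

theorem Ψ_eq (hx : ∀ j, x ∉ Fine1 P j) : c.Ψ n x = c.Ψ 0 x := by
  refine Subset.antisymm ?_ (c.Ψ_mono n x)
  rintro ℓ ⟨m, h1, h2, h3 | ⟨N, h3 | ⟨j, h3, h5, -⟩, h4⟩⟩
  · exact ⟨m, h1, h2, Or.inl h3⟩
  · exact ⟨m, h1, h2, Or.inr ⟨N, Or.inl h3, h4⟩⟩
  · exact absurd (h5 x (mem_core h3 h2)) (hx j)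

variable {c n}

/-- the four kinds of functions -/
theorem cases {ℓ : E3 →ᵃ[ℝ] ℝ} (h : ℓ ∈ c.Ψ n x) :
    (∃ (k : ℕ) (p : E3), c.Cb k p ∧ c.Adj x p ∧ ∃ (i : Fin 3) (a : ℤ) (ε : ℝ), ε ≠ 0 ∧
      ∀ y, ℓ y = ε * (dy P k y i - a)) ∨
    (∃ (j : Fin P.N) (p : E3), Co P j p ∧ c.Adj x p ∧ ∃ (i : Fin 3) (a : ℤ) (ε : ℝ), ε ≠ 0 ∧
      ∀ y, ℓ y = ε * (P.nu j y i - a)) ∨
    (∃ k z, (k, z) ∈ c.𝓒 ∧ dy P k x ∈ ucube z ∧ ∃ a, ∃ b : ℤ, ∀ y, ℓ y = kΛ a (dy P k y) - b) ∨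
    (1 ≤ n ∧ ∃ j, x ∈ Fine1 P j ∧ ∃ a, ∃ k : ℤ, ∀ y, ℓ y = kΛ a ((n : ℝ) • P.nu j y) - k) := by
  obtain ⟨m, hm, hx, ⟨m', hm', ⟨p, h1, h2⟩, hl⟩ |
    ⟨N, ⟨k, h1, h2, rfl⟩ | ⟨j, h1, h2, rfl, h3⟩, a, b, -, rfl⟩⟩ := h
  · have h3 : ∃ (i : Fin 3) (a : ℤ) (ε : ℝ), ε ≠ 0 ∧ ∀ y, ℓ y = ε * (c.θ m'.1 y i - a) := by
      rcases hl with ⟨i, rfl⟩ | ⟨i, rfl⟩
      · exact ⟨i, _, 1, one_ne_zero, fun y => (one_mul _).symm⟩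
      · exact ⟨i, _, -1, by norm_num, fun y => (neg_one_mul _).symm⟩
    rcases hm' with ⟨k, h4, -, h5⟩ | ⟨j, h4, h5, -⟩
    · simp only [h4, c.hδ] at h3
      exact Or.inl ⟨k, p, ⟨_, h5, mem_cube h4 h2⟩, adj hm hx h1, h3⟩
    · simp only [h4, c.hν] at h3
      exact Or.inr (Or.inl ⟨j, p, ⟨_, h5, (mem_core h4 h2).1⟩, adj hm hx h1, h3⟩)
  · refine Or.inr (Or.inr (Or.inl ⟨k, _, h2, mem_cube h1 hx, a, b, fun y => ?_⟩))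
    rw [fm_apply, h1, c.hδ, Nat.cast_one, one_smul]
  · refine Or.inr (Or.inr (Or.inr ⟨h3, j, h2 x (mem_core h1 hx), a, b, fun y => ?_⟩))
    rw [fm_apply, h1, c.hν, map_smul]
    rfl

theorem kuhn_mem {N : ℕ} (hm : c.okm m) (hx : x ∈ c.C m) (hN : c.kn n m N)
    (a : Fin 3 ⊕ Fin 3 × Fin 3) {k : ℤ}
    (hk : |(k : ℝ) - N * kΛ a (fun i => (m.2.1 i : ℝ))| ≤ N) :
    ∃ ℓ ∈ c.Ψ n x, ∀ y, ℓ y = kΛ a ((N : ℝ) • c.θ m.1 y) - k := by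
  refine ⟨_, ⟨m, hm, hx, Or.inr ⟨N, hN, a, k, hk, rfl⟩⟩, fun y => ?_⟩
  rw [fm_apply, map_smul]
  rfl

/-- a fine point lies in a subdivided edge -/
theorem exists_mem {j : Fin P.N} (hx : x ∈ Fine1 P j) :
    ∃ (z : Fin 3 → ℤ) (J : Finset (Fin 3)), J.card = 2 ∧ c.okm (Sum.inr j, z, J) ∧
      x ∈ c.C (Sum.inr j, z, J) ∧ ∀ y, P.nu j y ∈ uface z J → y ∈ Fine1 P j := by
  obtain ⟨z, J, h1, h2, h3⟩ := exists_edge hx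
  exact ⟨z, J, h1, Or.inr ⟨j, rfl, ⟨x, (buf_nr c.ok (fine_buf hx.1)).mono (by norm_num), h2.1⟩,
    Or.inr h3⟩, core_mem.2 h2, h3⟩

end Ctx

end M2

end P073
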